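import Mathlib

section

/-!
# Single-fold Diophantine predicates: contexts, polynomials, closure properties
-/

namespace Vale.Agent.P345

/-- A context: a type identified with finite tuples of natural numbers. -/
class Ctx (X : Type) where
  /-- the index type -/
  ix : Type
  fin : Finite ix
  /-- the identification -/
  eqv : X ≃ (ix → ℕ)

attribute [instance] Ctx.fin

instance : Ctx ℕ := ⟨Unit, inferInstance, (Equiv.funUnique Unit ℕ).symm⟩

instance {X Y : Type} [Ctx X] [Ctx Y] : Ctx (X × Y) :=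
  ⟨Ctx.ix X ⊕ Ctx.ix Y, inferInstance,
    (Equiv.prodCongr Ctx.eqv Ctx.eqv).trans (Equiv.sumArrowEquivProdArrow _ _ _).symm⟩

instance (n : ℕ) : Ctx (Fin n → ℕ) := ⟨Fin n, inferInstance, Equiv.refl _⟩

instance (n : ℕ) : Ctx (List.Vector ℕ n) := ⟨Fin n, inferInstance, Equiv.vectorEquivFin ℕ n⟩

instance : Ctx Unit := ⟨Empty, inferInstance, Equiv.ofUnique _ _⟩

/-- Reindexing maps between contexts. -/
def Re {X Y : Type} [Ctx X] [Ctx Y] (φ : X → Y) : Prop :=
  ∃ g : Ctx.ix Y → Ctx.ix X, ∀ x j, Ctx.eqv (φ x) j = Ctx.eqv x (g j)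

section Re

variable {X Y Z : Type} [Ctx X] [Ctx Y] [Ctx Z]

theorem Re.id : Re (fun x : X => x) := ⟨fun j => j, fun _ _ => rfl⟩

theorem Re.comp {f : Y → Z} {g : X → Y} (hf : Re f) (hg : Re g) : Re (fun x => f (g x)) := by
  obtain ⟨a, ha⟩ := hf
  obtain ⟨b, hb⟩ := hg
  exact ⟨fun j => b (a j), fun x j => by rw [ha, hb]⟩

theorem Re.fst : Re (Prod.fst : X × Y → X) := ⟨fun j => Sum.inl j, fun _ _ => rfl⟩

theorem Re.snd : Re (Prod.snd : X × Y → Y) := ⟨fun j => Sum.inr j, fun _ _ => rfl⟩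

theorem Re.pair {f : X → Y} {g : X → Z} (hf : Re f) (hg : Re g) : Re (fun x => (f x, g x)) := by
  obtain ⟨a, ha⟩ := hf
  obtain ⟨b, hb⟩ := hg
  refine ⟨fun j => j.elim a b, fun x j => ?_⟩
  cases j with
  | inl j => exact ha x j
  | inr j => exact hb x j

end Re

/-- Polynomial functions on a context. -/
def IsP {X : Type} [Ctx X] (f : X → ℤ) : Prop := IsPoly (fun v => f (Ctx.eqv.symm v))

theorem IsPoly.reindex {α β : Type} {p : (α → ℕ) → ℤ} (hp : IsPoly p) (g : α → β) :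
    IsPoly (fun v : β → ℕ => p (fun a => v (g a))) := by
  induction hp with
  | proj i => exact IsPoly.proj (g i)
  | const n => exact IsPoly.const n
  | sub _ _ h1 h2 => exact IsPoly.sub h1 h2
  | mul _ _ h1 h2 => exact IsPoly.mul h1 h2

section IsP

variable {X Y Z : Type} [Ctx X] [Ctx Y] [Ctx Z]

theorem IsP.re {f : Y → ℤ} (hf : IsP f) {φ : X → Y} (hφ : Re φ) : IsP (fun x => f (φ x)) := by
  obtain ⟨g, hg⟩ := hφ
  have h := IsPoly.reindex hf g
  have e : ∀ v : Ctx.ix X → ℕ, φ (Ctx.eqv.symm v) = Ctx.eqv.symm (fun a => v (g a)) := by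
    intro v
    apply Ctx.eqv.injective
    rw [Equiv.apply_symm_apply]
    funext j
    rw [hg, Equiv.apply_symm_apply]
  unfold IsP
  simp only [e]
  exact h

theorem IsP.const (n : ℤ) : IsP (fun _ : X => n) := IsPoly.const n

theorem IsP.sub {f g : X → ℤ} (hf : IsP f) (hg : IsP g) : IsP (fun x => f x - g x) :=
  IsPoly.sub hf hg

theorem IsP.mul {f g : X → ℤ} (hf : IsP f) (hg : IsP g) : IsP (fun x => f x * g x) :=
  IsPoly.mul hf hg

theorem IsP.neg {f : X → ℤ} (hf : IsP f) : IsP (fun x => -f x) := by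
  have := (IsP.const 0).sub hf
  simpa using this

theorem IsP.add {f g : X → ℤ} (hf : IsP f) (hg : IsP g) : IsP (fun x => f x + g x) := by
  have := hf.sub hg.neg
  simpa using this

theorem IsP.pow {f : X → ℤ} (hf : IsP f) (n : ℕ) : IsP (fun x => f x ^ n) := by
  induction n with
  | zero => simpa using IsP.const (X := X) 1
  | succ n ih =>
    simp only [pow_succ]
    exact ih.mul hf

theorem IsP.sum {κ : Type*} (s : Finset κ) {f : κ → X → ℤ} (hf : ∀ i ∈ s, IsP (f i)) :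
    IsP (fun x => ∑ i ∈ s, f i x) := by
  classical
  induction s using Finset.induction_on with
  | empty => simpa using IsP.const (X := X) 0
  | insert a s ha ih =>
    simp only [Finset.sum_insert ha]
    exact (hf a (by simp)).add (ih fun i hi => hf i (by simp [hi]))

theorem IsP.coord (j : Ctx.ix X) : IsP (fun x : X => (Ctx.eqv x j : ℤ)) := by
  unfold IsP
  simp only [Equiv.apply_symm_apply]
  exact IsPoly.proj j

theorem IsP.nat : IsP (fun x : ℕ => (x : ℤ)) := IsP.coord (X := ℕ) ()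

theorem IsP.apply {n : ℕ} (i : Fin n) : IsP (fun w : Fin n → ℕ => (w i : ℤ)) :=
  IsP.coord (X := Fin n → ℕ) i

theorem IsP.get {n : ℕ} (i : Fin n) : IsP (fun w : List.Vector ℕ n => (w.get i : ℤ)) :=
  IsP.coord (X := List.Vector ℕ n) i

theorem IsP.of_re {f : X → ℕ} (hf : Re f) : IsP (fun x => (f x : ℤ)) := IsP.nat.re hf

end IsP

/-- Single-fold Diophantine predicates. -/
def SF {X : Type} [Ctx X] (P : X → Prop) : Prop :=
  ∃ (m : ℕ) (f : X × (Fin m → ℕ) → ℤ), IsP f ∧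
    ∀ x, (P x → ∃! w, f (x, w) = 0) ∧ ∀ w, f (x, w) = 0 → P x

section SF

variable {X Y Z W : Type} [Ctx X] [Ctx Y] [Ctx Z] [Ctx W]

/-- Reindexing by an equivalence of index types. -/
theorem exists_fin_equiv (W : Type) [Ctx W] : ∃ (m : ℕ) (g : (Fin m → ℕ) ≃ W), Re g := by
  obtain ⟨m, ⟨h⟩⟩ := Finite.exists_equiv_fin (Ctx.ix W)
  refine ⟨m, (Equiv.arrowCongr h (Equiv.refl ℕ)).symm.trans Ctx.eqv.symm, h, fun x j => ?_⟩
  simp only [Equiv.trans_apply, Equiv.apply_symm_apply]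
  rfl

theorem SF.mk' {P : X → Prop} (f : X × W → ℤ) (hf : IsP f)
    (h1 : ∀ x, P x → ∃! w, f (x, w) = 0) (h2 : ∀ x w, f (x, w) = 0 → P x) : SF P := by
  obtain ⟨m, g, hg⟩ := exists_fin_equiv W
  refine ⟨m, fun p => f (p.1, g p.2), hf.re (Re.fst.pair (hg.comp Re.snd)), fun x => ⟨?_, ?_⟩⟩
  · intro hx
    obtain ⟨w, hw, huniq⟩ := h1 x hx
    refine ⟨g.symm w, by simpa using hw, fun w' hw' => ?_⟩
    have := huniq (g w') hw'
    rw [← this]
    simp
  · intro w hw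
    exact h2 x _ hw

theorem SF.congr {P Q : X → Prop} (hP : SF P) (h : ∀ x, P x ↔ Q x) : SF Q := by
  have : P = Q := funext fun x => propext (h x)
  rwa [← this]

/-- Substitution of a reindexing map. -/
theorem SF.re {P : Y → Prop} (hP : SF P) {φ : X → Y} (hφ : Re φ) : SF (fun x => P (φ x)) := by
  obtain ⟨m, f, hf, h⟩ := hP
  exact ⟨m, fun p => f (φ p.1, p.2), hf.re ((hφ.comp Re.fst).pair Re.snd), fun x => h (φ x)⟩

theorem SF.of_poly {f : X → ℤ} (hf : IsP f) : SF (fun x => f x = 0) := by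
  refine ⟨0, fun p => f p.1, hf.re Re.fst, fun x => ⟨fun hx => ⟨default, hx, ?_⟩, fun _ h => h⟩⟩
  intro w _
  exact Subsingleton.elim _ _

theorem SF.const (p : Prop) : SF (fun _ : X => p) := by
  by_cases hp : p
  · exact (SF.of_poly (X := X) (IsP.const 0)).congr fun x => by simp [hp]
  · exact (SF.of_poly (X := X) (IsP.const 1)).congr fun x => by simp [hp]

theorem sq_add_sq_eq_zero_int {a b : ℤ} (h : a ^ 2 + b ^ 2 = 0) : a = 0 ∧ b = 0 := by
  constructor <;> nlinarith [sq_nonneg a, sq_nonneg b]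

theorem SF.and {P Q : X → Prop} (hP : SF P) (hQ : SF Q) : SF (fun x => P x ∧ Q x) := by
  obtain ⟨m, f, hf, h⟩ := hP
  obtain ⟨n, g, hg, h'⟩ := hQ
  refine SF.mk' (W := (Fin m → ℕ) × (Fin n → ℕ))
    (fun p => f (p.1, p.2.1) ^ 2 + g (p.1, p.2.2) ^ 2)
    (((hf.re (Re.fst.pair (Re.fst.comp Re.snd))).pow 2).add
      ((hg.re (Re.fst.pair (Re.snd.comp Re.snd))).pow 2)) ?_ ?_
  · rintro x ⟨hp, hq⟩
    obtain ⟨w, hw, hu⟩ := (h x).1 hp
    obtain ⟨w', hw', hu'⟩ := (h' x).1 hq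
    refine ⟨(w, w'), by simp only at hw hw' ⊢; rw [hw, hw']; norm_num, ?_⟩
    rintro ⟨u, u'⟩ huu
    obtain ⟨e1, e2⟩ := sq_add_sq_eq_zero_int huu
    rw [hu u e1, hu' u' e2]
  · rintro x ⟨w, w'⟩ hw
    obtain ⟨e1, e2⟩ := sq_add_sq_eq_zero_int hw
    exact ⟨(h x).2 w e1, (h' x).2 w' e2⟩

/-- sum of squares of a tuple -/
def nrm {m : ℕ} (w : Fin m → ℕ) : ℤ := ∑ i, (w i : ℤ) ^ 2

theorem nrm_eq_zero {m : ℕ} {w : Fin m → ℕ} : nrm w = 0 ↔ w = 0 := by
  unfold nrm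
  rw [Finset.sum_eq_zero_iff_of_nonneg fun i _ => sq_nonneg _]
  constructor
  · intro h
    funext i
    simpa using h i (Finset.mem_univ i)
  · intro h i _
    simp [h]

theorem nrm_nonneg {m : ℕ} (w : Fin m → ℕ) : 0 ≤ nrm w :=
  Finset.sum_nonneg fun i _ => sq_nonneg _

theorem IsP.nrm {m : ℕ} : IsP (fun w : Fin m → ℕ => nrm w) :=
  IsP.sum _ fun i _ => (IsP.apply i).pow 2

theorem SF.or {P Q : X → Prop} (hP : SF P) (hQ : SF Q) (hd : ∀ x, P x → Q x → False) :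
    SF (fun x => P x ∨ Q x) := by
  obtain ⟨m, f, hf, h⟩ := hP
  obtain ⟨n, g, hg, h'⟩ := hQ
  have key : ∀ (a : ℤ) {k : ℕ} (w : Fin k → ℕ), a ^ 2 + P345.nrm w = 0 → a = 0 ∧ w = 0 := by
    intro a k w ha
    have h1 := nrm_nonneg w
    have h2 := sq_nonneg a
    have h3 : P345.nrm w = 0 := by linarith
    have h4 : a ^ 2 = 0 := by linarith
    exact ⟨by simpa using h4, nrm_eq_zero.1 h3⟩
  refine SF.mk' (W := (Fin m → ℕ) × (Fin n → ℕ))
    (fun p => (f (p.1, p.2.1) ^ 2 + P345.nrm p.2.2) * (g (p.1, p.2.2) ^ 2 + P345.nrm p.2.1))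
    ((((hf.re (Re.fst.pair (Re.fst.comp Re.snd))).pow 2).add (IsP.nrm.re (Re.snd.comp Re.snd))).mul
      (((hg.re (Re.fst.pair (Re.snd.comp Re.snd))).pow 2).add (IsP.nrm.re (Re.fst.comp Re.snd))))
    ?_ ?_
  · rintro x hx
    rcases hx with hx | hx
    · obtain ⟨w, hw, hu⟩ := (h x).1 hx
      refine ⟨(w, 0), by simp only at hw ⊢; rw [hw]; simp [nrm_eq_zero.2 rfl], ?_⟩
      rintro ⟨u, u'⟩ huu
      rcases mul_eq_zero.1 huu with e | e
      · obtain ⟨e1, e2⟩ := key _ _ e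
        simp only at e1 e2
        rw [hu u e1, e2]
      · obtain ⟨e1, e2⟩ := key _ _ e
        exact (hd x hx ((h' x).2 _ e1)).elim
    · obtain ⟨w, hw, hu⟩ := (h' x).1 hx
      refine ⟨(0, w), by simp only at hw ⊢; rw [hw]; simp [nrm_eq_zero.2 rfl], ?_⟩
      rintro ⟨u, u'⟩ huu
      rcases mul_eq_zero.1 huu with e | e
      · obtain ⟨e1, e2⟩ := key _ _ e
        exact (hd x ((h x).2 _ e1) hx).elim
      · obtain ⟨e1, e2⟩ := key _ _ e
        simp only at e1 e2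
        rw [hu u' e1, e2]
  · rintro x ⟨w, w'⟩ hw
    rcases mul_eq_zero.1 hw with e | e
    · exact Or.inl ((h x).2 _ (key _ _ e).1)
    · exact Or.inr ((h' x).2 _ (key _ _ e).1)

/-- Existential quantification with at most one witness. -/
theorem SF.ex {R : X × Y → Prop} (hR : SF R) (hu : ∀ x y y', R (x, y) → R (x, y') → y = y') :
    SF (fun x => ∃ y, R (x, y)) := by
  obtain ⟨m, f, hf, h⟩ := hR
  refine SF.mk' (W := Y × (Fin m → ℕ)) (fun p => f ((p.1, p.2.1), p.2.2))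
    (hf.re ((Re.fst.pair (Re.fst.comp Re.snd)).pair (Re.snd.comp Re.snd))) ?_ ?_
  · rintro x ⟨y, hy⟩
    obtain ⟨w, hw, huw⟩ := (h (x, y)).1 hy
    refine ⟨(y, w), hw, ?_⟩
    rintro ⟨y', w'⟩ hw'
    have hy' : R (x, y') := (h (x, y')).2 w' hw'
    have e := hu x y y' hy hy'
    subst e
    rw [huw w' hw']
  · rintro x ⟨y, w⟩ hw
    exact ⟨y, (h (x, y)).2 w hw⟩

/-- Single-fold functions: the graph is single-fold. -/
def SFn (f : X → Y) : Prop := SF (fun p : X × Y => p.2 = f p.1)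

theorem SFn.congr {f g : X → Y} (hf : SFn f) (h : ∀ x, f x = g x) : SFn g := by
  have : f = g := funext h
  rwa [← this]

/-- Equality of tuples is single-fold. -/
theorem SF.eq_re {f g : X → Y} (hf : Re f) (hg : Re g) : SF (fun x => f x = g x) := by
  classical
  obtain ⟨a, ha⟩ := hf
  obtain ⟨b, hb⟩ := hg
  have := Fintype.ofFinite (Ctx.ix Y)
  have h : IsP (fun x : X => ∑ j : Ctx.ix Y,
      ((Ctx.eqv x (a j) : ℤ) - (Ctx.eqv x (b j) : ℤ)) ^ 2) :=
    IsP.sum _ fun j _ => ((IsP.coord (a j)).sub (IsP.coord (b j))).pow 2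
  refine (SF.of_poly h).congr fun x => ?_
  rw [Finset.sum_eq_zero_iff_of_nonneg fun i _ => sq_nonneg _]
  constructor
  · intro h0
    apply Ctx.eqv.injective
    funext j
    rw [ha, hb]
    have := h0 j (Finset.mem_univ j)
    have h1 : (Ctx.eqv x (a j) : ℤ) - (Ctx.eqv x (b j) : ℤ) = 0 := by simpa using this
    exact_mod_cast sub_eq_zero.1 h1
  · intro h0 j _
    rw [← ha, ← hb, h0]
    simp

theorem SFn.of_re {f : X → Y} (hf : Re f) : SFn f := SF.eq_re Re.snd (hf.comp Re.fst)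

theorem SFn.fst : SFn (Prod.fst : X × Y → X) := SFn.of_re Re.fst

theorem SFn.snd : SFn (Prod.snd : X × Y → Y) := SFn.of_re Re.snd

theorem SFn.id : SFn (fun x : X => x) := SFn.of_re Re.id

/-- Substituting a single-fold function in a single-fold predicate. -/
theorem SF.comp {P : Y → Prop} (hP : SF P) {f : X → Y} (hf : SFn f) : SF (fun x => P (f x)) := by
  have h : SF (fun x => ∃ y, (fun p : X × Y => p.2 = f p.1 ∧ P p.2) (x, y)) :=
    SF.ex (hf.and (hP.re Re.snd)) fun x y y' h1 h2 => by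
      simp only at h1 h2
      rw [h1.1, h2.1]
  refine h.congr fun x => ?_
  constructor
  · rintro ⟨y, hy, hp⟩
    simp only at hy hp
    rwa [← hy]
  · intro hp
    exact ⟨f x, rfl, hp⟩

theorem SFn.comp {g : Y → Z} (hg : SFn g) {f : X → Y} (hf : SFn f) : SFn (fun x => g (f x)) := by
  have h : SF (fun p : X × Z => ∃ y, (fun q : (X × Z) × Y => q.2 = f q.1.1 ∧ q.1.2 = g q.2) (p, y)) := by
    refine SF.ex (R := fun q : (X × Z) × Y => q.2 = f q.1.1 ∧ q.1.2 = g q.2) ?_ ?_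
    · refine SF.and ?_ ?_
      · exact SF.re (P := fun p : X × Y => p.2 = f p.1) hf ((Re.fst.comp Re.fst).pair Re.snd)
      · exact SF.re (P := fun p : Y × Z => p.2 = g p.1) hg (Re.snd.pair (Re.snd.comp Re.fst))
    · intro x y y' h1 h2
      simp only at h1 h2
      rw [h1.1, h2.1]
  refine h.congr fun p => ?_
  constructor
  · rintro ⟨y, hy, hz⟩
    simp only at hy hz
    rw [hz, hy]
  · intro hz
    exact ⟨f p.1, rfl, hz⟩

theorem SFn.pair {f : X → Y} {g : X → Z} (hf : SFn f) (hg : SFn g) :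
    SFn (fun x => (f x, g x)) := by
  have h1 : SF (fun p : X × (Y × Z) => p.2.1 = f p.1) :=
    SF.re (P := fun p : X × Y => p.2 = f p.1) hf (Re.fst.pair (Re.fst.comp Re.snd))
  have h2 : SF (fun p : X × (Y × Z) => p.2.2 = g p.1) :=
    SF.re (P := fun p : X × Z => p.2 = g p.1) hg (Re.fst.pair (Re.snd.comp Re.snd))
  exact (h1.and h2).congr fun p => by rw [Prod.ext_iff]

/-- Natural-valued polynomial functions. -/
theorem SFn.of_isP {f : X → ℕ} (hf : IsP (fun x => (f x : ℤ))) : SFn f := by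
  have h : IsP (fun p : X × ℕ => (p.2 : ℤ) - (f p.1 : ℤ)) :=
    (IsP.nat.re Re.snd).sub (hf.re Re.fst)
  refine (SF.of_poly h).congr fun p => ?_
  rw [sub_eq_zero]
  exact Nat.cast_inj

theorem SFn.const {Y : Type} [Ctx Y] (c : Y) : SFn (fun _ : X => c) := by
  classical
  have := Fintype.ofFinite (Ctx.ix Y)
  have h : IsP (fun p : X × Y => ∑ j : Ctx.ix Y,
      ((Ctx.eqv p.2 j : ℤ) - (Ctx.eqv c j : ℤ)) ^ 2) :=
    IsP.sum _ fun j _ => (((IsP.coord j).re Re.snd).sub (IsP.const _)).pow 2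
  refine (SF.of_poly h).congr fun p => ?_
  rw [Finset.sum_eq_zero_iff_of_nonneg fun i _ => sq_nonneg _]
  constructor
  · intro h0
    apply Ctx.eqv.injective
    funext j
    have := h0 j (Finset.mem_univ j)
    have h1 : (Ctx.eqv p.2 j : ℤ) - (Ctx.eqv c j : ℤ) = 0 := by simpa using this
    exact_mod_cast sub_eq_zero.1 h1
  · intro h0 j _
    rw [h0]
    simp

theorem SFn.comp₂ {g : Y × Z → W} (hg : SFn g) {a : X → Y} {b : X → Z} (ha : SFn a) (hb : SFn b) :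
    SFn (fun x => g (a x, b x)) := hg.comp (ha.pair hb)

theorem SF.comp₂ {P : Y × Z → Prop} (hP : SF P) {a : X → Y} {b : X → Z} (ha : SFn a)
    (hb : SFn b) : SF (fun x => P (a x, b x)) := SF.comp hP (ha.pair hb)

theorem SFn.add {f g : X → ℕ} (hf : SFn f) (hg : SFn g) : SFn (fun x => f x + g x) := by
  have h : SFn (fun p : ℕ × ℕ => p.1 + p.2) := SFn.of_isP (by
    push_cast
    exact (IsP.of_re Re.fst).add (IsP.of_re Re.snd))
  exact h.comp₂ hf hg

theorem SFn.mul {f g : X → ℕ} (hf : SFn f) (hg : SFn g) : SFn (fun x => f x * g x) := by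
  have h : SFn (fun p : ℕ × ℕ => p.1 * p.2) := SFn.of_isP (by
    push_cast
    exact (IsP.of_re Re.fst).mul (IsP.of_re Re.snd))
  exact h.comp₂ hf hg

theorem SFn.succ {f : X → ℕ} (hf : SFn f) : SFn (fun x => f x + 1) := hf.add (SFn.const 1)

/-- Equality of two single-fold functions. -/
theorem SF.eq {f g : X → Y} (hf : SFn f) (hg : SFn g) : SF (fun x => f x = g x) :=
  SF.comp₂ (P := fun p : Y × Y => p.1 = p.2) (SF.eq_re Re.fst Re.snd) hf hg

theorem SF.le {f g : X → ℕ} (hf : SFn f) (hg : SFn g) : SF (fun x => f x ≤ g x) := by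
  have h : SF (fun p : ℕ × ℕ => ∃ z, (fun q : (ℕ × ℕ) × ℕ => q.1.1 + q.2 = q.1.2) (p, z)) := by
    refine SF.ex (R := fun q : (ℕ × ℕ) × ℕ => q.1.1 + q.2 = q.1.2) ?_ ?_
    · exact SF.eq ((SFn.fst.comp SFn.fst).add SFn.snd) (SFn.snd.comp SFn.fst)
    · intro x y y' h1 h2
      simp only at h1 h2
      omega
  refine SF.comp₂ (P := fun p : ℕ × ℕ => p.1 ≤ p.2) (h.congr fun p => ?_) hf hg
  constructor
  · rintro ⟨z, hz⟩
    simp only at hz
    omega
  · intro hp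
    exact ⟨p.2 - p.1, by simp only; omega⟩

theorem SF.lt {f g : X → ℕ} (hf : SFn f) (hg : SFn g) : SF (fun x => f x < g x) :=
  SF.le hf.succ hg

theorem SF.ne {f g : X → ℕ} (hf : SFn f) (hg : SFn g) : SF (fun x => f x ≠ g x) :=
  ((SF.lt hf hg).or (SF.lt hg hf) fun x h1 h2 => by omega).congr fun x => by
    simp only [ne_eq]; omega

/-- Predicates which are single-fold together with their negation. -/
def SFd (P : X → Prop) : Prop := SF P ∧ SF (fun x => ¬ P x)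

theorem SFd.pos {P : X → Prop} (h : SFd P) : SF P := h.1

theorem SFd.not {P : X → Prop} (h : SFd P) : SFd (fun x => ¬ P x) :=
  ⟨h.2, h.1.congr fun x => by simp⟩

theorem SFd.and {P Q : X → Prop} (hP : SFd P) (hQ : SFd Q) : SFd (fun x => P x ∧ Q x) :=
  ⟨hP.1.and hQ.1, (hP.2.or (hP.1.and hQ.2) fun x h1 h2 => h1 h2.1).congr fun x => by tauto⟩

theorem SFd.or {P Q : X → Prop} (hP : SFd P) (hQ : SFd Q) : SFd (fun x => P x ∨ Q x) := by
  have h := (hP.not.and hQ.not).not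
  exact ⟨h.1.congr fun x => by tauto, h.2.congr fun x => by tauto⟩

theorem SFd.comp {P : Y → Prop} (hP : SFd P) {f : X → Y} (hf : SFn f) : SFd (fun x => P (f x)) :=
  ⟨SF.comp hP.1 hf, SF.comp hP.2 hf⟩

theorem SFd.congr {P Q : X → Prop} (hP : SFd P) (h : ∀ x, P x ↔ Q x) : SFd Q := by
  have : P = Q := funext fun x => propext (h x)
  rwa [← this]

theorem SFd.le {f g : X → ℕ} (hf : SFn f) (hg : SFn g) : SFd (fun x => f x ≤ g x) :=
  ⟨SF.le hf hg, (SF.lt hg hf).congr fun x => by omega⟩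

theorem SFd.lt {f g : X → ℕ} (hf : SFn f) (hg : SFn g) : SFd (fun x => f x < g x) :=
  ⟨SF.lt hf hg, (SF.le hg hf).congr fun x => by omega⟩

theorem SFd.eq {f g : X → ℕ} (hf : SFn f) (hg : SFn g) : SFd (fun x => f x = g x) :=
  ⟨SF.eq hf hg, SF.ne hf hg⟩

/-- Definition by cases. -/
theorem SFn.ite {P : X → Prop} [DecidablePred P] (hP : SFd P) {f g : X → Y} (hf : SFn f)
    (hg : SFn g) : SFn (fun x => if P x then f x else g x) := by
  have h1 : SF (fun p : X × Y => P p.1 ∧ p.2 = f p.1) := (hP.1.re Re.fst).and hf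
  have h2 : SF (fun p : X × Y => ¬ P p.1 ∧ p.2 = g p.1) := (hP.2.re Re.fst).and hg
  refine (h1.or h2 fun x h1 h2 => h2.1 h1.1).congr fun p => ?_
  by_cases hp : P p.1 <;> simp [hp]

/-- A function given by a single-fold relation. -/
theorem SFn.of_rel {f : X → Y} {R : X × Y → Prop} (hR : SF R) (h : ∀ x y, R (x, y) ↔ y = f x) :
    SFn f := hR.congr fun p => h p.1 p.2

theorem SFn.tsub {f g : X → ℕ} (hf : SFn f) (hg : SFn g) : SFn (fun x => f x - g x) := by
  have h : SFn (fun p : ℕ × ℕ => p.1 - p.2) := by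
    have h1 : SF (fun q : (ℕ × ℕ) × ℕ => q.1.2 ≤ q.1.1 ∧ q.1.1 = q.1.2 + q.2) :=
      (SF.le (SFn.snd.comp SFn.fst) (SFn.fst.comp SFn.fst)).and
        (SF.eq (SFn.fst.comp SFn.fst) ((SFn.snd.comp SFn.fst).add SFn.snd))
    have h2 : SF (fun q : (ℕ × ℕ) × ℕ => q.1.1 < q.1.2 ∧ q.2 = 0) :=
      (SF.lt (SFn.fst.comp SFn.fst) (SFn.snd.comp SFn.fst)).and
        (SF.eq SFn.snd (SFn.const 0))
    refine SFn.of_rel (h1.or h2 fun q a b => by omega) fun x y => ?_
    simp only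
    omega
  exact h.comp₂ hf hg

/-- Division and remainder. -/
theorem SFn.divmod : SFn (fun p : ℕ × ℕ => (p.1 / p.2, p.1 % p.2)) := by
  have h1 : SF (fun q : (ℕ × ℕ) × (ℕ × ℕ) => q.1.2 = 0 ∧ (q.2.1 = 0 ∧ q.2.2 = q.1.1)) :=
    (SF.eq (SFn.snd.comp SFn.fst) (SFn.const 0)).and
      ((SF.eq (SFn.fst.comp SFn.snd) (SFn.const 0)).and
        (SF.eq (SFn.snd.comp SFn.snd) (SFn.fst.comp SFn.fst)))
  have h2 : SF (fun q : (ℕ × ℕ) × (ℕ × ℕ) => q.2.2 < q.1.2 ∧ q.1.1 = q.2.1 * q.1.2 + q.2.2) :=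
    (SF.lt (SFn.snd.comp SFn.snd) (SFn.snd.comp SFn.fst)).and
      (SF.eq (SFn.fst.comp SFn.fst) (((SFn.fst.comp SFn.snd).mul (SFn.snd.comp SFn.fst)).add
        (SFn.snd.comp SFn.snd)))
  refine SFn.of_rel (h1.or h2 fun q a b => by omega) ?_
  rintro ⟨a, b⟩ ⟨u, v⟩
  simp only [Prod.mk.injEq]
  constructor
  · rintro (⟨h, h', h''⟩ | ⟨h, h'⟩)
    · subst h; subst h'; subst h''; simp
    · have hb : 0 < b := by omega
      constructor
      · rw [h', Nat.add_div_of_dvd_right (Dvd.intro_left u rfl), Nat.mul_div_cancel _ hb,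
          Nat.div_eq_of_lt h, add_zero]
      · rw [h', Nat.mul_comm u b, Nat.mul_add_mod, Nat.mod_eq_of_lt h]
  · rintro ⟨hu, hv⟩
    rcases Nat.eq_zero_or_pos b with hb | hb
    · left; subst hb; simp at hu hv; exact ⟨rfl, hu, hv⟩
    · right
      refine ⟨by rw [hv]; exact Nat.mod_lt _ hb, ?_⟩
      rw [hu, hv, mul_comm]
      exact (Nat.div_add_mod a b).symm

theorem SFn.div {f g : X → ℕ} (hf : SFn f) (hg : SFn g) : SFn (fun x => f x / g x) :=
  SFn.fst.comp (SFn.divmod.comp₂ hf hg)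

theorem SFn.mod {f g : X → ℕ} (hf : SFn f) (hg : SFn g) : SFn (fun x => f x % g x) :=
  SFn.snd.comp (SFn.divmod.comp₂ hf hg)

theorem SFd.dvd {f g : X → ℕ} (hf : SFn f) (hg : SFn g) : SFd (fun x => f x ∣ g x) :=
  (SFd.eq (SFn.mod hg hf) (SFn.const 0)).congr fun x => (Nat.dvd_iff_mod_eq_zero).symm

end SF

end Vale.Agent.P345
end

section

/-!
# Conversion to `MvPolynomial`
-/

namespace Vale.Agent.P345

theorem IsPoly.exists_mvPolynomial {α : Type} {p : (α → ℕ) → ℤ} (hp : IsPoly p) :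
    ∃ P : MvPolynomial α ℤ, ∀ v : α → ℕ, MvPolynomial.eval (fun a => (v a : ℤ)) P = p v := by
  induction hp with
  | proj i => exact ⟨MvPolynomial.X i, fun v => by simp⟩
  | const n => exact ⟨MvPolynomial.C n, fun v => by simp⟩
  | sub _ _ h1 h2 =>
    obtain ⟨P, hP⟩ := h1
    obtain ⟨Q, hQ⟩ := h2
    exact ⟨P - Q, fun v => by rw [map_sub, hP, hQ]⟩
  | mul _ _ h1 h2 =>
    obtain ⟨P, hP⟩ := h1
    obtain ⟨Q, hQ⟩ := h2
    exact ⟨P * Q, fun v => by rw [map_mul, hP, hQ]⟩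

theorem SF.exists_mvPolynomial {n : ℕ} {S : Set (Fin n → ℕ)}
    (h : SF (fun a : Fin n → ℕ => a ∈ S)) :
    ∃ (m : ℕ) (P : MvPolynomial (Fin n ⊕ Fin m) ℤ),
      (∀ a : Fin n → ℕ, a ∈ S ↔ ∃ w : Fin m → ℕ,
        MvPolynomial.eval (Sum.elim (fun i => (a i : ℤ)) (fun j => (w j : ℤ))) P = 0) ∧
      ∀ a : Fin n → ℕ, {w : Fin m → ℕ |
        MvPolynomial.eval (Sum.elim (fun i => (a i : ℤ)) (fun j => (w j : ℤ))) P = 0}.Subsingleton := by
  obtain ⟨m, f, hf, h⟩ := h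
  obtain ⟨P, hP⟩ := IsPoly.exists_mvPolynomial hf
  refine ⟨m, P, ?_⟩
  have key : ∀ (a : Fin n → ℕ) (w : Fin m → ℕ),
      MvPolynomial.eval (Sum.elim (fun i => (a i : ℤ)) (fun j => (w j : ℤ))) P = f (a, w) := by
    intro a w
    have h1 := hP (Ctx.eqv (a, w))
    rw [Equiv.symm_apply_apply] at h1
    rw [← h1]
    congr 1
    congr 1
    funext j
    cases j <;> rfl
  simp only [key]
  refine ⟨fun a => ⟨fun ha => ?_, fun ⟨w, hw⟩ => (h a).2 w hw⟩, fun a w hw w' hw' => ?_⟩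
  · obtain ⟨w, hw, _⟩ := (h a).1 ha
    exact ⟨w, hw⟩
  · obtain ⟨u, _, hu⟩ := (h a).1 ((h a).2 w hw)
    rw [hu w hw, hu w' hw']

end Vale.Agent.P345
end

section

/-!
# P345, module T2: single-fold exponentiation (number-theoretic core)

From a function `Q : ℕ → ℕ` with quasi-polynomial growth we show that, for `b ≥ 2`,
`c = b ^ n` iff an explicit system of polynomial conditions in extra unknowns
`X Y X' Y' t t'` (and the values of `Q`) has a solution, and that the solution is unique.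
-/

namespace Vale.Agent.P345

open Pell

section Growth

variable {a : ℕ} (a1 : 1 < a)

theorem yn_succ_le_pow (n : ℕ) : yn a1 (n + 1) ≤ (2 * a) ^ n := by
  induction n with
  | zero => simp
  | succ n ih =>
    have h := yn_succ_succ a1 n
    have : yn a1 (n + 2) ≤ 2 * a * yn a1 (n + 1) := by omega
    calc yn a1 (n + 1 + 1) ≤ 2 * a * yn a1 (n + 1) := this
      _ ≤ 2 * a * (2 * a) ^ n := Nat.mul_le_mul_left _ ih
      _ = (2 * a) ^ (n + 1) := by ring

theorem pow_le_yn_succ (n : ℕ) : (2 * a - 1) ^ n ≤ yn a1 (n + 1) := by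
  induction n with
  | zero => simp
  | succ n ih =>
    have h := yn_succ_succ a1 n
    have hmono : yn a1 n ≤ yn a1 (n + 1) := (strictMono_y a1).monotone (Nat.le_succ n)
    have e : 2 * a * yn a1 (n + 1) = (2 * a - 1) * yn a1 (n + 1) + yn a1 (n + 1) := by
      have : 2 * a = (2 * a - 1) + 1 := by omega
      conv_lhs => rw [this]
      ring
    have h2 : (2 * a - 1) * yn a1 (n + 1) ≤ yn a1 (n + 2) := by omega
    calc (2 * a - 1) ^ (n + 1) = (2 * a - 1) * (2 * a - 1) ^ n := by ring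
      _ ≤ (2 * a - 1) * yn a1 (n + 1) := Nat.mul_le_mul_left _ ih
      _ ≤ _ := h2

theorem xn_le_pow (n : ℕ) : xn a1 n ≤ (2 * a) ^ n := by
  induction n with
  | zero => simp
  | succ n ih =>
    cases n with
    | zero => simp; omega
    | succ n =>
      have h := xn_succ_succ a1 n
      have : xn a1 (n + 2) ≤ 2 * a * xn a1 (n + 1) := by omega
      calc xn a1 (n + 1 + 1) ≤ 2 * a * xn a1 (n + 1) := this
        _ ≤ 2 * a * (2 * a) ^ (n + 1) := Nat.mul_le_mul_left _ ih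
        _ = (2 * a) ^ (n + 1 + 1) := by ring

theorem yn_succ_pos (n : ℕ) : 0 < yn a1 (n + 1) :=
  lt_of_lt_of_le (Nat.succ_pos n) (yn_ge_n a1 (n + 1))

end Growth

/-- Bernoulli's inequality in the form used below. -/
theorem bernoulli_nat (K n : ℕ) : (K + 1) ^ (n + 1) ≤ (K + 1) * K ^ n + n * (K + 1) ^ n := by
  induction n with
  | zero => simp
  | succ n ih =>
    have h1 : K * (K + 1) ^ n ≤ (K + 1) ^ (n + 1) := by
      rw [pow_succ]; linarith [Nat.zero_le ((K + 1) ^ n)]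
    calc (K + 1) ^ (n + 1 + 1) = K * (K + 1) ^ (n + 1) + (K + 1) ^ (n + 1) := by ring
      _ ≤ K * ((K + 1) * K ^ n + n * (K + 1) ^ n) + (K + 1) ^ (n + 1) := by gcongr
      _ = (K + 1) * K ^ (n + 1) + n * (K * (K + 1) ^ n) + (K + 1) ^ (n + 1) := by ring
      _ ≤ (K + 1) * K ^ (n + 1) + n * (K + 1) ^ (n + 1) + (K + 1) ^ (n + 1) := by gcongr
      _ = _ := by ring

/-- `Y' / Y < b ^ n + 1 / 2`. -/
theorem ratio_upper {M b n Y Y' : ℕ} (hM : (2 * b ^ n + 1) * n < M)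
    (hY : (M - 1) ^ n ≤ Y) (hY' : Y' ≤ (M * b) ^ n) :
    2 * Y' < (2 * b ^ n + 1) * Y := by
  obtain ⟨K, rfl⟩ : ∃ K, M = K + 1 := ⟨M - 1, by omega⟩
  have hB := bernoulli_nat K n
  simp only [Nat.add_sub_cancel] at hY
  have hpos : 0 < (K + 1) ^ n := by positivity
  -- (K+1) * (2 b^n+1) * Y ≥ (2b^n+1)((K+1)^(n+1) - n (K+1)^n) > 2 b^n (K+1)^(n+1)
  have h1 : (2 * b ^ n + 1) * ((K + 1) ^ (n + 1)) ≤
      (2 * b ^ n + 1) * ((K + 1) * Y + n * (K + 1) ^ n) := by
    apply Nat.mul_le_mul_left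
    calc (K + 1) ^ (n + 1) ≤ (K + 1) * K ^ n + n * (K + 1) ^ n := hB
      _ ≤ (K + 1) * Y + n * (K + 1) ^ n := by gcongr
  have h2 : (2 * b ^ n + 1) * n * (K + 1) ^ n < (K + 1) * (K + 1) ^ n := by
    exact Nat.mul_lt_mul_of_pos_right hM hpos
  have h3 : (K + 1) * (2 * Y') ≤ (K + 1) * (2 * (b ^ n * (K + 1) ^ n)) := by
    apply Nat.mul_le_mul_left
    rw [mul_pow] at hY'
    linarith
  have h4 : (K + 1) * (2 * Y') < (K + 1) * ((2 * b ^ n + 1) * Y) := by
    have e1 : (2 * b ^ n + 1) * ((K + 1) ^ (n + 1)) =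
      (K + 1) * (2 * (b ^ n * (K + 1) ^ n)) + (K + 1) * (K + 1) ^ n := by ring
    have e2 : (2 * b ^ n + 1) * ((K + 1) * Y + n * (K + 1) ^ n) =
      (K + 1) * ((2 * b ^ n + 1) * Y) + (2 * b ^ n + 1) * n * (K + 1) ^ n := by ring
    omega
  exact Nat.lt_of_mul_lt_mul_left h4

/-- lower bound for `Y'` -/
theorem ratio_lower_aux {M b n Y Y' : ℕ} (hb : 1 ≤ b) (hM1 : 1 ≤ M)
    (hY : Y ≤ M ^ n) (hY' : (M * b - 1) ^ n ≤ Y') :
    M * b * (b ^ n * Y) ≤ M * b * Y' + n * (b ^ n * Y) ∨ M * b < n := by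
  by_cases hlt : M * b < n
  · exact Or.inr hlt
  left
  have hMb : 1 ≤ M * b := Nat.mul_pos hM1 hb
  obtain ⟨K, hK⟩ : ∃ K, M * b = K + 1 := ⟨M * b - 1, by omega⟩
  have hB := bernoulli_nat K n
  rw [hK] at hY' hlt ⊢
  simp only [Nat.add_sub_cancel] at hY'
  have hbY : b ^ n * Y ≤ (K + 1) ^ n := by
    rw [← hK, mul_pow]
    calc b ^ n * Y ≤ b ^ n * M ^ n := by gcongr
      _ = _ := by ring
  -- (K+1) Y' ≥ (K+1-n) (K+1)^n ≥ (K+1-n) b^n Y
  obtain ⟨r, hr⟩ : ∃ r, K + 1 = n + r := ⟨K + 1 - n, by omega⟩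
  have h1 : r * (K + 1) ^ n ≤ (K + 1) * K ^ n := by
    have e1 : (K + 1) ^ (n + 1) = n * (K + 1) ^ n + r * (K + 1) ^ n := by
      rw [pow_succ, mul_comm ((K+1)^n), ← add_mul, ← hr]
    omega
  calc (K + 1) * (b ^ n * Y) = r * (b ^ n * Y) + n * (b ^ n * Y) := by rw [hr]; ring
    _ ≤ r * (K + 1) ^ n + n * (b ^ n * Y) := by gcongr
    _ ≤ (K + 1) * K ^ n + n * (b ^ n * Y) := by gcongr
    _ ≤ (K + 1) * Y' + n * (b ^ n * Y) := by gcongr

/-- `b ^ n - 1 / 2 < Y' / Y`. -/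
theorem ratio_lower {M b n Y Y' : ℕ} (hb : 1 ≤ b) (hM : (2 * b ^ n + 1) * n < M)
    (hY0 : 0 < Y) (hY : Y ≤ M ^ n) (hY' : (M * b - 1) ^ n ≤ Y') :
    2 * b ^ n * Y < 2 * Y' + Y := by
  have hbn : 1 ≤ b ^ n := Nat.one_le_pow _ _ hb
  have hMb : M ≤ M * b := Nat.le_mul_of_pos_right _ hb
  have hn : n ≤ (2 * b ^ n + 1) * n := Nat.le_mul_of_pos_left _ (by positivity)
  have hM1 : 1 ≤ M := by omega
  rcases ratio_lower_aux hb hM1 hY hY' with h | h
  · have h2 : 2 * b ^ n * n < M * b := by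
      have : 2 * b ^ n * n ≤ (2 * b ^ n + 1) * n := by gcongr; omega
      omega
    have h3 : M * b * (2 * b ^ n * Y) < M * b * (2 * Y' + Y) := by
      have h4 : 2 * b ^ n * n * Y < M * b * Y := Nat.mul_lt_mul_of_pos_right h2 hY0
      have e1 : M * b * (2 * b ^ n * Y) = 2 * (M * b * (b ^ n * Y)) := by ring
      have e2 : M * b * (2 * Y' + Y) = 2 * (M * b * Y') + M * b * Y := by ring
      have e3 : 2 * b ^ n * n * Y = 2 * (n * (b ^ n * Y)) := by ring
      omega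
    exact Nat.lt_of_mul_lt_mul_left h3
  · omega

/-- crude lower bound: `b ^ n * Y ≤ 2 * Y'`. -/
theorem ratio_crude {M b n Y Y' : ℕ} (hb : 1 ≤ b) (hM : 2 * n < M)
    (hY : Y ≤ M ^ n) (hY' : (M * b - 1) ^ n ≤ Y') :
    b ^ n * Y ≤ 2 * Y' := by
  have hMb : M ≤ M * b := Nat.le_mul_of_pos_right _ hb
  have hM1 : 1 ≤ M := by omega
  rcases ratio_lower_aux hb hM1 hY hY' with h | h
  · have h2 : 2 * n ≤ M * b := by omega
    have h3 : M * b * (b ^ n * Y) ≤ M * b * (2 * Y') := by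
      have h4 : 2 * n * (b ^ n * Y) ≤ M * b * (b ^ n * Y) := Nat.mul_le_mul_right _ h2
      have e2 : M * b * (2 * Y') = 2 * (M * b * Y') := by ring
      have e3 : 2 * n * (b ^ n * Y) = 2 * (n * (b ^ n * Y)) := by ring
      omega
    exact Nat.le_of_mul_le_mul_left h3 (by omega)
  · omega

/-- The ratio of the two Pell numbers pins down `b ^ n`. -/
theorem eq_pow_of_ratio {M b n c Y Y' : ℕ} (hb : 1 ≤ b) (hM : (4 * c + 3) * n < M)
    (hn : 2 * n < M) (hY0 : 0 < Y)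
    (hY1 : (M - 1) ^ n ≤ Y) (hY2 : Y ≤ M ^ n)
    (hY1' : (M * b - 1) ^ n ≤ Y') (hY2' : Y' ≤ (M * b) ^ n)
    (h1 : 2 * Y' ≤ (2 * c + 1) * Y) (h2 : 2 * c * Y ≤ 2 * Y' + Y) : c = b ^ n := by
  have h3 := ratio_crude hb hn hY2 hY1'
  have h4 : b ^ n ≤ 2 * c + 1 := Nat.le_of_mul_le_mul_right (h3.trans h1) hY0
  have h5 : (2 * b ^ n + 1) * n < M := by
    have : (2 * b ^ n + 1) * n ≤ (4 * c + 3) * n := Nat.mul_le_mul_right _ (by omega)
    omega
  have h6 := ratio_upper h5 hY1 hY2'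
  have h7 := ratio_lower hb h5 hY0 hY2 hY1'
  have h8 : b ^ n < c + 1 := by
    have : 2 * b ^ n * Y < (2 * c + 2) * Y := by
      have : (2 * c + 2) * Y = (2 * c + 1) * Y + Y := by ring
      omega
    have := Nat.lt_of_mul_lt_mul_right this
    omega
  have h9 : c < b ^ n + 1 := by
    have : 2 * c * Y < (2 * b ^ n + 2) * Y := by
      have : (2 * b ^ n + 2) * Y = (2 * b ^ n + 1) * Y + Y := by ring
      omega
    have := Nat.lt_of_mul_lt_mul_right this
    omega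
  omega

/-- `b ^ n` satisfies the ratio conditions. -/
theorem ratio_of_eq_pow {M b n Y Y' : ℕ} (hb : 1 ≤ b) (hM : (2 * b ^ n + 1) * n < M)
    (hY0 : 0 < Y)
    (hY1 : (M - 1) ^ n ≤ Y) (hY2 : Y ≤ M ^ n)
    (hY1' : (M * b - 1) ^ n ≤ Y') (hY2' : Y' ≤ (M * b) ^ n) :
    2 * Y' ≤ (2 * b ^ n + 1) * Y ∧ 2 * b ^ n * Y ≤ 2 * Y' + Y :=
  ⟨(ratio_upper hM hY1 hY2').le, (ratio_lower hb hM hY0 hY2 hY1').le⟩

section Cut

variable {Q : ℕ → ℕ}

/-- completeness of the cut -/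
theorem cut_complete (hL : ∀ m p, 3 * 15 ^ m ≤ p → 3 ^ (m ^ 2) ≤ Q p)
    {B n : ℕ} (hB : 16 ≤ B) (h : 2 ^ (n + 1) ≤ B) : (2 * B) ^ (n + 1) ≤ Q (B ^ 8) := by
  set L := Nat.log 2 B with hLdef
  have hB0 : B ≠ 0 := by omega
  have h1 : 2 ^ L ≤ B := Nat.pow_log_le_self 2 hB0
  have h2 : B < 2 ^ (L + 1) := Nat.lt_pow_succ_log_self (by norm_num) B
  have hL4 : 4 ≤ L := Nat.le_log_of_pow_le (by norm_num) (by simpa using hB)
  have hnL : n + 1 ≤ L := Nat.le_log_of_pow_le (by norm_num) h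
  have h3 : 3 * 15 ^ L ≤ B ^ 8 := by
    calc 3 * 15 ^ L ≤ 16 ^ L * 16 ^ L := by
          apply Nat.mul_le_mul
          · calc 3 ≤ 16 ^ 1 := by norm_num
              _ ≤ 16 ^ L := Nat.pow_le_pow_right (by norm_num) (by omega)
          · exact Nat.pow_le_pow_left (by norm_num) _
      _ = (2 ^ L) ^ 8 := by
          rw [← mul_pow, ← pow_mul, mul_comm L 8, pow_mul]; norm_num
      _ ≤ B ^ 8 := Nat.pow_le_pow_left h1 8
  have h4 : 2 ^ (L + 2) ≤ 3 ^ L := by
    obtain ⟨r, hr⟩ : ∃ r, L = r + 4 := ⟨L - 4, by omega⟩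
    rw [hr]
    calc 2 ^ (r + 4 + 2) = 2 ^ r * 64 := by ring
      _ ≤ 3 ^ r * 81 := Nat.mul_le_mul (Nat.pow_le_pow_left (by norm_num) _) (by norm_num)
      _ = 3 ^ (r + 4) := by ring
  calc (2 * B) ^ (n + 1) ≤ (2 ^ (L + 2)) ^ (n + 1) := by
        apply Nat.pow_le_pow_left
        have : 2 ^ (L + 2) = 2 * 2 ^ (L + 1) := by ring
        omega
    _ ≤ (2 ^ (L + 2)) ^ L := Nat.pow_le_pow_right (by positivity) hnL
    _ ≤ (3 ^ L) ^ L := Nat.pow_le_pow_left h4 _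
    _ = 3 ^ (L ^ 2) := by rw [← pow_mul, sq]
    _ ≤ Q (B ^ 8) := hL L _ h3

/-- soundness of the cut -/
theorem cut_sound (hU : ∀ m p, 3 ≤ p → p < 3 * 9 ^ m → Q p ≤ p ^ (m + 4))
    {D B k : ℕ} (hD : 4096 ≤ D) (hDB : D ≤ B) (hBD : B ≤ D * D) (h : D ^ k ≤ Q (B ^ 8)) :
    k < D - 1 := by
  by_contra hk'
  have hk : D - 1 ≤ k := not_lt.1 hk'
  set L := Nat.log 2 D with hLdef
  have hD0 : D ≠ 0 := by omega
  have h1 : 2 ^ L ≤ D := Nat.pow_log_le_self 2 hD0
  have h2 : D < 2 ^ (L + 1) := Nat.lt_pow_succ_log_self (by norm_num) D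
  have hL12 : 12 ≤ L := Nat.le_log_of_pow_le (by norm_num) (by simpa using hD)
  have hB1 : B < 2 ^ (2 * L + 2) := by
    calc B ≤ D * D := hBD
      _ < 2 ^ (L + 1) * 2 ^ (L + 1) := Nat.mul_lt_mul'' h2 h2
      _ = 2 ^ (2 * L + 2) := by rw [← pow_add]; congr 1; ring
  have hB8 : B ^ 8 < 2 ^ (16 * L + 16) := by
    calc B ^ 8 < (2 ^ (2 * L + 2)) ^ 8 := Nat.pow_lt_pow_left hB1 (by norm_num)
      _ = _ := by rw [← pow_mul]; congr 1; ring
  have h3 : 3 ≤ B ^ 8 := by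
    calc 3 ≤ B := by omega
      _ ≤ B ^ 8 := Nat.le_self_pow (by norm_num) B
  have h4 : B ^ 8 < 3 * 9 ^ (6 * L + 6) := by
    calc B ^ 8 < 2 ^ (16 * L + 16) := hB8
      _ ≤ 2 ^ (3 * (6 * L + 6)) := Nat.pow_le_pow_right (by norm_num) (by omega)
      _ = 8 ^ (6 * L + 6) := by rw [pow_mul]; norm_num
      _ ≤ 9 ^ (6 * L + 6) := Nat.pow_le_pow_left (by norm_num) _
      _ ≤ 3 * 9 ^ (6 * L + 6) := by omega
  have h5 : 2 ^ (L * k) ≤ 2 ^ ((16 * L + 16) * (6 * L + 10)) := by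
    calc 2 ^ (L * k) = (2 ^ L) ^ k := pow_mul _ _ _
      _ ≤ D ^ k := Nat.pow_le_pow_left h1 k
      _ ≤ Q (B ^ 8) := h
      _ ≤ (B ^ 8) ^ (6 * L + 6 + 4) := hU _ _ h3 h4
      _ ≤ (2 ^ (16 * L + 16)) ^ (6 * L + 6 + 4) := Nat.pow_le_pow_left hB8.le _
      _ = 2 ^ ((16 * L + 16) * (6 * L + 10)) := by rw [← pow_mul]
  have h6 : L * k ≤ (16 * L + 16) * (6 * L + 10) :=
    (Nat.pow_le_pow_iff_right (by norm_num)).1 h5
  have h7 : 192 * L + 322 ≤ 2 ^ L := by
    obtain ⟨r, hr⟩ : ∃ r, L = r + 12 := ⟨L - 12, by omega⟩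
    rw [hr]
    clear_value L
    clear hr h6 h5 h4 h3 hB8 hB1 hL12 h2 h1 hLdef
    induction r with
    | zero => norm_num
    | succ r ih =>
      have : 2 ^ (r + 1 + 12) = 2 * 2 ^ (r + 12) := by ring
      omega
  have h8 : 192 * L + 321 ≤ k := by omega
  have h9 : L * (192 * L + 321) ≤ L * k := Nat.mul_le_mul_left _ h8
  linarith [Nat.zero_le (L * L)]

end Cut

/-- The base parameter. -/
def pellA (b n c : ℕ) : ℕ := 4096 * (n + 1) * (c + 1) * (b + 1)

theorem pellA_ge (b n c : ℕ) : 4096 ≤ pellA b n c := by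
  unfold pellA
  calc 4096 = 4096 * 1 * 1 * 1 := by norm_num
    _ ≤ 4096 * (n + 1) * (c + 1) * (b + 1) := by gcongr <;> omega

theorem pellA_gt_n (b n c : ℕ) : n + 3 < pellA b n c := by
  unfold pellA
  calc n + 3 < 4096 * (n + 1) * 1 * 1 := by omega
    _ ≤ 4096 * (n + 1) * (c + 1) * (b + 1) := by gcongr <;> omega

theorem pellA_ge_b (b n c : ℕ) : b ≤ pellA b n c := by
  unfold pellA
  calc b ≤ 4096 * 1 * 1 * (b + 1) := by omega
    _ ≤ 4096 * (n + 1) * (c + 1) * (b + 1) := by gcongr <;> omega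

theorem pellA_ge_c (b n c : ℕ) : 2 * c ≤ pellA b n c := by
  unfold pellA
  calc 2 * c ≤ 4096 * 1 * (c + 1) * 1 := by omega
    _ ≤ 4096 * (n + 1) * (c + 1) * (b + 1) := by gcongr <;> omega

theorem pellA_big (b n c : ℕ) : (4 * c + 3) * n < 2 * pellA b n c := by
  unfold pellA
  calc (4 * c + 3) * n ≤ (4 * c + 4) * n := by gcongr; omega
    _ < (4 * c + 4) * (n + 1) := by gcongr; omega
    _ = 4 * (n + 1) * (c + 1) * 1 := by ring
    _ ≤ 4096 * (n + 1) * (c + 1) * (b + 1) := by gcongr <;> omega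
    _ ≤ 2 * (4096 * (n + 1) * (c + 1) * (b + 1)) := by omega

/-- The explicit system: all unknowns are natural numbers. -/
structure PellSys (Q : ℕ → ℕ) (b n c X Y X' Y' t t' : ℕ) : Prop where
  pell : X * X = (pellA b n c * pellA b n c - 1) * Y * Y + 1
  pell' : X' * X' = ((pellA b n c * b) * (pellA b n c * b) - 1) * Y' * Y' + 1
  cong : Y = n + 1 + (pellA b n c - 1) * t
  cong' : Y' = n + 1 + (pellA b n c * b - 1) * t'
  cut : X ≤ Q ((pellA b n c * b) ^ 8)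
  cut' : X' ≤ Q ((pellA b n c * b) ^ 8)
  up : 2 * Y' ≤ (2 * c + 1) * Y
  low : 2 * c * Y ≤ 2 * Y' + Y

/-- A solution of Pell's equation with the right congruence below the cut has index `n + 1`. -/
theorem pell_index (Q : ℕ → ℕ) (hU : ∀ m p, 3 ≤ p → p < 3 * 9 ^ m → Q p ≤ p ^ (m + 4))
    {D B n X Y t : ℕ} (hD : 4096 ≤ D) (hDB : D ≤ B) (hBD : B ≤ D * D) (hn : n + 3 < D)
    (D1 : 1 < D)
    (hp : X * X = (D * D - 1) * Y * Y + 1) (hc : Y = n + 1 + (D - 1) * t)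
    (hX : X ≤ Q (B ^ 8)) : X = xn D1 (n + 1) ∧ Y = yn D1 (n + 1) := by
  obtain ⟨k, hkX, hkY⟩ := eq_pell D1 (x := X) (y := Y) (by
    show X * X - (D * D - 1) * Y * Y = 1
    omega)
  have hk : k < D - 1 := by
    apply cut_sound hU hD hDB hBD
    calc D ^ k ≤ xn D1 k := xn_ge_a_pow D1 k
      _ = X := hkX.symm
      _ ≤ _ := hX
  have hmod : k ≡ n + 1 [MOD D - 1] := by
    have h1 := yn_modEq_a_sub_one D1 k
    rw [← hkY, hc] at h1
    have h2 : n + 1 + (D - 1) * t ≡ n + 1 [MOD D - 1] := by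
      unfold Nat.ModEq
      simp
    exact h1.symm.trans h2
  have : k = n + 1 := Nat.ModEq.eq_of_lt_of_lt hmod hk (by omega)
  subst this
  exact ⟨hkX, hkY⟩

theorem yn_cong {D : ℕ} (D1 : 1 < D) (n : ℕ) : ∃ t, yn D1 n = n + (D - 1) * t := by
  have h1 := (yn_modEq_a_sub_one D1 n).symm
  have h2 := yn_ge_n D1 n
  obtain ⟨t, ht⟩ := (Nat.modEq_iff_dvd' h2).1 h1
  exact ⟨t, by omega⟩

theorem pellSys_pins (Q : ℕ → ℕ) (hU : ∀ m p, 3 ≤ p → p < 3 * 9 ^ m → Q p ≤ p ^ (m + 4))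
    {b n c X Y X' Y' t t' : ℕ} (hb : 2 ≤ b) (h : PellSys Q b n c X Y X' Y' t t')
    (A1 : 1 < pellA b n c) (B1 : 1 < pellA b n c * b) :
    X = xn A1 (n + 1) ∧ Y = yn A1 (n + 1) ∧ X' = xn B1 (n + 1) ∧ Y' = yn B1 (n + 1) := by
  have hA := pellA_ge b n c
  have hAn := pellA_gt_n b n c
  have hAb := pellA_ge_b b n c
  have hAB : pellA b n c ≤ pellA b n c * b := Nat.le_mul_of_pos_right _ (by omega)
  have hBA : pellA b n c * b ≤ pellA b n c * pellA b n c := Nat.mul_le_mul_left _ hAb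
  have hBB : pellA b n c * b ≤ (pellA b n c * b) * (pellA b n c * b) :=
    Nat.le_mul_of_pos_right _ (by omega)
  obtain ⟨h1, h2⟩ := pell_index Q hU hA hAB hBA hAn A1 h.pell h.cong h.cut
  obtain ⟨h3, h4⟩ := pell_index Q hU (hA.trans hAB) le_rfl hBB (by omega) B1 h.pell' h.cong' h.cut'
  exact ⟨h1, h2, h3, h4⟩

/-- uniqueness of the witnesses (also across different `c`... for fixed `b n c`). -/
theorem pellSys_unique (Q : ℕ → ℕ) (hU : ∀ m p, 3 ≤ p → p < 3 * 9 ^ m → Q p ≤ p ^ (m + 4))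
    {b n c X Y X' Y' t t' X₂ Y₂ X₂' Y₂' t₂ t₂' : ℕ} (hb : 2 ≤ b)
    (h : PellSys Q b n c X Y X' Y' t t') (h₂ : PellSys Q b n c X₂ Y₂ X₂' Y₂' t₂ t₂') :
    X = X₂ ∧ Y = Y₂ ∧ X' = X₂' ∧ Y' = Y₂' ∧ t = t₂ ∧ t' = t₂' := by
  have hA := pellA_ge b n c
  have hAB : pellA b n c ≤ pellA b n c * b := Nat.le_mul_of_pos_right _ (by omega)
  have A1 : 1 < pellA b n c := by omega
  have B1 : 1 < pellA b n c * b := by omega
  obtain ⟨h1, h2, h3, h4⟩ := pellSys_pins Q hU hb h A1 B1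
  obtain ⟨k1, k2, k3, k4⟩ := pellSys_pins Q hU hb h₂ A1 B1
  have e2 : Y = Y₂ := h2.trans k2.symm
  have e4 : Y' = Y₂' := h4.trans k4.symm
  refine ⟨h1.trans k1.symm, e2, h3.trans k3.symm, e4, ?_, ?_⟩
  · have c1 := h.cong
    have c2 := h₂.cong
    rw [← e2, c1] at c2
    have : (pellA b n c - 1) * t = (pellA b n c - 1) * t₂ := by omega
    exact Nat.eq_of_mul_eq_mul_left (by omega) this
  · have c1 := h.cong'
    have c2 := h₂.cong'
    rw [← e4, c1] at c2
    have : (pellA b n c * b - 1) * t' = (pellA b n c * b - 1) * t₂' := by omega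
    exact Nat.eq_of_mul_eq_mul_left (by omega) this

/-- soundness -/
theorem pellSys_sound (Q : ℕ → ℕ) (hU : ∀ m p, 3 ≤ p → p < 3 * 9 ^ m → Q p ≤ p ^ (m + 4))
    {b n c X Y X' Y' t t' : ℕ} (hb : 2 ≤ b)
    (h : PellSys Q b n c X Y X' Y' t t') : c = b ^ n := by
  have hA := pellA_ge b n c
  have hAB : pellA b n c ≤ pellA b n c * b := Nat.le_mul_of_pos_right _ (by omega)
  have A1 : 1 < pellA b n c := by omega
  have B1 : 1 < pellA b n c * b := by omega
  obtain ⟨h1, h2, h3, h4⟩ := pellSys_pins Q hU hb h A1 B1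
  have hbig := pellA_big b n c
  have hAn := pellA_gt_n b n c
  refine eq_pow_of_ratio (M := 2 * pellA b n c) (by omega : 1 ≤ b) hbig (by omega)
    (Y := Y) (Y' := Y') ?_ ?_ ?_ ?_ ?_ h.up h.low
  · rw [h2]; exact yn_succ_pos A1 n
  · rw [h2]; exact pow_le_yn_succ A1 n
  · rw [h2]; exact yn_succ_le_pow A1 n
  · rw [h4, mul_assoc]; exact pow_le_yn_succ B1 n
  · rw [h4, mul_assoc]; exact yn_succ_le_pow B1 n

/-- completeness -/
theorem pellSys_complete (Q : ℕ → ℕ) (hL : ∀ m p, 3 * 15 ^ m ≤ p → 3 ^ (m ^ 2) ≤ Q p)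
    {b n : ℕ} (hb : 2 ≤ b) :
    ∃ X Y X' Y' t t', PellSys Q b n (b ^ n) X Y X' Y' t t' := by
  set c := b ^ n with hc
  have hA := pellA_ge b n c
  have hAB : pellA b n c ≤ pellA b n c * b := Nat.le_mul_of_pos_right _ (by omega)
  have A1 : 1 < pellA b n c := by omega
  have B1 : 1 < pellA b n c * b := by omega
  have hAc := pellA_ge_c b n c
  have hbig := pellA_big b n c
  obtain ⟨t, ht⟩ := yn_cong A1 (n + 1)
  obtain ⟨t', ht'⟩ := yn_cong B1 (n + 1)
  have hcut : (2 * (pellA b n c * b)) ^ (n + 1) ≤ Q ((pellA b n c * b) ^ 8) := by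
    apply cut_complete hL (by omega)
    calc 2 ^ (n + 1) = 2 * 2 ^ n := by ring
      _ ≤ 2 * b ^ n := by gcongr
      _ ≤ pellA b n c * b := hAc.trans hAB
  have hrat := ratio_of_eq_pow (M := 2 * pellA b n c) (b := b) (n := n) (by omega)
    (Y := yn A1 (n + 1)) (Y' := yn B1 (n + 1)) (by
      rw [← hc]
      have : (2 * c + 1) * n ≤ (4 * c + 3) * n := by gcongr <;> omega
      omega) (yn_succ_pos A1 n) (pow_le_yn_succ A1 n) (yn_succ_le_pow A1 n)
      (by rw [mul_assoc]; exact pow_le_yn_succ B1 n)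
      (by rw [mul_assoc]; exact yn_succ_le_pow B1 n)
  refine ⟨xn A1 (n + 1), yn A1 (n + 1), xn B1 (n + 1), yn B1 (n + 1), t, t', ?_, ?_, ht, ht', ?_, ?_,
    hrat.1, hrat.2⟩
  · have := pell_eq A1 (n + 1)
    change _ - (pellA b n c * pellA b n c - 1) * _ * _ = 1 at this
    omega
  · have := pell_eq B1 (n + 1)
    change _ - ((pellA b n c * b) * (pellA b n c * b) - 1) * _ * _ = 1 at this
    omega
  · refine (xn_le_pow A1 (n + 1)).trans (le_trans ?_ hcut)
    exact Nat.pow_le_pow_left (Nat.mul_le_mul_left _ hAB) _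
  · exact (xn_le_pow B1 (n + 1)).trans hcut

theorem pow_iff_pellSys (Q : ℕ → ℕ) (hL : ∀ m p, 3 * 15 ^ m ≤ p → 3 ^ (m ^ 2) ≤ Q p)
    (hU : ∀ m p, 3 ≤ p → p < 3 * 9 ^ m → Q p ≤ p ^ (m + 4))
    {b n c : ℕ} (hb : 2 ≤ b) :
    c = b ^ n ↔ ∃ X Y X' Y' t t', PellSys Q b n c X Y X' Y' t t' := by
  constructor
  · rintro rfl
    exact pellSys_complete Q hL hb
  · rintro ⟨X, Y, X', Y', t, t', h⟩
    exact pellSys_sound Q hU hb h

end Vale.Agent.P345
end

section

/-!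
# P345, module T2: exponentiation is a single-fold function, given `Q`
-/

namespace Vale.Agent.P345

theorem pellSys_iff (Q : ℕ → ℕ) (b n c X Y X' Y' t t' : ℕ) :
    PellSys Q b n c X Y X' Y' t t' ↔
      X * X = (pellA b n c * pellA b n c - 1) * Y * Y + 1 ∧
      X' * X' = ((pellA b n c * b) * (pellA b n c * b) - 1) * Y' * Y' + 1 ∧
      Y = n + 1 + (pellA b n c - 1) * t ∧
      Y' = n + 1 + (pellA b n c * b - 1) * t' ∧
      X ≤ Q ((pellA b n c * b) ^ 8) ∧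
      X' ≤ Q ((pellA b n c * b) ^ 8) ∧
      2 * Y' ≤ (2 * c + 1) * Y ∧
      2 * c * Y ≤ 2 * Y' + Y :=
  ⟨fun h => ⟨h.1, h.2, h.3, h.4, h.5, h.6, h.7, h.8⟩,
    fun ⟨h1, h2, h3, h4, h5, h6, h7, h8⟩ => ⟨h1, h2, h3, h4, h5, h6, h7, h8⟩⟩

theorem SFn.pow_const {X : Type} [Ctx X] {f : X → ℕ} (hf : SFn f) (k : ℕ) :
    SFn (fun x => f x ^ k) := by
  induction k with
  | zero => simpa using SFn.const (X := X) 1
  | succ k ih =>
    simp only [pow_succ]
    exact ih.mul hf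

theorem SFn.pellA {X : Type} [Ctx X] {b n c : X → ℕ} (hb : SFn b) (hn : SFn n) (hc : SFn c) :
    SFn (fun x => pellA (b x) (n x) (c x)) :=
  (((SFn.const 4096).mul hn.succ).mul hc.succ).mul hb.succ

/-- The system is single-fold in all variables. -/
theorem SF.pellSys {W : Type} [Ctx W] {Q : ℕ → ℕ} (hQ : SFn Q)
    {b n c X Y X' Y' t t' : W → ℕ} (hb : SFn b) (hn : SFn n) (hc : SFn c)
    (hX : SFn X) (hY : SFn Y) (hX' : SFn X') (hY' : SFn Y') (ht : SFn t) (ht' : SFn t') :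
    SF (fun w => PellSys Q (b w) (n w) (c w) (X w) (Y w) (X' w) (Y' w) (t w) (t' w)) := by
  have hA : SFn (fun w => P345.pellA (b w) (n w) (c w)) := SFn.pellA hb hn hc
  have hB : SFn (fun w => P345.pellA (b w) (n w) (c w) * b w) := hA.mul hb
  have h1 : SFn (fun _ : W => 1) := SFn.const 1
  have h2 : SFn (fun _ : W => 2) := SFn.const 2
  have hcut : SFn (fun w => Q ((P345.pellA (b w) (n w) (c w) * b w) ^ 8)) :=
    hQ.comp (hB.pow_const 8)
  refine SF.congr ?_ (fun w => (pellSys_iff Q _ _ _ _ _ _ _ _ _).symm)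
  refine (SF.eq (hX.mul hX) (((((hA.mul hA).tsub h1).mul hY).mul hY).add h1)).and ?_
  refine (SF.eq (hX'.mul hX') (((((hB.mul hB).tsub h1).mul hY').mul hY').add h1)).and ?_
  refine (SF.eq hY (hn.succ.add ((hA.tsub h1).mul ht))).and ?_
  refine (SF.eq hY' (hn.succ.add ((hB.tsub h1).mul ht'))).and ?_
  refine (SF.le hX hcut).and ?_
  refine (SF.le hX' hcut).and ?_
  refine (SF.le (h2.mul hY') (((h2.mul hc).succ).mul hY)).and ?_
  exact SF.le ((h2.mul hc).mul hY) ((h2.mul hY').add hY)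

/-- Exponentiation is single-fold. -/
theorem SFn.pow_of_growth {Q : ℕ → ℕ} (hQ : SFn Q)
    (hL : ∀ m p, 3 * 15 ^ m ≤ p → 3 ^ (m ^ 2) ≤ Q p)
    (hU : ∀ m p, 3 ≤ p → p < 3 * 9 ^ m → Q p ≤ p ^ (m + 4)) :
    SFn (fun p : ℕ × ℕ => p.1 ^ p.2) := by
  have hb : SFn (fun p : (ℕ × ℕ) × ℕ => p.1.1) := SFn.fst.comp SFn.fst
  have hn : SFn (fun p : (ℕ × ℕ) × ℕ => p.1.2) := SFn.snd.comp SFn.fst
  have hc : SFn (fun p : (ℕ × ℕ) × ℕ => p.2) := SFn.snd
  -- main case
  have hmain : SF (fun p : (ℕ × ℕ) × ℕ => 2 ≤ p.1.1 ∧ p.2 = p.1.1 ^ p.1.2) := by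
    have hR : SF (fun q : ((ℕ × ℕ) × ℕ) × ((ℕ × ℕ) × (ℕ × ℕ) × (ℕ × ℕ)) =>
        2 ≤ q.1.1.1 ∧ PellSys Q q.1.1.1 q.1.1.2 q.1.2 q.2.1.1 q.2.1.2 q.2.2.1.1 q.2.2.1.2
          q.2.2.2.1 q.2.2.2.2) := by
      refine (SF.le (SFn.const 2) (hb.comp SFn.fst)).and ?_
      exact SF.pellSys hQ (hb.comp SFn.fst) (hn.comp SFn.fst) (hc.comp SFn.fst)
        (SFn.fst.comp (SFn.fst.comp SFn.snd)) (SFn.snd.comp (SFn.fst.comp SFn.snd))
        (SFn.fst.comp (SFn.fst.comp (SFn.snd.comp SFn.snd)))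
        (SFn.snd.comp (SFn.fst.comp (SFn.snd.comp SFn.snd)))
        (SFn.fst.comp (SFn.snd.comp (SFn.snd.comp SFn.snd)))
        (SFn.snd.comp (SFn.snd.comp (SFn.snd.comp SFn.snd)))
    refine (SF.ex hR ?_).congr ?_
    · rintro ⟨⟨b, n⟩, c⟩ ⟨⟨X, Y⟩, ⟨X', Y'⟩, ⟨t, t'⟩⟩ ⟨⟨X₂, Y₂⟩, ⟨X₂', Y₂'⟩, ⟨t₂, t₂'⟩⟩ ⟨h2, h⟩ ⟨_, h'⟩
      obtain ⟨e1, e2, e3, e4, e5, e6⟩ := pellSys_unique Q hU h2 h h'
      simp only at e1 e2 e3 e4 e5 e6
      subst e1 e2 e3 e4 e5 e6
      rfl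
    · rintro ⟨⟨b, n⟩, c⟩
      constructor
      · rintro ⟨⟨⟨X, Y⟩, ⟨X', Y'⟩, ⟨t, t'⟩⟩, h2, h⟩
        exact ⟨h2, pellSys_sound Q hU h2 h⟩
      · rintro ⟨h2, h⟩
        simp only at h2 h
        obtain ⟨X, Y, X', Y', t, t', h⟩ := (pow_iff_pellSys Q hL hU h2).1 h
        exact ⟨⟨⟨X, Y⟩, ⟨X', Y'⟩, ⟨t, t'⟩⟩, h2, h⟩
  have h1 : SF (fun p : (ℕ × ℕ) × ℕ => p.1.1 = 1 ∧ p.2 = 1) :=
    (SF.eq hb (SFn.const 1)).and (SF.eq hc (SFn.const 1))
  have h00 : SF (fun p : (ℕ × ℕ) × ℕ => p.1.1 = 0 ∧ p.1.2 = 0 ∧ p.2 = 1) :=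
    (SF.eq hb (SFn.const 0)).and ((SF.eq hn (SFn.const 0)).and (SF.eq hc (SFn.const 1)))
  have h01 : SF (fun p : (ℕ × ℕ) × ℕ => p.1.1 = 0 ∧ 1 ≤ p.1.2 ∧ p.2 = 0) :=
    (SF.eq hb (SFn.const 0)).and ((SF.le (SFn.const 1) hn).and (SF.eq hc (SFn.const 0)))
  refine (hmain.or (h1.or (h00.or h01 ?_) ?_) ?_).congr ?_
  · intro x a b; omega
  · rintro x a (b | b) <;> omega
  · rintro x a (b | b | b) <;> omega
  · rintro ⟨⟨b, n⟩, c⟩
    simp only
    rcases Nat.lt_or_ge b 2 with hb2 | hb2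
    · interval_cases b
      · rcases Nat.eq_zero_or_pos n with hn0 | hn0
        · subst hn0; simp
        · rw [Nat.zero_pow hn0]; omega
      · rw [Nat.one_pow]; omega
    · constructor
      · rintro (h | h | h | h)
        · exact h.2
        · omega
        · omega
        · omega
      · intro h; exact Or.inl ⟨hb2, h⟩

end Vale.Agent.P345

namespace Vale.Agent.P345

/-- The same statement with the interface of the elliptic part. -/
theorem SFn.pow_of_exists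
    (h : ∃ M : ℕ → ℕ, SFn M ∧ (∀ p m, 3 ≤ p → 3 * 15 ^ m ≤ p → 3 ^ (m ^ 2) ≤ M p) ∧
      (∀ p m, 3 ≤ p → p < 3 * 9 ^ m → M p ≤ p ^ (m + 4))) :
    SFn (fun p : ℕ × ℕ => p.1 ^ p.2) := by
  obtain ⟨M, hM, hL, hU⟩ := h
  refine SFn.pow_of_growth hM (fun m p hp => hL p m ?_ hp) (fun m p h3 hp => hU p m h3 hp)
  have : 1 ≤ 15 ^ m := Nat.one_le_pow _ _ (by norm_num)
  omega

end Vale.Agent.P345
end

section

/-!
# P345: number-theoretic core of the bounded universal quantifier (single-fold version)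
-/

namespace P345.BUQ

open Finset

/-- the `i`-th modulus -/
def pm (K i : ℕ) : ℕ := 1 + (i + 1) * K.factorial

/-- the product of the first `y` moduli -/
def MM (K y : ℕ) : ℕ := ∏ i ∈ range y, pm K i

theorem pm_pos (K i : ℕ) : 0 < pm K i := by unfold pm; positivity

theorem one_lt_pm (K i : ℕ) : 1 < pm K i := by
  unfold pm
  have : 0 < (i + 1) * K.factorial := by positivity
  omega

theorem MM_pos (K y : ℕ) : 0 < MM K y := Finset.prod_pos fun i _ => pm_pos K i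

theorem lt_of_prime_dvd {K i p : ℕ} (hp : p.Prime) (h : p ∣ pm K i) : K < p := by
  by_contra hle
  push Not at hle
  have h1 : p ∣ (i + 1) * K.factorial := Dvd.dvd.mul_left (hp.dvd_factorial.mpr hle) _
  have h2 : p ∣ 1 := (Nat.dvd_add_left h1).mp (by simpa [pm] using h)
  exact hp.one_lt.ne' (Nat.dvd_one.mp h2)

theorem pm_coprime_factorial (K i : ℕ) : Nat.Coprime (pm K i) K.factorial := by
  unfold pm
  simp

theorem pm_coprime {K y i j : ℕ} (hy : y ≤ K) (hi : i < y) (hj : j < y) (hij : i ≠ j) :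
    Nat.Coprime (pm K i) (pm K j) := by
  wlog hlt : i < j generalizing i j
  · exact (this hj hi hij.symm (by omega)).symm
  rw [Nat.coprime_iff_gcd_eq_one]
  by_contra hne
  obtain ⟨p, hp, hpd⟩ := Nat.exists_prime_and_dvd hne
  have h1 : p ∣ pm K i := hpd.trans (Nat.gcd_dvd_left _ _)
  have h2 : p ∣ pm K j := hpd.trans (Nat.gcd_dvd_right _ _)
  have hKp := lt_of_prime_dvd hp h1
  have h3 : p ∣ pm K j - pm K i := Nat.dvd_sub h2 h1
  have h4 : pm K j - pm K i = (j - i) * K.factorial := by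
    unfold pm
    obtain ⟨d, rfl⟩ := Nat.exists_eq_add_of_lt hlt
    have : i + d + 1 - i = d + 1 := by omega
    rw [this]
    have : 1 + (i + d + 1 + 1) * K.factorial = (1 + (i + 1) * K.factorial) + (d + 1) * K.factorial := by
      ring
    rw [this, Nat.add_sub_cancel_left]
  rw [h4] at h3
  rcases hp.dvd_mul.mp h3 with h5 | h5
  · have := Nat.le_of_dvd (by omega) h5
    omega
  · have := hp.dvd_factorial.mp h5
    omega

theorem pm_dvd_MM {K y i : ℕ} (hi : i < y) : pm K i ∣ MM K y :=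
  Finset.dvd_prod_of_mem _ (mem_range.mpr hi)

theorem MM_dvd_of {K y : ℕ} (hy : y ≤ K) {z : ℤ} (h : ∀ i < y, (pm K i : ℤ) ∣ z) :
    (MM K y : ℤ) ∣ z := by
  unfold MM
  push_cast
  refine Finset.prod_dvd_of_coprime ?_ ?_
  · intro i hi j hj hij
    simp only [coe_range, Set.mem_Iio] at hi hj
    exact Nat.isCoprime_iff_coprime.mpr (pm_coprime hy hi hj hij)
  · intro i hi
    exact h i (mem_range.mp hi)

theorem MM_dvd_of_nat {K y : ℕ} (hy : y ≤ K) {z : ℕ} (h : ∀ i < y, pm K i ∣ z) :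
    MM K y ∣ z := by
  have := MM_dvd_of (K := K) (y := y) hy (z := (z : ℤ)) fun i hi => by exact_mod_cast h i hi
  exact_mod_cast this

theorem crt (K y : ℕ) (hy : y ≤ K) (r : ℕ → ℕ) :
    ∃ x < MM K y, ∀ i < y, x ≡ r i [MOD pm K i] := by
  have hp : Set.Pairwise (↑(range y) : Set ℕ) (Function.onFun Nat.Coprime (pm K)) := by
    intro i hi j hj hij
    simp only [coe_range, Set.mem_Iio] at hi hj
    exact pm_coprime hy hi hj hij
  let c := Nat.chineseRemainderOfFinset r (pm K) (range y) (fun i _ => (pm_pos K i).ne') hp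
  refine ⟨c, Nat.chineseRemainderOfFinset_lt_prod r (pm K) (fun i _ => (pm_pos K i).ne') hp, ?_⟩
  intro i hi
  exact c.2 i (mem_range.mpr hi)

theorem eq_of_modEq {K y x x' : ℕ} (hy : y ≤ K) (hx : x < MM K y) (hx' : x' < MM K y)
    (h : ∀ i < y, x ≡ x' [MOD pm K i]) : x = x' := by
  refine Nat.ModEq.eq_of_lt_of_lt (m := MM K y) ?_ hx hx'
  rw [Nat.modEq_iff_dvd]
  exact MM_dvd_of hy fun i hi => (Nat.modEq_iff_dvd.mp (h i hi))

variable {m : ℕ}

/-- `(c, a)` codes, for the bound `B`, a sequence of zeros of `F 0, ..., F (y-1)`. -/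
structure Code (F : ℕ → (Fin m → ℕ) → ℤ) (y B K c : ℕ) (a : Fin m → ℕ) : Prop where
  c_lt : c < MM K y
  a_lt : ∀ j, a j < MM K y
  c_dvd : MM K y ∣ 1 + (c + 1) * K.factorial
  a_dvd : ∀ j, MM K y ∣ (a j).descFactorial (B + 1)
  F_dvd : (MM K y : ℤ) ∣ F c a

/-- polynomial-like behaviour under congruences -/
def Cong (F : ℕ → (Fin m → ℕ) → ℤ) : Prop :=
  ∀ (N : ℤ) (i i' : ℕ) (w w' : Fin m → ℕ), (i : ℤ) ≡ i' [ZMOD N] →
    (∀ j, (w j : ℤ) ≡ w' j [ZMOD N]) → F i w ≡ F i' w' [ZMOD N]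

/-- uniqueness of zeros below `y` -/
def Uniq (F : ℕ → (Fin m → ℕ) → ℤ) (y : ℕ) : Prop :=
  ∀ i < y, ∀ w w', F i w = 0 → F i w' = 0 → w = w'

/-- `K` is large with respect to `y`, `B` and the values of `F`. -/
structure Large (F : ℕ → (Fin m → ℕ) → ℤ) (y B K : ℕ) : Prop where
  hB : B < K
  hy : y ≤ K
  bound : ∀ i < y, ∀ w, (∀ j, w j ≤ B) → |F i w| < K

theorem exists_le_modEq {a B p : ℕ} (hp : p.Prime) (h : p ∣ a.descFactorial (B + 1)) :
    ∃ t ≤ B, a ≡ t [MOD p] := by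
  rw [Nat.descFactorial_eq_prod_range] at h
  obtain ⟨t, ht, hd⟩ := (hp.prime.dvd_finsetProd_iff _).mp h
  have htB : t ≤ B := by have := mem_range.mp ht; omega
  by_cases hta : t ≤ a
  · exact ⟨t, htB, ((Nat.modEq_iff_dvd' hta).mpr hd).symm⟩
  · exact ⟨a, by omega, Nat.ModEq.refl _⟩

theorem c_modEq {K i c : ℕ} (h : pm K i ∣ 1 + (c + 1) * K.factorial) : c ≡ i [MOD pm K i] := by
  rw [Nat.modEq_iff_dvd]
  have h1 : (pm K i : ℤ) ∣ (1 + (c + 1) * K.factorial : ℕ) := by exact_mod_cast h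
  have h2 : (pm K i : ℤ) ∣ ((i : ℤ) - c) * (K.factorial : ℤ) := by
    have h3 : ((i : ℤ) - c) * (K.factorial : ℤ) =
        (pm K i : ℤ) - ((1 + (c + 1) * K.factorial : ℕ) : ℤ) := by
      unfold pm; push_cast; ring
    rw [h3]
    exact dvd_sub (dvd_refl _) h1
  exact (Nat.isCoprime_iff_coprime.mpr (pm_coprime_factorial K i)).dvd_of_dvd_mul_right h2

theorem key {F : ℕ → (Fin m → ℕ) → ℤ} {y B K c : ℕ} {a : Fin m → ℕ}
    (hcong : Cong F) (hK : Large F y B K) (hc : Code F y B K c a) {i : ℕ} (hi : i < y)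
    {p : ℕ} (hp : p.Prime) (hpd : p ∣ pm K i) :
    ∃ w : Fin m → ℕ, (∀ j, w j ≤ B) ∧ F i w = 0 ∧ ∀ j, a j ≡ w j [MOD p] := by
  have hKp := lt_of_prime_dvd hp hpd
  have hpM : p ∣ MM K y := hpd.trans (pm_dvd_MM hi)
  choose w hwB hw using fun j => exists_le_modEq hp (hpM.trans (hc.a_dvd j))
  refine ⟨w, hwB, ?_, hw⟩
  have h1 : c ≡ i [MOD p] :=
    (c_modEq ((pm_dvd_MM hi).trans hc.c_dvd)).of_dvd hpd
  have h2 : F c a ≡ F i w [ZMOD p] :=
    hcong p c i a w (by exact (Int.natCast_modEq_iff).mpr h1)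
      fun j => (Int.natCast_modEq_iff).mpr (hw j)
  have h3 : (p : ℤ) ∣ F c a := (by exact_mod_cast hpM : (p : ℤ) ∣ (MM K y : ℤ)).trans hc.F_dvd
  have h4 : (p : ℤ) ∣ F i w := by
    have := (Int.modEq_iff_dvd.mp h2)
    have h5 := dvd_add this h3
    simpa using h5
  have h5 := hK.bound i hi w hwB
  exact Int.eq_zero_of_abs_lt_dvd h4 (by
    have : (K : ℤ) < p := by exact_mod_cast hKp
    linarith)

theorem key' {F : ℕ → (Fin m → ℕ) → ℤ} {y B K c : ℕ} {a : Fin m → ℕ}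
    (hcong : Cong F) (huniq : Uniq F y) (hK : Large F y B K) (hc : Code F y B K c a)
    {i : ℕ} (hi : i < y) :
    ∃ w : Fin m → ℕ, (∀ j, w j ≤ B) ∧ F i w = 0 ∧ ∀ j, a j ≡ w j [MOD pm K i] := by
  have hp0 : (pm K i).minFac.Prime := Nat.minFac_prime (one_lt_pm K i).ne'
  obtain ⟨w, hwB, hFw, hw0⟩ := key hcong hK hc hi hp0 (Nat.minFac_dvd _)
  refine ⟨w, hwB, hFw, fun j => ?_⟩
  have hw : ∀ p : ℕ, p.Prime → p ∣ pm K i → a j ≡ w j [MOD p] := by
    intro p hp hpd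
    obtain ⟨w', _, hFw', hw'⟩ := key hcong hK hc hi hp hpd
    rw [huniq i hi w w' hFw hFw']
    exact hw' j
  have hB := hK.hB
  by_cases haB : a j ≤ B
  · have h1 := hw _ hp0 (Nat.minFac_dvd _)
    have h2 := lt_of_prime_dvd hp0 (Nat.minFac_dvd (pm K i))
    have h3 : a j = w j := Nat.ModEq.eq_of_lt_of_lt h1 (by omega) (by have := hwB j; omega)
    rw [h3]
  · push Not at haB
    have hd : pm K i ∣ (a j).descFactorial (B + 1) := (pm_dvd_MM hi).trans (hc.a_dvd j)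
    rw [Nat.descFactorial_eq_prod_range] at hd
    have hmem : w j ∈ range (B + 1) := mem_range.mpr (by have := hwB j; omega)
    rw [← Finset.mul_prod_erase _ _ hmem] at hd
    have hcop : Nat.Coprime (pm K i) (∏ t ∈ (range (B + 1)).erase (w j), (a j - t)) := by
      refine Nat.Coprime.prod_right fun t ht => ?_
      have htw : t ≠ w j := (Finset.mem_erase.mp ht).1
      have htB : t ≤ B := by have := mem_range.mp (Finset.mem_erase.mp ht).2; omega
      rw [Nat.coprime_iff_gcd_eq_one]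
      by_contra hne
      obtain ⟨p, hp, hpd⟩ := Nat.exists_prime_and_dvd hne
      have h1 : p ∣ pm K i := hpd.trans (Nat.gcd_dvd_left _ _)
      have h2 : p ∣ a j - t := hpd.trans (Nat.gcd_dvd_right _ _)
      have h3 := lt_of_prime_dvd hp h1
      have h4 : t ≡ a j [MOD p] := (Nat.modEq_iff_dvd' (by omega)).mpr h2
      have h5 : t ≡ w j [MOD p] := h4.trans (hw p hp h1)
      exact htw (Nat.ModEq.eq_of_lt_of_lt h5 (by omega) (by have := hwB j; omega))
    have h6 := hcop.dvd_of_dvd_mul_right hd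
    exact ((Nat.modEq_iff_dvd' (by have := hwB j; omega)).mpr h6).symm

/-- decoding -/
theorem decode {F : ℕ → (Fin m → ℕ) → ℤ} {y B K c : ℕ} {a : Fin m → ℕ}
    (hcong : Cong F) (huniq : Uniq F y) (hK : Large F y B K) (hc : Code F y B K c a)
    {i : ℕ} (hi : i < y) :
    (∀ j, a j % pm K i ≤ B) ∧ F i (fun j => a j % pm K i) = 0 := by
  obtain ⟨w, hwB, hFw, hw⟩ := key' hcong huniq hK hc hi
  have h1 : (fun j => a j % pm K i) = w := by
    funext j
    have h2 := hw j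
    have h3 := lt_of_prime_dvd (Nat.minFac_prime (one_lt_pm K i).ne') (Nat.minFac_dvd (pm K i))
    have h4 : (pm K i).minFac ≤ pm K i := Nat.minFac_le (pm_pos K i)
    have h5 := hwB j
    have h6 := hK.hB
    rw [h2, Nat.mod_eq_of_lt (by omega)]
  constructor
  · intro j
    have := congrFun h1 j
    exact this ▸ hwB j
  · rw [h1]; exact hFw

theorem code_unique {F : ℕ → (Fin m → ℕ) → ℤ} {y B K c c' : ℕ} {a a' : Fin m → ℕ}
    (hcong : Cong F) (huniq : Uniq F y) (hK : Large F y B K) (hc : Code F y B K c a)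
    (hc' : Code F y B K c' a') : c = c' ∧ a = a' := by
  constructor
  · refine eq_of_modEq hK.hy hc.c_lt hc'.c_lt fun i hi => ?_
    exact (c_modEq ((pm_dvd_MM hi).trans hc.c_dvd)).trans
      (c_modEq ((pm_dvd_MM hi).trans hc'.c_dvd)).symm
  · funext j
    refine eq_of_modEq hK.hy (hc.a_lt j) (hc'.a_lt j) fun i hi => ?_
    obtain ⟨w, _, hFw, hw⟩ := key' hcong huniq hK hc hi
    obtain ⟨w', _, hFw', hw'⟩ := key' hcong huniq hK hc' hi
    rw [huniq i hi w w' hFw hFw'] at hw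
    exact (hw j).trans (hw' j).symm

theorem code_exists {F : ℕ → (Fin m → ℕ) → ℤ} {y B K : ℕ}
    (hcong : Cong F) (hy : y ≤ K) (W : ℕ → Fin m → ℕ)
    (hW : ∀ i < y, (∀ j, W i j ≤ B) ∧ F i (W i) = 0) :
    ∃ c a, Code F y B K c a ∧ ∀ i < y, ∀ j, a j ≡ W i j [MOD pm K i] := by
  obtain ⟨c, hcM, hc⟩ := crt K y hy id
  choose a haM ha using fun j => crt K y hy fun i => W i j
  refine ⟨c, a, ⟨hcM, haM, ?_, ?_, ?_⟩, fun i hi j => ha j i hi⟩
  · refine MM_dvd_of_nat hy fun i hi => ?_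
    have h1 : (1 + (c + 1) * K.factorial) ≡ (1 + (i + 1) * K.factorial) [MOD pm K i] :=
      Nat.ModEq.add_left _ (Nat.ModEq.mul_right _ (Nat.ModEq.add_right _ (hc i hi)))
    have h2 : pm K i ∣ 1 + (i + 1) * K.factorial := by unfold pm; exact dvd_refl _
    exact (Nat.ModEq.dvd_iff h1 (dvd_refl _)).mpr h2
  · intro j
    refine MM_dvd_of_nat hy fun i hi => ?_
    by_cases haB : a j ≤ B
    · rw [Nat.descFactorial_eq_zero_iff_lt.mpr (by omega)]
      exact dvd_zero _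
    · rw [Nat.descFactorial_eq_prod_range]
      refine Dvd.dvd.trans ?_ (Finset.dvd_prod_of_mem _
        (mem_range.mpr (Nat.lt_succ_of_le ((hW i hi).1 j))))
      exact (Nat.modEq_iff_dvd' (by have := (hW i hi).1 j; omega)).mp (ha j i hi).symm
  · refine MM_dvd_of hy fun i hi => ?_
    have h2 : F c a ≡ F i (W i) [ZMOD (pm K i : ℤ)] :=
      hcong _ c i a (W i) ((Int.natCast_modEq_iff).mpr (hc i hi))
        fun j => (Int.natCast_modEq_iff).mpr (ha j i hi)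
    rw [(hW i hi).2] at h2
    exact Int.modEq_zero_iff_dvd.mp h2

/-- Bounded quantification, the bound `B` on the witnesses being given. -/
theorem forall_iff_exists_code {F : ℕ → (Fin m → ℕ) → ℤ} {y B K : ℕ}
    (hcong : Cong F) (huniq : Uniq F y) (hK : Large F y B K) :
    (∀ i < y, ∃ w : Fin m → ℕ, (∀ j, w j ≤ B) ∧ F i w = 0) ↔ ∃ c a, Code F y B K c a := by
  constructor
  · intro h
    choose! W hW using h
    obtain ⟨c, a, hc, _⟩ := code_exists hcong hK.hy W hW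
    exact ⟨c, a, hc⟩
  · rintro ⟨c, a, hc⟩ i hi
    exact ⟨_, decode hcong huniq hK hc hi⟩

/-- minimality of the bound in terms of the code -/
def Least (y B K : ℕ) (a : Fin m → ℕ) : Prop :=
  B = 0 ∨ ∃ j, ¬ MM K y ∣ (a j).descFactorial B

theorem least_iff {F : ℕ → (Fin m → ℕ) → ℤ} {y B K c : ℕ} {a : Fin m → ℕ}
    (hcong : Cong F) (huniq : Uniq F y) (hK : Large F y B K) (hc : Code F y B K c a) :
    Least y B K a ↔ (B = 0 ∨ ∃ i < y, ∃ j, ∃ w, F i w = 0 ∧ w j = B) := by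
  unfold Least
  refine or_congr_right' fun hB0 => ?_
  obtain ⟨B', rfl⟩ := Nat.exists_eq_succ_of_ne_zero hB0
  constructor
  · rintro ⟨j, hj⟩
    by_contra hcon
    push Not at hcon
    apply hj
    refine MM_dvd_of_nat hK.hy fun i hi => ?_
    obtain ⟨w, hwB, hFw, hw⟩ := key' hcong huniq hK hc hi
    have h1 := hcon i hi j w hFw
    have h2 : w j ≤ B' := by have := hwB j; simp only [Nat.succ_eq_add_one] at *; omega
    by_cases haB : a j ≤ B'
    · rw [Nat.descFactorial_eq_zero_iff_lt.mpr (by simp only [Nat.succ_eq_add_one]; omega)]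
      exact dvd_zero _
    · rw [Nat.descFactorial_eq_prod_range]
      refine Dvd.dvd.trans ?_ (Finset.dvd_prod_of_mem _
        (mem_range.mpr (Nat.lt_succ_of_le h2)))
      exact (Nat.modEq_iff_dvd' (by omega)).mp (hw j).symm
  · rintro ⟨i, hi, j, w, hFw, hwj⟩
    refine ⟨j, fun hdvd => ?_⟩
    obtain ⟨w', hwB', hFw', hw'⟩ := key' hcong huniq hK hc hi
    obtain rfl := huniq i hi w w' hFw hFw'
    have hp0 : (pm K i).minFac.Prime := Nat.minFac_prime (one_lt_pm K i).ne'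
    have hpd := Nat.minFac_dvd (pm K i)
    obtain ⟨t, ht, hat⟩ := exists_le_modEq hp0 ((hpd.trans (pm_dvd_MM hi)).trans hdvd)
    have h3 := lt_of_prime_dvd hp0 hpd
    have h4 : t ≡ w j [MOD (pm K i).minFac] := hat.symm.trans ((hw' j).of_dvd hpd)
    have hB := hK.hB
    simp only [Nat.succ_eq_add_one] at *
    have h5 := Nat.ModEq.eq_of_lt_of_lt h4 (by omega) (by omega)
    omega

/-- Bounded universal quantifier: the existential unknowns `B, c, a` are unique. -/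
theorem forall_iff {F : ℕ → (Fin m → ℕ) → ℤ} {y : ℕ} (K : ℕ → ℕ)
    (hcong : Cong F) (huniq : Uniq F y) (hK : ∀ B, Large F y B (K B)) :
    (∀ i < y, ∃ w : Fin m → ℕ, F i w = 0) ↔
      ∃ B c a, Code F y B (K B) c a ∧ Least y B (K B) a := by
  constructor
  · intro h
    choose! W hW using h
    -- the least bound
    have hex : ∃ B, ∀ i < y, ∀ j, W i j ≤ B := by
      refine ⟨∑ i ∈ range y, ∑ j, W i j, fun i hi j => ?_⟩
      calc W i j ≤ ∑ j, W i j := Finset.single_le_sum (f := fun j => W i j)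
            (fun _ _ => Nat.zero_le _) (mem_univ j)
        _ ≤ _ := Finset.single_le_sum (f := fun i => ∑ j, W i j)
            (fun _ _ => Nat.zero_le _) (mem_range.mpr hi)
    classical
    let B := Nat.find hex
    have hB : ∀ i < y, ∀ j, W i j ≤ B := Nat.find_spec hex
    obtain ⟨c, a, hc, ha⟩ := code_exists (B := B) hcong (hK B).hy W fun i hi => ⟨hB i hi, hW i hi⟩
    refine ⟨B, c, a, hc, (least_iff hcong huniq (hK B) hc).mpr ?_⟩
    by_contra hcon
    push Not at hcon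
    obtain ⟨hB0, h1⟩ := hcon
    have h2 : ∀ i < y, ∀ j, W i j ≤ B - 1 := by
      intro i hi j
      have := hB i hi j
      have := h1 i hi j (W i) (hW i hi)
      omega
    have h3 := Nat.find_min' hex h2
    have h4 : B ≤ B - 1 := h3
    omega
  · rintro ⟨B, c, a, hc, _⟩ i hi
    exact ⟨_, (decode hcong huniq (hK B) hc hi).2⟩

theorem forall_unique {F : ℕ → (Fin m → ℕ) → ℤ} {y : ℕ} (K : ℕ → ℕ)
    (hcong : Cong F) (huniq : Uniq F y) (hK : ∀ B, Large F y B (K B))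
    {B c B' c' : ℕ} {a a' : Fin m → ℕ}
    (h : Code F y B (K B) c a ∧ Least y B (K B) a)
    (h' : Code F y B' (K B') c' a' ∧ Least y B' (K B') a') : B = B' ∧ c = c' ∧ a = a' := by
  have key2 : ∀ {B c B' c' : ℕ} {a a' : Fin m → ℕ},
      (Code F y B (K B) c a ∧ Least y B (K B) a) →
      (Code F y B' (K B') c' a' ∧ Least y B' (K B') a') → B ≤ B' := by
    intro B c B' c' a a' h h'
    rcases (least_iff hcong huniq (hK B) h.1).mp h.2 with h0 | ⟨i, hi, j, w, hFw, hwj⟩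
    · omega
    · obtain ⟨w', hwB', hFw', _⟩ := key' hcong huniq (hK B') h'.1 hi
      obtain rfl := huniq i hi w w' hFw hFw'
      rw [← hwj]; exact hwB' j
  have hBB : B = B' := le_antisymm (key2 h h') (key2 h' h)
  subst hBB
  exact ⟨rfl, code_unique hcong huniq (hK B) h.1 h'.1⟩

end P345.BUQ
end

section

/-!
# Bounded universal quantification
-/

namespace Vale.Agent.P345

open Finset

section aux

variable {X Y Z : Type} [Ctx X] [Ctx Y] [Ctx Z]

theorem isPoly_add {α : Type} {f g : (α → ℕ) → ℤ} (hf : IsPoly f) (hg : IsPoly g) :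
    IsPoly (fun v => f v + g v) := hf.add hg

/-- Every polynomial is a difference of two natural-valued polynomials. -/
theorem IsPoly.exists_sub {α : Type} {p : (α → ℕ) → ℤ} (hp : IsPoly p) :
    ∃ g h : (α → ℕ) → ℕ, IsPoly (fun v => (g v : ℤ)) ∧ IsPoly (fun v => (h v : ℤ)) ∧
      ∀ v, p v = g v - h v := by
  induction hp with
  | proj i => exact ⟨fun v => v i, fun _ => 0, IsPoly.proj i, IsPoly.const 0, fun v => by simp⟩
  | const n =>
    refine ⟨fun _ => n.toNat, fun _ => (-n).toNat, IsPoly.const _, IsPoly.const _, fun v => ?_⟩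
    exact (Int.toNat_sub_toNat_neg n).symm
  | @sub f g _ _ h1 h2 =>
    obtain ⟨a, b, ha, hb, hab⟩ := h1
    obtain ⟨c, d, hc, hd, hcd⟩ := h2
    refine ⟨fun v => a v + d v, fun v => b v + c v, ?_, ?_, fun v => ?_⟩
    · have := isPoly_add ha hd
      simpa using this
    · have := isPoly_add hb hc
      simpa using this
    · show f v - g v = _
      rw [hab, hcd]; push_cast; ring
  | @mul f g _ _ h1 h2 =>
    obtain ⟨a, b, ha, hb, hab⟩ := h1
    obtain ⟨c, d, hc, hd, hcd⟩ := h2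
    refine ⟨fun v => a v * c v + b v * d v, fun v => a v * d v + b v * c v, ?_, ?_, fun v => ?_⟩
    · have := isPoly_add (ha.mul hc) (hb.mul hd)
      simpa using this
    · have := isPoly_add (ha.mul hd) (hb.mul hc)
      simpa using this
    · show f v * g v = _
      rw [hab, hcd]; push_cast; ring

theorem IsP.exists_sub {f : X → ℤ} (hf : IsP f) :
    ∃ g h : X → ℕ, IsP (fun x => (g x : ℤ)) ∧ IsP (fun x => (h x : ℤ)) ∧
      ∀ x, f x = g x - h x := by
  obtain ⟨g, h, hg, hh, e⟩ := IsPoly.exists_sub hf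
  refine ⟨fun x => g (Ctx.eqv x), fun x => h (Ctx.eqv x), ?_, ?_, fun x => ?_⟩
  · unfold IsP; simpa using hg
  · unfold IsP; simpa using hh
  · have := e (Ctx.eqv x)
    simpa using this

/-- Congruence property of polynomials. -/
theorem IsPoly.congr_mod {α : Type} {p : (α → ℕ) → ℤ} (hp : IsPoly p) {N : ℤ} {v v' : α → ℕ}
    (h : ∀ a, N ∣ (v a : ℤ) - v' a) : N ∣ p v - p v' := by
  induction hp with
  | proj i => exact h i
  | const n => simp
  | @sub f g _ _ h1 h2 =>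
    have e : (fun x => f x - g x) v - (fun x => f x - g x) v' = (f v - f v') - (g v - g v') := by
      simp only; ring
    rw [e]
    exact dvd_sub h1 h2
  | @mul f g _ _ h1 h2 =>
    have e : (fun x => f x * g x) v - (fun x => f x * g x) v'
        = (f v - f v') * g v + f v' * (g v - g v') := by
      simp only; ring
    rw [e]
    exact dvd_add (Dvd.dvd.mul_right h1 _) (Dvd.dvd.mul_left h2 _)

/-- A monotone natural-valued polynomial bound. -/
theorem IsPoly.exists_bound {α : Type} {p : (α → ℕ) → ℤ} (hp : IsPoly p) :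
    ∃ g : (α → ℕ) → ℕ, IsPoly (fun v => (g v : ℤ)) ∧ ∀ v v', (∀ a, v' a ≤ v a) → |p v'| ≤ g v := by
  induction hp with
  | proj i =>
    refine ⟨fun v => v i, IsPoly.proj i, fun v v' h => ?_⟩
    simp only
    rw [abs_of_nonneg (by positivity)]
    exact_mod_cast h i
  | const n =>
    refine ⟨fun _ => n.natAbs, IsPoly.const _, fun v v' _ => ?_⟩
    simp
  | @sub f g _ _ h1 h2 =>
    obtain ⟨a, ha, ha'⟩ := h1
    obtain ⟨b, hb, hb'⟩ := h2
    refine ⟨fun v => a v + b v, ?_, fun v v' h => ?_⟩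
    · have := isPoly_add ha hb
      simpa using this
    · have e1 := ha' v v' h
      have e2 := hb' v v' h
      push_cast
      exact (abs_sub _ _).trans (add_le_add e1 e2)
  | @mul f g _ _ h1 h2 =>
    obtain ⟨a, ha, ha'⟩ := h1
    obtain ⟨b, hb, hb'⟩ := h2
    refine ⟨fun v => a v * b v, ?_, fun v v' h => ?_⟩
    · have := ha.mul hb
      simpa using this
    · have e1 := ha' v v' h
      have e2 := hb' v v' h
      push_cast
      rw [abs_mul]
      exact mul_le_mul e1 e2 (abs_nonneg _) (by positivity)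

theorem SF.forall_fin {m : ℕ} {P : Fin m → X → Prop} (h : ∀ j, SF (P j)) :
    SF (fun x => ∀ j, P j x) := by
  induction m with
  | zero => exact (SF.const True).congr fun x => by simp
  | succ m ih =>
    refine ((h 0).and (ih fun j => h j.succ)).congr fun x => ?_
    exact (Fin.forall_fin_succ (P := fun j => P j x)).symm

theorem SFn.sum_fin {m : ℕ} {f : Fin m → X → ℕ} (h : ∀ j, SFn (f j)) :
    SFn (fun x => ∑ j, f j x) := by
  induction m with
  | zero => exact (SFn.const 0).congr fun x => by simp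
  | succ m ih =>
    exact ((h 0).add (ih fun j => h j.succ)).congr fun x =>
      (Fin.sum_univ_succ (fun j => f j x)).symm

/-- Divisibility of an integer-valued polynomial by a single-fold function. -/
theorem SF.dvd_poly {M : X → ℕ} (hM : SFn M) {f : X → ℤ} (hf : IsP f) :
    SF (fun x => (M x : ℤ) ∣ f x) := by
  obtain ⟨g, h, hg, hh, e⟩ := hf.exists_sub
  refine (SF.eq (SFn.mod (SFn.of_isP hg) hM) (SFn.mod (SFn.of_isP hh) hM)).congr fun x => ?_
  rw [e]
  have h1 : ((g x : ℤ) - h x) = (g x : ℤ) - (h x : ℤ) := rfl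
  rw [h1, ← Int.modEq_iff_dvd, Int.natCast_modEq_iff, Nat.ModEq, eq_comm]

end aux

/-- The coding system for `∀ i < y, ∃ w, F i w = 0`. -/
def BSys {m : ℕ} (F : ℕ → (Fin m → ℕ) → ℤ) (y K B c : ℕ) (a : Fin m → ℕ) : Prop :=
  c < ∏ i ∈ Finset.range y, (1 + (i + 1) * K.factorial) ∧
  (∀ j, a j < ∏ i ∈ Finset.range y, (1 + (i + 1) * K.factorial)) ∧
  (∏ i ∈ Finset.range y, (1 + (i + 1) * K.factorial)) ∣ 1 + (c + 1) * K.factorial ∧
  (∀ j, (∏ i ∈ Finset.range y, (1 + (i + 1) * K.factorial)) ∣ (a j).descFactorial (B + 1)) ∧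
  ((∏ i ∈ Finset.range y, (1 + (i + 1) * K.factorial) : ℕ) : ℤ) ∣ F c a ∧
  (B = 0 ∨ 0 < ∑ j, (a j).descFactorial B % ∏ i ∈ Finset.range y, (1 + (i + 1) * K.factorial))

theorem buq_core {m y : ℕ} (F : ℕ → (Fin m → ℕ) → ℤ)
    (H1 : ∀ (N : ℕ) i i' w w', i ≡ i' [MOD N] → (∀ j, w j ≡ w' j [MOD N]) →
      (N:ℤ) ∣ F i w - F i' w')
    (H3 : ∀ i < y, ∀ w w', F i w = 0 → F i w' = 0 → w = w') (Kf : ℕ → ℕ)
    (hK : ∀ B, B < Kf B ∧ y ≤ Kf B ∧ ∀ i < y, ∀ w : Fin m → ℕ, (∀ j, w j ≤ B) →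
      |F i w| < Kf B) :
  ((∀ i < y, ∃ w, F i w = 0) → ∃! t : ℕ × ℕ × (Fin m → ℕ), BSys F y (Kf t.1) t.1 t.2.1 t.2.2) ∧
  (∀ t : ℕ × ℕ × (Fin m → ℕ), BSys F y (Kf t.1) t.1 t.2.1 t.2.2 → ∀ i < y, ∃ w, F i w = 0) := by
  have hcong : P345.BUQ.Cong F := by
    intro N i i' w w' hi hw
    have hN : ((N.natAbs : ℕ) : ℤ) ∣ F i' w' - F i w := by
      apply H1
      · rw [← Int.natCast_modEq_iff]
        exact (Int.modEq_iff_dvd.2 (by
          rw [Int.natCast_natAbs]; exact (abs_dvd _ _).2 (Int.modEq_iff_dvd.1 hi))).symm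
      · intro j
        rw [← Int.natCast_modEq_iff]
        exact (Int.modEq_iff_dvd.2 (by
          rw [Int.natCast_natAbs]; exact (abs_dvd _ _).2 (Int.modEq_iff_dvd.1 (hw j)))).symm
    rw [Int.modEq_iff_dvd]
    rw [Int.natCast_natAbs] at hN
    exact (abs_dvd _ _).1 hN
  have huniq : P345.BUQ.Uniq F y := H3
  have hL : ∀ B, P345.BUQ.Large F y B (Kf B) := fun B => ⟨(hK B).1, (hK B).2.1, fun i hi w hw =>
    (hK B).2.2 i hi w hw⟩
  have hleast : ∀ (K B : ℕ) (a : Fin m → ℕ), P345.BUQ.Least y B K a ↔ (B = 0 ∨ 0 < ∑ j,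
      (a j).descFactorial B % ∏ i ∈ Finset.range y, (1 + (i + 1) * K.factorial)) := by
    intro K B a
    unfold P345.BUQ.Least
    refine or_congr Iff.rfl ?_
    rw [Finset.sum_pos_iff]
    constructor
    · rintro ⟨j, hj⟩
      refine ⟨j, Finset.mem_univ j, Nat.pos_of_ne_zero fun h0 => hj ?_⟩
      exact Nat.dvd_of_mod_eq_zero h0
    · rintro ⟨j, _, hj⟩
      refine ⟨j, fun hd => ?_⟩
      have := Nat.mod_eq_zero_of_dvd hd
      exact absurd this hj.ne'
  have hsys : ∀ t : ℕ × ℕ × (Fin m → ℕ), BSys F y (Kf t.1) t.1 t.2.1 t.2.2 ↔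
      (P345.BUQ.Code F y t.1 (Kf t.1) t.2.1 t.2.2 ∧ P345.BUQ.Least y t.1 (Kf t.1) t.2.2) := by
    intro t
    rw [hleast]
    constructor
    · rintro ⟨h1, h2, h3, h4, h5, h6⟩
      exact ⟨⟨h1, h2, h3, h4, h5⟩, h6⟩
    · rintro ⟨⟨h1, h2, h3, h4, h5⟩, h6⟩
      exact ⟨h1, h2, h3, h4, h5, h6⟩
  refine ⟨fun h => ?_, fun t ht => ?_⟩
  · obtain ⟨B, c, a, h1, h2⟩ := (P345.BUQ.forall_iff Kf hcong huniq hL).1 h
    refine ⟨(B, c, a), (hsys _).2 ⟨h1, h2⟩, ?_⟩
    rintro ⟨B', c', a'⟩ ht'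
    have h3 := (hsys _).1 ht'
    obtain ⟨e1, e2, e3⟩ := P345.BUQ.forall_unique Kf hcong huniq hL h3 ⟨h1, h2⟩
    simp only at e1 e2 e3
    rw [e1, e2, e3]
  · exact (P345.BUQ.forall_iff Kf hcong huniq hL).2 ⟨t.1, t.2.1, t.2.2, (hsys t).1 ht⟩

section main

variable {X : Type} [Ctx X]

theorem SF.forall_lt
    (hfac : SFn (fun n : ℕ => n.factorial))
    (hdesc : SFn (fun p : ℕ × ℕ => p.1.descFactorial p.2))
    (hprod : SFn (fun p : ℕ × ℕ => ∏ i ∈ Finset.range p.1, (1 + (i + 1) * p.2)))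
    {R : X × ℕ → Prop} (hR : SF R) : SF (fun p : X × ℕ => ∀ i < p.2, R (p.1, i)) := by
  obtain ⟨m, f, hf, h⟩ := hR
  -- bound
  obtain ⟨g, hg, hgb⟩ := IsPoly.exists_bound hf
  -- the point at which the bound is evaluated
  let pt : (X × ℕ) × ℕ → (X × ℕ) × (Fin m → ℕ) := fun q => (q.1, fun _ => q.2)
  have hpt : Re pt := by
    refine ⟨fun j => j.elim (fun j => Sum.inl j) (fun _ => Sum.inr ()), ?_⟩
    intro x j
    cases j with
    | inl j => rfl
    | inr j => rfl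
  let bd : (X × ℕ) × ℕ → ℕ := fun q => g (Ctx.eqv (pt q)) + q.1.2 + q.2 + 1
  have hgP : IsP (fun z : (X × ℕ) × (Fin m → ℕ) => (g (Ctx.eqv z) : ℤ)) := by
    unfold IsP
    simpa using hg
  have hbd : SFn bd := by
    refine SFn.add (SFn.add (SFn.add ?_ (SFn.snd.comp SFn.fst)) SFn.snd) (SFn.const 1)
    exact SFn.of_isP (hgP.re hpt)
  have hbound : ∀ (x : X) (y B i : ℕ) (w : Fin m → ℕ), i ≤ y → (∀ j, w j ≤ B) →
      |f ((x, i), w)| < bd ((x, y), B) := by
    intro x y B i w hi hw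
    have h1 := hgb (Ctx.eqv (pt ((x, y), B))) (Ctx.eqv ((x, i), w)) (by
      intro a
      rcases a with (a | a) | a
      · exact le_refl _
      · exact hi
      · exact hw a)
    rw [Equiv.symm_apply_apply] at h1
    refine lt_of_le_of_lt h1 ?_
    simp only [bd]
    push_cast
    linarith [Nat.cast_nonneg (α := ℤ) y, Nat.cast_nonneg (α := ℤ) B]
  -- core
  have core := fun p : X × ℕ => buq_core (m := m) (y := p.2) (fun i w => f ((p.1, i), w))
    (by
      intro N i i' w w' hi hw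
      have hNP := IsPoly.congr_mod hf (N := (N : ℤ)) (v := Ctx.eqv ((p.1, i), w))
        (v' := Ctx.eqv ((p.1, i'), w')) (by
          intro a
          rcases a with (a | a) | a
          · show (N : ℤ) ∣ ((Ctx.eqv p.1 a : ℕ) : ℤ) - (Ctx.eqv p.1 a : ℕ)
            simp
          · exact (Nat.modEq_iff_dvd.1 hi.symm)
          · exact (Nat.modEq_iff_dvd.1 (hw a).symm))
      simpa using hNP)
    (by
      intro i _ w w' hw hw'
      obtain ⟨u, _, hu⟩ := (h (p.1, i)).1 ((h (p.1, i)).2 w hw)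
      rw [hu w hw, hu w' hw'])
    (fun B => bd (p, B))
    (by
      intro B
      refine ⟨?_, ?_, fun i hi w hw => hbound p.1 p.2 B i w hi.le hw⟩
      · simp only [bd]; omega
      · simp only [bd]; omega)
  -- the relation
  have hrel : SF (fun q : (X × ℕ) × (ℕ × ℕ × (Fin m → ℕ)) =>
      BSys (fun i w => f ((q.1.1, i), w)) q.1.2 (bd (q.1, q.2.1)) q.2.1 q.2.2.1 q.2.2.2) := by
    have sB : SFn (fun q : (X × ℕ) × (ℕ × ℕ × (Fin m → ℕ)) => q.2.1) := SFn.fst.comp SFn.snd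
    have sc : SFn (fun q : (X × ℕ) × (ℕ × ℕ × (Fin m → ℕ)) => q.2.2.1) :=
      SFn.fst.comp (SFn.snd.comp SFn.snd)
    have sa : ∀ j, SFn (fun q : (X × ℕ) × (ℕ × ℕ × (Fin m → ℕ)) => q.2.2.2 j) := fun j =>
      SFn.of_isP ((IsP.apply j).re (Re.snd.comp (Re.snd.comp Re.snd)))
    have sy : SFn (fun q : (X × ℕ) × (ℕ × ℕ × (Fin m → ℕ)) => q.1.2) := SFn.snd.comp SFn.fst
    have sK : SFn (fun q : (X × ℕ) × (ℕ × ℕ × (Fin m → ℕ)) => bd (q.1, q.2.1)) :=
      SFn.comp₂ hbd SFn.fst sB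
    have sT : SFn (fun q : (X × ℕ) × (ℕ × ℕ × (Fin m → ℕ)) => (bd (q.1, q.2.1)).factorial) :=
      hfac.comp sK
    have sM : SFn (fun q : (X × ℕ) × (ℕ × ℕ × (Fin m → ℕ)) =>
        ∏ i ∈ Finset.range q.1.2, (1 + (i + 1) * (bd (q.1, q.2.1)).factorial)) :=
      SFn.comp₂ hprod sy sT
    unfold BSys
    refine SF.and (SF.lt sc sM) (SF.and (SF.forall_fin fun j => SF.lt (sa j) sM) (SF.and ?_
      (SF.and (SF.forall_fin fun j => (SFd.dvd sM (SFn.comp₂ hdesc (sa j) sB.succ)).1)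
        (SF.and ?_ ?_))))
    · exact (SFd.dvd sM ((SFn.const 1).add (sc.succ.mul sT))).1
    · refine SF.dvd_poly sM ?_
      exact hf.re (((Re.fst.comp Re.fst).pair (Re.fst.comp (Re.snd.comp Re.snd))).pair
        (Re.snd.comp (Re.snd.comp Re.snd)))
    · exact ((SFd.eq sB (SFn.const 0)).or (SFd.lt (SFn.const 0)
        (SFn.sum_fin fun j => (SFn.comp₂ hdesc (sa j) sB).mod sM))).1
  refine (SF.ex hrel ?_).congr ?_
  · intro p t t' ht ht'
    have h1 := (core p).2 t ht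
    obtain ⟨u, _, hu⟩ := (core p).1 h1
    rw [hu t ht, hu t' ht']
  · intro p
    constructor
    · rintro ⟨t, ht⟩ i hi
      obtain ⟨w, hw⟩ := (core p).2 t ht i hi
      exact (h (p.1, i)).2 w hw
    · intro hp
      obtain ⟨t, ht, _⟩ := (core p).1 (fun i hi => by
        obtain ⟨w, hw, _⟩ := (h (p.1, i)).1 (hp i hi)
        exact ⟨w, hw⟩)
      exact ⟨t, ht⟩

end main

end Vale.Agent.P345
end

section

/-!
# Single-fold graphs of binomial coefficients, factorials and arithmetic-progression products,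
from the single-fold graph of exponentiation.
-/

namespace Vale.Agent.P345

open Finset

/-! ### Pure identities -/

/-- Digit extraction in base `U`. -/
theorem digit_sum {U : ℕ} (hU : 0 < U) : ∀ (k N : ℕ) (f : ℕ → ℕ), (∀ i, f i < U) →
    (∑ i ∈ range N, f i * U ^ i) / U ^ k % U = if k < N then f k else 0 := by
  have split : ∀ (N : ℕ) (f : ℕ → ℕ), ∑ i ∈ range (N + 1), f i * U ^ i =
      U * (∑ i ∈ range N, f (i + 1) * U ^ i) + f 0 := by
    intro N f
    rw [Finset.sum_range_succ', Finset.mul_sum]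
    simp only [pow_zero, mul_one, Nat.add_right_cancel_iff]
    refine Finset.sum_congr rfl fun i _ => ?_
    ring
  intro k
  induction k with
  | zero =>
    intro N f hf
    cases N with
    | zero => simp
    | succ N =>
      rw [split]
      simp [Nat.mod_eq_of_lt (hf 0)]
  | succ k ih =>
    intro N f hf
    cases N with
    | zero => simp
    | succ N =>
      rw [split, pow_succ', ← Nat.div_div_eq_div_mul]
      have : (U * (∑ i ∈ range N, f (i + 1) * U ^ i) + f 0) / U =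
          ∑ i ∈ range N, f (i + 1) * U ^ i := by
        rw [Nat.mul_add_div hU, Nat.div_eq_of_lt (hf 0), add_zero]
      rw [this, ih N (fun i => f (i + 1)) fun i => hf (i + 1)]
      simp

theorem choose_eq_digit (n k : ℕ) :
    n.choose k = (2 ^ n + 1 + 1) ^ n / (2 ^ n + 1) ^ k % (2 ^ n + 1) := by
  have h1 : (2 ^ n + 1 + 1) ^ n = ∑ i ∈ range (n + 1), n.choose i * (2 ^ n + 1) ^ i := by
    rw [add_pow]
    refine Finset.sum_congr rfl fun i _ => ?_
    simp [mul_comm]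
  rw [h1, digit_sum (Nat.succ_pos _)]
  · split_ifs with h
    · rfl
    · exact Nat.choose_eq_zero_of_lt (by omega)
  · intro i
    have := Nat.choose_le_two_pow n i
    omega

theorem pow_sub_le (U n : ℤ) (hn : 0 ≤ n) (hU : n ≤ U) (m : ℕ) :
    U ^ (m + 1) - m * n * U ^ m ≤ U * (U - n) ^ m := by
  have hU0 : 0 ≤ U := hn.trans hU
  induction m with
  | zero => simp
  | succ m ih =>
    have h1 : (U - n) * (U ^ (m + 1) - m * n * U ^ m) ≤ (U - n) * (U * (U - n) ^ m) :=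
      mul_le_mul_of_nonneg_left ih (by linarith)
    have h2 : (U - n) * (U * (U - n) ^ m) = U * (U - n) ^ (m + 1) := by ring
    have h3 : (0 : ℤ) ≤ m * n * n * U ^ m := by positivity
    rw [← h2]
    refine le_trans ?_ h1
    push_cast
    have h4 : (U - n) * (U ^ (m + 1) - m * n * U ^ m) =
        (U ^ (m + 1 + 1) - (m + 1) * n * U ^ (m + 1)) + m * n * n * U ^ m := by ring
    rw [h4]
    linarith

theorem factorial_eq_div (n : ℕ) :
    n.factorial = ((n ^ n + 1) * n ^ 2 + 1) ^ n / ((n ^ n + 1) * n ^ 2 + 1).choose n := by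
  set U : ℕ := (n ^ n + 1) * n ^ 2 + 1 with hU
  have hnU : n ≤ U := by
    rcases Nat.eq_zero_or_pos n with h | h
    · omega
    · have h2 : n ≤ n ^ 2 := Nat.le_self_pow (by norm_num) n
      have h3 : n ^ 2 ≤ (n ^ n + 1) * n ^ 2 := Nat.le_mul_of_pos_left _ (Nat.succ_pos _)
      omega
  have hC : 0 < U.choose n := Nat.choose_pos hnU
  have hdesc := Nat.descFactorial_eq_factorial_mul_choose U n
  have hle : U.descFactorial n ≤ U ^ n := Nat.descFactorial_le_pow U n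
  symm
  rw [Nat.div_eq_iff hC]
  constructor
  · rw [← hdesc]
    exact hle
  · -- `U ^ n < (n! + 1) * choose`, after multiplication by `n!`
    have hlow : (U - n) ^ n ≤ U.descFactorial n :=
      (Nat.pow_le_pow_left (by omega) n).trans (Nat.pow_sub_le_descFactorial U n)
    have hb := pow_sub_le (U : ℤ) (n : ℤ) (by positivity) (by exact_mod_cast hnU) n
    have hfac : n.factorial ≤ n ^ n := Nat.factorial_le_pow n
    have key : n.factorial * U ^ n < (n.factorial + 1) * U.descFactorial n := by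
      have hlowZ : ((U : ℤ) - n) ^ n ≤ (U.descFactorial n : ℤ) := by
        have : (((U - n) ^ n : ℕ) : ℤ) ≤ (U.descFactorial n : ℤ) := by exact_mod_cast hlow
        rwa [Nat.cast_pow, Nat.cast_sub hnU] at this
      have hUpos : (0 : ℤ) < U := by
        have : 0 < U := Nat.succ_pos _
        exact_mod_cast this
      have hUn : (0 : ℤ) < (U : ℤ) ^ n := by positivity
      -- U * desc ≥ U^(n+1) - n*n*U^n
      have h1 : (U : ℤ) ^ (n + 1) - n * n * (U : ℤ) ^ n ≤ U * (U.descFactorial n : ℤ) :=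
        hb.trans (mul_le_mul_of_nonneg_left hlowZ hUpos.le)
      have hfZ : (n.factorial : ℤ) ≤ (n : ℤ) ^ n := by exact_mod_cast hfac
      have hUZ : (U : ℤ) = ((n : ℤ) ^ n + 1) * (n : ℤ) ^ 2 + 1 := by
        rw [hU]; push_cast; ring
      have h2 : ((n.factorial : ℤ) + 1) * ((n : ℤ) * n) < U := by
        rw [hUZ]
        have : ((n.factorial : ℤ) + 1) * ((n : ℤ) * n) ≤ ((n : ℤ) ^ n + 1) * ((n : ℤ) * n) :=
          mul_le_mul_of_nonneg_right (by linarith) (by positivity)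
        linarith
      have h3 : (U : ℤ) * (n.factorial * (U : ℤ) ^ n) <
          U * ((n.factorial + 1) * (U.descFactorial n : ℤ)) := by
        have h4 : ((n.factorial : ℤ) + 1) * ((U : ℤ) ^ (n + 1) - n * n * (U : ℤ) ^ n) ≤
            ((n.factorial : ℤ) + 1) * (U * (U.descFactorial n : ℤ)) :=
          mul_le_mul_of_nonneg_left h1 (by positivity)
        have h5 : ((n.factorial : ℤ) + 1) * ((n : ℤ) * n) * (U : ℤ) ^ n < U * (U : ℤ) ^ n :=
          mul_lt_mul_of_pos_right h2 hUn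
        have h6 : (U : ℤ) ^ (n + 1) = U * (U : ℤ) ^ n := by ring
        rw [h6] at h4
        linarith
      have h7 : (n.factorial * (U : ℤ) ^ n) < ((n.factorial + 1) * (U.descFactorial n : ℤ)) :=
        lt_of_mul_lt_mul_left h3 hUpos.le
      exact_mod_cast h7
    rw [hdesc] at key
    have h8 : n.factorial * U ^ n < n.factorial * ((n.factorial + 1) * U.choose n) := by
      calc n.factorial * U ^ n < (n.factorial + 1) * (n.factorial * U.choose n) := key
        _ = n.factorial * ((n.factorial + 1) * U.choose n) := by ring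
    have h9 := lt_of_mul_lt_mul_left h8 (Nat.zero_le _)
    have : (n.factorial + 1) * U.choose n = n.factorial * U.choose n + U.choose n := by ring
    omega

theorem prodAP_eq_mod (b T : ℕ) (hT : 0 < T) :
    ∏ i ∈ range b, (1 + (i + 1) * T) =
      (T ^ b * (b.factorial * ((T * (1 + b * T) ^ b + 1 - (1 + b * T) ^ b) + b).choose b)) %
        (T * (1 + b * T) ^ b + 1) := by
  set K : ℕ := (1 + b * T) ^ b with hK
  set N : ℕ := T * K + 1 with hN
  set x : ℕ := N - K with hx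
  have hKN : K ≤ N := by
    have : K ≤ T * K := Nat.le_mul_of_pos_left _ hT
    omega
  have hKpos : 0 < K := by positivity
  have hlt : ∏ i ∈ range b, (1 + (i + 1) * T) < N := by
    have h1 : ∏ i ∈ range b, (1 + (i + 1) * T) ≤ ∏ _i ∈ range b, (1 + b * T) := by
      refine Finset.prod_le_prod' fun i hi => ?_
      have : i + 1 ≤ b := by
        have := Finset.mem_range.1 hi
        omega
      have := Nat.mul_le_mul_right T this
      omega
    rw [Finset.prod_const, Finset.card_range] at h1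
    have h2 : K ≤ T * K := Nat.le_mul_of_pos_left _ hT
    omega
  have hTx : T * x ≡ 1 [MOD N] := by
    have h1 : T * x + T * K = T * N := by
      rw [← mul_add, hx, Nat.sub_add_cancel hKN]
    -- T * x + (N - 1) = T * N
    have h2 : T * x + T * K ≡ 1 + T * K [MOD N] := by
      rw [h1, show 1 + T * K = N by omega]
      exact ((Nat.modEq_zero_iff_dvd.2 (Dvd.intro_left T rfl)).trans
        (Nat.modEq_zero_iff_dvd.2 dvd_rfl).symm)
    exact Nat.ModEq.add_right_cancel' _ h2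
  have hasc : b.factorial * (x + b).choose b = ∏ i ∈ range b, (x + 1 + i) := by
    rw [← Nat.ascFactorial_eq_prod_range, Nat.ascFactorial_eq_factorial_mul_choose]
  rw [hasc]
  have hprod : T ^ b * ∏ i ∈ range b, (x + 1 + i) = ∏ i ∈ range b, (T * x + (i + 1) * T) := by
    rw [← Finset.card_range b, ← Finset.prod_const, Finset.card_range, ← Finset.prod_mul_distrib]
    refine Finset.prod_congr rfl fun i _ => ?_
    ring
  rw [hprod]
  have hmod : ∏ i ∈ range b, (T * x + (i + 1) * T) ≡ ∏ i ∈ range b, (1 + (i + 1) * T) [MOD N] := by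
    have : ∀ s : Finset ℕ, ∏ i ∈ s, (T * x + (i + 1) * T) ≡ ∏ i ∈ s, (1 + (i + 1) * T) [MOD N] := by
      intro s
      induction s using Finset.induction_on with
      | empty => simp [Nat.ModEq]
      | insert a s ha ih =>
        rw [Finset.prod_insert ha, Finset.prod_insert ha]
        exact (hTx.add_right _).mul ih
    exact this _
  rw [hmod, Nat.mod_eq_of_lt hlt]

/-! ### Single-fold graphs -/

section

variable (hpow : SFn (fun p : ℕ × ℕ => p.1 ^ p.2))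
include hpow

theorem SFn.pow' {X : Type} [Ctx X] {f g : X → ℕ} (hf : SFn f) (hg : SFn g) :
    SFn (fun x => f x ^ g x) := hpow.comp₂ hf hg

theorem SFn.choose : SFn (fun p : ℕ × ℕ => p.1.choose p.2) := by
  have hU : SFn (fun p : ℕ × ℕ => 2 ^ p.1 + 1) :=
    (SFn.pow' hpow (SFn.const 2) SFn.fst).add (SFn.const 1)
  have h := (SFn.div (SFn.pow' hpow (hU.add (SFn.const 1)) SFn.fst)
    (SFn.pow' hpow hU SFn.snd)).mod hU
  exact h.congr fun p => (choose_eq_digit p.1 p.2).symm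

theorem SFn.choose' {X : Type} [Ctx X] {f g : X → ℕ} (hf : SFn f) (hg : SFn g) :
    SFn (fun x => (f x).choose (g x)) := (SFn.choose hpow).comp₂ hf hg

theorem SFn.factorial : SFn (fun n : ℕ => n.factorial) := by
  have hid : SFn (fun n : ℕ => n) := SFn.id
  have hU : SFn (fun n : ℕ => (n ^ n + 1) * n ^ 2 + 1) :=
    (((SFn.pow' hpow hid hid).add (SFn.const 1)).mul
      (SFn.pow' hpow hid (SFn.const 2))).add (SFn.const 1)
  have h := (SFn.pow' hpow hU hid).div (SFn.choose' hpow hU hid)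
  exact h.congr fun n => (factorial_eq_div n).symm

theorem SFn.factorial' {X : Type} [Ctx X] {f : X → ℕ} (hf : SFn f) :
    SFn (fun x => (f x).factorial) := (SFn.factorial hpow).comp hf

theorem SFn.descFactorial : SFn (fun p : ℕ × ℕ => p.1.descFactorial p.2) := by
  have h := (SFn.factorial' hpow (SFn.snd (X := ℕ) (Y := ℕ))).mul (SFn.choose hpow)
  exact h.congr fun p => (Nat.descFactorial_eq_factorial_mul_choose p.1 p.2).symm

theorem SFn.descFactorial' {X : Type} [Ctx X] {f g : X → ℕ} (hf : SFn f) (hg : SFn g) :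
    SFn (fun x => (f x).descFactorial (g x)) := (SFn.descFactorial hpow).comp₂ hf hg

theorem SFn.prodAP : SFn (fun p : ℕ × ℕ => ∏ i ∈ Finset.range p.1, (1 + (i + 1) * p.2)) := by
  have hb : SFn (fun p : ℕ × ℕ => p.1) := SFn.fst
  have hT : SFn (fun p : ℕ × ℕ => p.2) := SFn.snd
  have hK : SFn (fun p : ℕ × ℕ => (1 + p.1 * p.2) ^ p.1) :=
    SFn.pow' hpow ((SFn.const 1).add (hb.mul hT)) hb
  have hN : SFn (fun p : ℕ × ℕ => p.2 * (1 + p.1 * p.2) ^ p.1 + 1) :=
    (hT.mul hK).add (SFn.const 1)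
  have h := (((SFn.pow' hpow hT hb).mul ((SFn.factorial' hpow hb).mul
    (SFn.choose' hpow ((hN.tsub hK).add hb) hb))).mod hN)
  have h2 := SFn.ite (P := fun p : ℕ × ℕ => p.2 = 0) (SFd.eq hT (SFn.const 0))
    (SFn.const (X := ℕ × ℕ) (1 : ℕ)) h
  refine h2.congr fun p => ?_
  split_ifs with hp
  · simp [hp]
  · exact (prodAP_eq_mod p.1 p.2 (Nat.pos_of_ne_zero hp)).symm

end

end Vale.Agent.P345
end
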