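import Mathlib
import Vale.Agent.P345.Bdl.B1

section

/-!
# Recursively enumerable sets are single-fold

From the single-fold graph of exponentiation and the bounded universal quantifier, every graph of
a partial recursive function is single-fold, hence every recursively enumerable set is, and a
single-fold predicate on `Fin n → ℕ` has a single-fold representation by an `MvPolynomial`.
-/

namespace Vale.Agent.P345

open Finset

/-! ### Digits -/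

theorem eq_of_digits_eq {U : ℕ} : ∀ (n : ℕ) {c c' : ℕ}, c < U ^ (n + 1) → c' < U ^ (n + 1) →
    (∀ i ≤ n, c / U ^ i % U = c' / U ^ i % U) → c = c' := by
  intro n
  induction n with
  | zero =>
    intro c c' hc hc' h
    have := h 0 le_rfl
    rw [zero_add, pow_one] at hc hc'
    rw [pow_zero, Nat.div_one, Nat.div_one, Nat.mod_eq_of_lt hc, Nat.mod_eq_of_lt hc'] at this
    exact this
  | succ n ih =>
    intro c c' hc hc' h
    have hU : 0 < U := by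
      rcases Nat.eq_zero_or_pos U with h0 | h0
      · subst h0
        simp at hc
      · exact h0
    have h1 : c / U = c' / U := by
      apply ih
      · rw [Nat.div_lt_iff_lt_mul hU, ← pow_succ]
        exact hc
      · rw [Nat.div_lt_iff_lt_mul hU, ← pow_succ]
        exact hc'
      · intro i hi
        have := h (i + 1) (by omega)
        rw [pow_succ', ← Nat.div_div_eq_div_mul, ← Nat.div_div_eq_div_mul] at this
        exact this
    have h2 : c % U = c' % U := by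
      have := h 0 (Nat.zero_le _)
      simpa using this
    rw [← Nat.div_add_mod c U, ← Nat.div_add_mod c' U, h1, h2]

theorem exists_digits {U n : ℕ} (s : ℕ → ℕ) (hs : ∀ i ≤ n, s i < U) :
    ∃ c < U ^ (n + 1), ∀ i ≤ n, c / U ^ i % U = s i := by
  let v : Fin (n + 1) → Fin U := fun i => ⟨s i, hs i (Nat.lt_succ_iff.1 i.isLt)⟩
  refine ⟨finFunctionFinEquiv v, Fin.is_lt _, fun i hi => ?_⟩
  have h := finFunctionFinEquiv_symm_apply_val (finFunctionFinEquiv v)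
    ⟨i, Nat.lt_succ_of_le hi⟩
  rw [Equiv.symm_apply_apply] at h
  exact h.symm

/-! ### Pairing -/

theorem SFn_natPair : SFn (fun p : ℕ × ℕ => Nat.pair p.1 p.2) := by
  have h : SFn (fun p : ℕ × ℕ => if p.1 < p.2 then p.2 * p.2 + p.1 else p.1 * p.1 + p.1 + p.2) :=
    SFn.ite (SFd.lt SFn.fst SFn.snd) ((SFn.snd.mul SFn.snd).add SFn.fst)
      (((SFn.fst.mul SFn.fst).add SFn.fst).add SFn.snd)
  exact h.congr fun p => rfl

theorem SFn_unpair : SFn (fun n : ℕ => n.unpair) := by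
  have h : SF (fun q : ℕ × (ℕ × ℕ) => Nat.pair q.2.1 q.2.2 = q.1) :=
    SF.eq (SFn_natPair.comp₂ (SFn.fst.comp SFn.snd) (SFn.snd.comp SFn.snd)) SFn.fst
  refine SFn.of_rel h fun x y => ?_
  constructor
  · intro hxy
    simp only at hxy
    rw [← hxy, Nat.unpair_pair]
  · intro hxy
    simp only
    rw [hxy, Nat.pair_unpair]

/-! ### Partial recursive functions -/

section Partrec

variable (hpow : SFn (fun p : ℕ × ℕ => p.1 ^ p.2))
  (hball : ∀ (X : Type) [Ctx X] (R : X × ℕ → Prop), SF R →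
    SF (fun p : X × ℕ => ∀ i < p.2, R (p.1, i)))

include hpow in
theorem SFn_digit {X : Type} [Ctx X] {c U i : X → ℕ} (hc : SFn c) (hU : SFn U) (hi : SFn i) :
    SFn (fun x => c x / U x ^ i x % U x) :=
  (hc.div (hpow.comp₂ hU hi)).mod hU

/-- Bounded universal quantification. -/
theorem SF_ball (hball : ∀ (X : Type) [Ctx X] (R : X × ℕ → Prop), SF R →
    SF (fun p : X × ℕ => ∀ i < p.2, R (p.1, i)))
    {X : Type} [Ctx X] {B : X → ℕ} (hB : SFn B) {R : X × ℕ → Prop} (hR : SF R) :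
    SF (fun x => ∀ i < B x, R (x, i)) :=
  SF.comp (hball X R hR) (SFn.id.pair hB)

/-- The primitive recursion appearing in `Nat.Partrec.prec`. -/
def precFn (f g : ℕ →. ℕ) (a n : ℕ) : Part ℕ :=
  n.rec (f a) fun y IH => do
    let i ← IH
    g (Nat.pair a (Nat.pair y i))

theorem mem_precFn_iff {f g : ℕ →. ℕ} {a : ℕ} : ∀ {n y : ℕ}, y ∈ precFn f g a n ↔
    ∃ s : ℕ → ℕ, s 0 ∈ f a ∧ (∀ i < n, s (i + 1) ∈ g (Nat.pair a (Nat.pair i (s i)))) ∧
      s n = y := by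
  intro n
  induction n with
  | zero =>
    intro y
    constructor
    · intro h
      exact ⟨fun _ => y, h, fun i hi => absurd hi (Nat.not_lt_zero i), rfl⟩
    · rintro ⟨s, h0, -, rfl⟩
      exact h0
  | succ n ih =>
    intro y
    have hstep : precFn f g a (n + 1) =
        (precFn f g a n).bind fun i => g (Nat.pair a (Nat.pair n i)) := rfl
    rw [hstep, Part.mem_bind_iff]
    constructor
    · rintro ⟨z, hz, hy⟩
      obtain ⟨s, h0, hs, hsn⟩ := ih.1 hz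
      refine ⟨fun i => if i ≤ n then s i else y, ?_, ?_, ?_⟩
      · simpa using h0
      · intro i hi
        rcases Nat.lt_or_ge i n with h | h
        · have h1 : i ≤ n := h.le
          have h2 : i + 1 ≤ n := h
          simp only [h1, h2, if_true]
          exact hs i h
        · have h1 : i = n := by omega
          subst h1
          simp only [le_refl, if_true]
          rw [if_neg (by omega), hsn]
          exact hy
      · simp
    · rintro ⟨s, h0, hs, hsn⟩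
      refine ⟨s n, ih.2 ⟨s, h0, fun i hi => hs i (by omega), rfl⟩, ?_⟩
      rw [← hsn]
      exact hs n (by omega)

/-- The relation saying that `(U, c, i₀)` is the canonical code of the computation of
`precFn f g a n` with result `y`. -/
def PrecCode (f g : ℕ →. ℕ) (a n y U c i₀ : ℕ) : Prop :=
  c < U ^ (n + 1) ∧ c / U ^ 0 % U ∈ f a ∧
  (∀ i < n, c / U ^ (i + 1) % U ∈ g (Nat.pair a (Nat.pair i (c / U ^ i % U)))) ∧
  c / U ^ n % U = y ∧ i₀ ≤ n ∧ c / U ^ i₀ % U + 1 = U ∧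
  ∀ j < i₀, c / U ^ j % U + 1 ≠ U

theorem exists_precCode {f g : ℕ →. ℕ} {a n y : ℕ} (h : y ∈ precFn f g a n) :
    ∃ U c i₀, PrecCode f g a n y U c i₀ := by
  obtain ⟨s, h0, hs, hsn⟩ := mem_precFn_iff.1 h
  let U := (Finset.range (n + 1)).sup s + 1
  have hU : ∀ i ≤ n, s i < U := fun i hi =>
    Nat.lt_succ_of_le (Finset.le_sup (f := s) (mem_range.2 (Nat.lt_succ_of_le hi)))
  obtain ⟨c, hc, hd⟩ := exists_digits s hU
  have hex : ∃ i, i ≤ n ∧ s i + 1 = U := by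
    obtain ⟨i, hi, hi2⟩ := Finset.exists_mem_eq_sup (Finset.range (n + 1))
      ⟨0, mem_range.2 (Nat.succ_pos n)⟩ s
    exact ⟨i, Nat.lt_succ_iff.1 (mem_range.1 hi), by rw [← hi2]⟩
  classical
  refine ⟨U, c, Nat.find hex, hc, ?_, ?_, ?_, (Nat.find_spec hex).1, ?_, ?_⟩
  · rw [hd 0 (Nat.zero_le _)]
    exact h0
  · intro i hi
    rw [hd i hi.le, hd (i + 1) hi]
    exact hs i hi
  · rw [hd n le_rfl]
    exact hsn
  · rw [hd _ (Nat.find_spec hex).1]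
    exact (Nat.find_spec hex).2
  · intro j hj hj2
    have hjn : j ≤ n := hj.le.trans (Nat.find_spec hex).1
    rw [hd j hjn] at hj2
    exact Nat.find_min hex hj ⟨hjn, hj2⟩

theorem mem_of_precCode {f g : ℕ →. ℕ} {a n y U c i₀ : ℕ} (h : PrecCode f g a n y U c i₀) :
    y ∈ precFn f g a n :=
  mem_precFn_iff.2 ⟨fun i => c / U ^ i % U, h.2.1, h.2.2.1, h.2.2.2.1⟩

theorem precCode_unique {f g : ℕ →. ℕ} {a n y y' U c i₀ U' c' i₀' : ℕ}
    (h : PrecCode f g a n y U c i₀) (h' : PrecCode f g a n y' U' c' i₀') :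
    U = U' ∧ c = c' ∧ i₀ = i₀' := by
  obtain ⟨hc, h0, hs, -, hi, hmax, hmin⟩ := h
  obtain ⟨hc', h0', hs', -, hi', hmax', hmin'⟩ := h'
  have hdig : ∀ i ≤ n, c / U ^ i % U = c' / U' ^ i % U' := by
    intro i
    induction i with
    | zero => intro _; exact Part.mem_unique h0 h0'
    | succ i ih =>
      intro hi
      have e := ih (by omega)
      have h1 := hs i (by omega)
      have h2 := hs' i (by omega)
      rw [e] at h1
      exact Part.mem_unique h1 h2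
  have hUpos : 0 < U := by omega
  have hUpos' : 0 < U' := by omega
  have hUU : U = U' := by
    have h1 : c / U ^ i₀ % U < U' := by
      rw [hdig i₀ hi]
      exact Nat.mod_lt _ hUpos'
    have h2 : c' / U' ^ i₀' % U' < U := by
      rw [← hdig i₀' hi']
      exact Nat.mod_lt _ hUpos
    omega
  subst hUU
  have hcc : c = c' := eq_of_digits_eq n hc hc' hdig
  subst hcc
  refine ⟨rfl, rfl, ?_⟩
  rcases lt_trichotomy i₀ i₀' with h1 | h1 | h1
  · exact absurd hmax (hmin' _ h1)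
  · exact h1
  · exact absurd hmax' (hmin _ h1)

include hpow hball

theorem SF_prec {f g : ℕ →. ℕ} (hf : SF (fun p : ℕ × ℕ => p.2 ∈ f p.1))
    (hg : SF (fun p : ℕ × ℕ => p.2 ∈ g p.1)) :
    SF (fun q : (ℕ × ℕ) × ℕ => q.2 ∈ precFn f g q.1.1 q.1.2) := by
  -- contexts `((a, n), y), (U, c, i₀)`
  have key : SF (fun z : ((ℕ × ℕ) × ℕ) × (ℕ × ℕ × ℕ) =>
      PrecCode f g z.1.1.1 z.1.1.2 z.1.2 z.2.1 z.2.2.1 z.2.2.2) := by
    have ha : SFn (fun z : ((ℕ × ℕ) × ℕ) × (ℕ × ℕ × ℕ) => z.1.1.1) :=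
      SFn.fst.comp (SFn.fst.comp SFn.fst)
    have hn : SFn (fun z : ((ℕ × ℕ) × ℕ) × (ℕ × ℕ × ℕ) => z.1.1.2) :=
      SFn.snd.comp (SFn.fst.comp SFn.fst)
    have hy : SFn (fun z : ((ℕ × ℕ) × ℕ) × (ℕ × ℕ × ℕ) => z.1.2) := SFn.snd.comp SFn.fst
    have hU : SFn (fun z : ((ℕ × ℕ) × ℕ) × (ℕ × ℕ × ℕ) => z.2.1) := SFn.fst.comp SFn.snd
    have hc : SFn (fun z : ((ℕ × ℕ) × ℕ) × (ℕ × ℕ × ℕ) => z.2.2.1) :=
      SFn.fst.comp (SFn.snd.comp SFn.snd)
    have hi : SFn (fun z : ((ℕ × ℕ) × ℕ) × (ℕ × ℕ × ℕ) => z.2.2.2) :=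
      SFn.snd.comp (SFn.snd.comp SFn.snd)
    have lift : ∀ {F : ((ℕ × ℕ) × ℕ) × (ℕ × ℕ × ℕ) → ℕ}, SFn F →
        SFn (fun z : (((ℕ × ℕ) × ℕ) × (ℕ × ℕ × ℕ)) × ℕ => F z.1) := fun h => h.comp SFn.fst
    have h3 : SF (fun z : (((ℕ × ℕ) × ℕ) × (ℕ × ℕ × ℕ)) × ℕ =>
        z.1.2.2.1 / z.1.2.1 ^ (z.2 + 1) % z.1.2.1 ∈
          g (Nat.pair z.1.1.1.1 (Nat.pair z.2 (z.1.2.2.1 / z.1.2.1 ^ z.2 % z.1.2.1)))) := by
      refine SF.comp₂ (P := fun p : ℕ × ℕ => p.2 ∈ g p.1) hg ?_ ?_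
      · exact SFn_natPair.comp₂ (lift ha)
          (SFn_natPair.comp₂ SFn.snd (SFn_digit hpow (lift hc) (lift hU) SFn.snd))
      · exact SFn_digit hpow (lift hc) (lift hU) SFn.snd.succ
    have h7 : SF (fun z : (((ℕ × ℕ) × ℕ) × (ℕ × ℕ × ℕ)) × ℕ =>
        z.1.2.2.1 / z.1.2.1 ^ z.2 % z.1.2.1 + 1 ≠ z.1.2.1) :=
      SF.ne (SFn_digit hpow (lift hc) (lift hU) SFn.snd).succ (lift hU)
    refine SF.and ?_ (SF.and ?_ (SF.and ?_ (SF.and ?_ (SF.and ?_ (SF.and ?_ ?_)))))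
    · exact SF.lt hc (hpow.comp₂ hU hn.succ)
    · exact SF.comp₂ (P := fun p : ℕ × ℕ => p.2 ∈ f p.1) hf ha
        (SFn_digit hpow hc hU (SFn.const 0))
    · exact SF_ball hball hn h3
    · exact SF.eq (SFn_digit hpow hc hU hn) hy
    · exact SF.le hi hn
    · exact SF.eq (SFn_digit hpow hc hU hi).succ hU
    · exact SF_ball hball hi h7
  have hex := SF.ex (R := fun z : ((ℕ × ℕ) × ℕ) × (ℕ × ℕ × ℕ) =>
      PrecCode f g z.1.1.1 z.1.1.2 z.1.2 z.2.1 z.2.2.1 z.2.2.2) key (by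
    rintro x ⟨U, c, i⟩ ⟨U', c', i'⟩ h h'
    obtain ⟨e1, e2, e3⟩ := precCode_unique h h'
    simp only at e1 e2 e3
    rw [e1, e2, e3])
  refine hex.congr fun q => ?_
  constructor
  · rintro ⟨⟨U, c, i⟩, h⟩
    exact mem_of_precCode h
  · intro h
    obtain ⟨U, c, i, h⟩ := exists_precCode h
    exact ⟨(U, c, i), h⟩

/-- Graphs of partial recursive functions are single-fold. -/
theorem SF_partrec {f : ℕ →. ℕ} (hf : Nat.Partrec f) : SF (fun p : ℕ × ℕ => p.2 ∈ f p.1) := by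
  induction hf with
  | zero =>
    refine (SF.eq (X := ℕ × ℕ) SFn.snd (SFn.const 0)).congr fun p => ?_
    exact (Part.mem_some_iff).symm
  | succ =>
    refine (SF.eq (X := ℕ × ℕ) SFn.snd (SFn.fst.succ)).congr fun p => ?_
    exact (Part.mem_some_iff).symm
  | left =>
    refine (SF.eq (X := ℕ × ℕ) SFn.snd (SFn.fst.comp (SFn_unpair.comp SFn.fst))).congr fun p => ?_
    exact (Part.mem_some_iff).symm
  | right =>
    refine (SF.eq (X := ℕ × ℕ) SFn.snd (SFn.snd.comp (SFn_unpair.comp SFn.fst))).congr fun p => ?_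
    exact (Part.mem_some_iff).symm
  | @pair f g _ _ ihf ihg =>
    have h1 : SF (fun z : (ℕ × ℕ) × (ℕ × ℕ) => z.2.1 ∈ f z.1.1) :=
      SF.comp₂ (P := fun p : ℕ × ℕ => p.2 ∈ f p.1) ihf (SFn.fst.comp SFn.fst)
        (SFn.fst.comp SFn.snd)
    have h2 : SF (fun z : (ℕ × ℕ) × (ℕ × ℕ) => z.2.2 ∈ g z.1.1) :=
      SF.comp₂ (P := fun p : ℕ × ℕ => p.2 ∈ g p.1) ihg (SFn.fst.comp SFn.fst)
        (SFn.snd.comp SFn.snd)
    have h3 : SF (fun z : (ℕ × ℕ) × (ℕ × ℕ) => z.1.2 = Nat.pair z.2.1 z.2.2) :=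
      SF.eq (SFn.snd.comp SFn.fst) (SFn_natPair.comp₂ (SFn.fst.comp SFn.snd)
        (SFn.snd.comp SFn.snd))
    have h := SF.ex (R := fun z : (ℕ × ℕ) × (ℕ × ℕ) =>
      z.2.1 ∈ f z.1.1 ∧ z.2.2 ∈ g z.1.1 ∧ z.1.2 = Nat.pair z.2.1 z.2.2) (h1.and (h2.and h3)) (by
      rintro x ⟨a, b⟩ ⟨a', b'⟩ ⟨e1, e2, -⟩ ⟨e1', e2', -⟩
      rw [Prod.mk.injEq]
      exact ⟨Part.mem_unique e1 e1', Part.mem_unique e2 e2'⟩)
    refine h.congr fun p => ?_
    simp only [Seq.seq, Part.map_eq_map, Part.mem_bind_iff, Part.mem_map_iff, Prod.exists]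
    constructor
    · rintro ⟨a, b, ha, hb, hp⟩
      exact ⟨Nat.pair a, ⟨a, ha, rfl⟩, b, hb, hp.symm⟩
    · rintro ⟨_, ⟨a, ha, rfl⟩, b, hb, hp⟩
      exact ⟨a, b, ha, hb, hp.symm⟩
  | @comp f g _ _ ihf ihg =>
    have h1 : SF (fun z : (ℕ × ℕ) × ℕ => z.2 ∈ g z.1.1) :=
      SF.comp₂ (P := fun p : ℕ × ℕ => p.2 ∈ g p.1) ihg (SFn.fst.comp SFn.fst) SFn.snd
    have h2 : SF (fun z : (ℕ × ℕ) × ℕ => z.1.2 ∈ f z.2) :=
      SF.comp₂ (P := fun p : ℕ × ℕ => p.2 ∈ f p.1) ihf SFn.snd (SFn.snd.comp SFn.fst)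
    have h := SF.ex (R := fun z : (ℕ × ℕ) × ℕ => z.2 ∈ g z.1.1 ∧ z.1.2 ∈ f z.2) (h1.and h2) (by
      rintro x a a' ⟨e1, -⟩ ⟨e1', -⟩
      exact Part.mem_unique e1 e1')
    refine h.congr fun p => ?_
    exact (Part.mem_bind_iff (f := (g p.1 : Part ℕ)) (g := (f : ℕ → Part ℕ)) (b := p.2)).symm
  | @prec f g _ _ ihf ihg =>
    have h := SF_prec hpow hball ihf ihg
    have h2 : SF (fun p : ℕ × ℕ => p.2 ∈ precFn f g p.1.unpair.1 p.1.unpair.2) :=
      SF.comp₂ (P := fun q : (ℕ × ℕ) × ℕ => q.2 ∈ precFn f g q.1.1 q.1.2) h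
        (SFn_unpair.comp SFn.fst) SFn.snd
    exact h2.congr fun p => Iff.rfl
  | @rfind f _ ihf =>
    have hz : SF (fun p : ℕ × ℕ => 0 ∈ f (Nat.pair p.1 p.2)) :=
      SF.comp₂ (P := fun p : ℕ × ℕ => p.2 ∈ f p.1) ihf (SFn_natPair.comp₂ SFn.fst SFn.snd)
        (SFn.const 0)
    have hs : SF (fun z : (ℕ × ℕ) × ℕ => ∃ m, m + 1 ∈ f (Nat.pair z.1.1 z.2)) := by
      refine SF.ex (R := fun z : ((ℕ × ℕ) × ℕ) × ℕ => z.2 + 1 ∈ f (Nat.pair z.1.1.1 z.1.2)) ?_ ?_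
      · exact SF.comp₂ (P := fun p : ℕ × ℕ => p.2 ∈ f p.1) ihf
          (SFn_natPair.comp₂ (SFn.fst.comp (SFn.fst.comp SFn.fst)) (SFn.snd.comp SFn.fst))
          SFn.snd.succ
      · intro x m m' h h'
        have := Part.mem_unique h h'
        omega
    have hb : SF (fun p : ℕ × ℕ => ∀ i < p.2, ∃ m, m + 1 ∈ f (Nat.pair p.1 i)) :=
      SF_ball hball (R := fun z : (ℕ × ℕ) × ℕ => ∃ m, m + 1 ∈ f (Nat.pair z.1.1 z.2))
        (B := fun p : ℕ × ℕ => p.2) SFn.snd hs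
    refine (hz.and hb).congr fun p => ?_
    refine Iff.trans ?_ (Nat.mem_rfind (p := fun n => (f (Nat.pair p.1 n) : Part ℕ).map
      (fun m => decide (m = 0))) (n := p.2)).symm
    simp only [Part.mem_map_iff]
    constructor
    · rintro ⟨h1, h2⟩
      refine ⟨⟨0, h1, by simp⟩, fun {i} hi => ?_⟩
      obtain ⟨m, hm⟩ := h2 i hi
      exact ⟨m + 1, hm, by simp⟩
    · rintro ⟨⟨m, hm, hm0⟩, h2⟩
      have hm0' : m = 0 := by simpa using hm0
      subst hm0'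
      refine ⟨hm, fun i hi => ?_⟩
      obtain ⟨m, hm, hm1⟩ := h2 hi
      have hm1' : m ≠ 0 := by simpa using hm1
      refine ⟨m - 1, ?_⟩
      rwa [Nat.sub_add_cancel (Nat.pos_of_ne_zero hm1')]

end Partrec

/-! ### Encodings of tuples -/

theorem SFn_encode : ∀ n : ℕ, SFn (fun v : Fin n → ℕ => Encodable.encode (List.ofFn v)) := by
  intro n
  induction n with
  | zero =>
    refine (SFn.const (X := Fin 0 → ℕ) (Encodable.encode ([] : List ℕ))).congr fun v => ?_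
    rw [List.ofFn_zero]
  | succ n ih =>
    have h0 : SFn (fun v : Fin (n + 1) → ℕ => v 0) := SFn.of_isP (IsP.apply 0)
    have ht : SFn (fun v : Fin (n + 1) → ℕ => fun i : Fin n => v i.succ) :=
      SFn.of_re ⟨fun i => i.succ, fun _ _ => rfl⟩
    have h1 : SFn (fun v : Fin (n + 1) → ℕ =>
        Nat.pair (v 0) (Encodable.encode (List.ofFn fun i : Fin n => v i.succ)) + 1) :=
      (SFn_natPair.comp₂ h0 (ih.comp ht)).succ
    refine h1.congr fun v => ?_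
    rw [List.ofFn_succ, Encodable.encode_list_cons]
    rfl

theorem encode_fin_eq (n : ℕ) (v : Fin n → ℕ) :
    @Encodable.encode (Fin n → ℕ) Primcodable.finArrow.toEncodable v =
      Encodable.encode (List.ofFn v) := by
  have h1 : @Encodable.encode (Fin n → ℕ) Primcodable.finArrow.toEncodable v =
      @Encodable.encode (List.Vector ℕ n) Primcodable.vector.toEncodable (List.Vector.ofFn v) := rfl
  have h2 : @Encodable.encode (List.Vector ℕ n) Primcodable.vector.toEncodable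
      (List.Vector.ofFn v) = Encodable.encode (List.Vector.ofFn v).toList := rfl
  rw [h1, h2, List.Vector.toList_ofFn]

/-- Every recursively enumerable set of tuples is single-fold, given the single-fold graph of
exponentiation. -/
theorem re_sf (hpow : SFn (fun p : ℕ × ℕ => p.1 ^ p.2)) (n : ℕ) (S : Set (Fin n → ℕ))
    (hS : REPred (fun a => a ∈ S)) : SF (fun a : Fin n → ℕ => a ∈ S) := by
  have hball : ∀ (X : Type) [Ctx X] (R : X × ℕ → Prop), SF R →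
      SF (fun p : X × ℕ => ∀ i < p.2, R (p.1, i)) := fun X _ R hR =>
    SF.forall_lt (SFn.factorial hpow) (SFn.descFactorial hpow) (SFn.prodAP hpow) hR
  have h1 := SF_partrec hpow hball hS
  have h2 : SFn (fun a : Fin n → ℕ =>
      @Encodable.encode (Fin n → ℕ) Primcodable.finArrow.toEncodable a) :=
    (SFn_encode n).congr fun v => (encode_fin_eq n v).symm
  have h3 := SF.comp₂ h1 h2 (SFn.const 0)
  refine h3.congr fun a => ?_
  change (0 : ℕ) ∈ Part.bind _ _ ↔ _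
  rw [Part.mem_bind_iff]
  constructor
  · rintro ⟨b, hb, h⟩
    rw [@Encodable.encodek (Fin n → ℕ) Primcodable.finArrow.toEncodable a] at hb
    have hb' : b = a := Part.mem_some_iff.1 hb
    subst hb'
    rw [Part.mem_map_iff] at h
    obtain ⟨c, hc, -⟩ := h
    exact (Part.mem_assert_iff.1 hc).1
  · intro h
    refine ⟨a, ?_, ?_⟩
    · rw [@Encodable.encodek (Fin n → ℕ) Primcodable.finArrow.toEncodable a]
      exact Part.mem_some a
    · rw [Part.mem_map_iff]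
      exact ⟨(), Part.mem_assert_iff.2 ⟨h, Part.mem_some _⟩, rfl⟩

end Vale.Agent.P345
end

section

namespace Vale.Agent.P345

/-- the curve y^2 = x^3 - 2x over the rationals -/
def EC : WeierstrassCurve.Affine ℚ := ⟨0, 0, 0, -2, 0⟩

lemma ec_equation_iff (x y : ℚ) : EC.Equation x y ↔ y ^ 2 = x ^ 3 - 2 * x := by
  rw [WeierstrassCurve.Affine.equation_iff]
  simp only [EC]
  constructor <;> intro h <;> linarith

lemma ec_nonsingular_iff (x y : ℚ) : EC.Nonsingular x y ↔ y ^ 2 = x ^ 3 - 2 * x := by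
  rw [WeierstrassCurve.Affine.nonsingular_iff, ec_equation_iff]
  simp only [EC]
  constructor
  · exact fun h => h.1
  · intro h
    refine ⟨h, ?_⟩
    by_contra hcon
    push Not at hcon
    obtain ⟨h1, h2⟩ := hcon
    have hy : y = 0 := by linarith
    have hx : 3 * x ^ 2 = 2 := by linarith
    rw [hy] at h
    have h3 : x * (x ^ 2 - 2) = 0 := by linarith
    rcases mul_eq_zero.1 h3 with h4 | h4
    · rw [h4] at hx; norm_num at hx
    · have : x ^ 2 = 2 := by linarith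
      rw [this] at hx; norm_num at hx

/-- the point with coordinates x, y -/
def pt (x y : ℚ) (h : y ^ 2 = x ^ 3 - 2 * x) : EC.Point := .some x y ((ec_nonsingular_iff x y).2 h)

/-- the generator -/
def P0 : EC.Point := pt (-1) 1 (by norm_num)

/-- the point Q is affine with x-coordinate x -/
def HasX (Q : EC.Point) (x : ℚ) : Prop := ∃ y, ∃ h : y ^ 2 = x ^ 3 - 2 * x, Q = pt x y h

lemma negY_ec (x y : ℚ) : EC.negY x y = -y := by
  simp [WeierstrassCurve.Affine.negY, EC]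

lemma neg_pt (x y : ℚ) (h : y ^ 2 = x ^ 3 - 2 * x) :
    -pt x y h = pt x (-y) (by rw [neg_sq]; exact h) := by
  unfold pt
  rw [WeierstrassCurve.Affine.Point.neg_some]
  congr 1
  exact negY_ec x y

lemma pt_congr {x y x' y' : ℚ} {h : y ^ 2 = x ^ 3 - 2 * x} {h' : y' ^ 2 = x' ^ 3 - 2 * x'}
    (hx : x = x') (hy : y = y') : pt x y h = pt x' y' h' := by
  subst hx; subst hy; rfl

lemma HasX.neg {Q : EC.Point} {x : ℚ} (h : HasX Q x) : HasX (-Q) x := by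
  obtain ⟨y, hy, rfl⟩ := h
  exact ⟨-y, _, neg_pt x y hy⟩

lemma HasX.eq_or_neg {Q Q' : EC.Point} {x : ℚ} (h : HasX Q x) (h' : HasX Q' x) :
    Q = Q' ∨ Q = -Q' := by
  obtain ⟨y, hy, rfl⟩ := h
  obtain ⟨y', hy', rfl⟩ := h'
  have h2 : y ^ 2 = y' ^ 2 := by rw [hy, hy']
  rcases sq_eq_sq_iff_eq_or_eq_neg.1 h2 with h3 | h3
  · left; exact pt_congr rfl h3
  · right; rw [neg_pt]; exact pt_congr rfl h3

lemma HasX.unique {Q : EC.Point} {x x' : ℚ} (h : HasX Q x) (h' : HasX Q x') : x = x' := by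
  obtain ⟨y, hy, rfl⟩ := h
  obtain ⟨y', hy', h2⟩ := h'
  unfold pt at h2
  rw [WeierstrassCurve.Affine.Point.some.injEq] at h2
  exact h2.1

lemma HasX.ne_zero {Q : EC.Point} {x : ℚ} (h : HasX Q x) : Q ≠ 0 := by
  obtain ⟨y, hy, rfl⟩ := h
  exact WeierstrassCurve.Affine.Point.some_ne_zero _

lemma exists_hasX {Q : EC.Point} (h : Q ≠ 0) : ∃ x, HasX Q x := by
  rcases Q with _ | ⟨x, y, hxy⟩
  · exact absurd rfl h
  · exact ⟨x, y, (ec_nonsingular_iff x y).1 hxy, rfl⟩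

/-- duplication formula -/
lemma hasX_double {x y : ℚ} (h : y ^ 2 = x ^ 3 - 2 * x) (hy : y ≠ 0) :
    HasX (pt x y h + pt x y h) (((x ^ 2 + 2) / (2 * y)) ^ 2) := by
  have hne : y ≠ EC.negY x y := by
    rw [negY_ec]; intro h1; apply hy; linarith
  have hadd := WeierstrassCurve.Affine.Point.add_self_of_Y_ne
    (h₁ := (ec_nonsingular_iff x y).2 h) hne
  have hslope : EC.slope x x y y = (3 * x ^ 2 - 2) / (2 * y) := by
    rw [WeierstrassCurve.Affine.slope_of_Y_ne rfl hne, negY_ec]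
    simp only [EC]
    congr 1 <;> ring
  have hX : EC.addX x x (EC.slope x x y y) = ((x ^ 2 + 2) / (2 * y)) ^ 2 := by
    rw [hslope]
    simp only [WeierstrassCurve.Affine.addX, EC]
    rw [div_pow, div_pow]
    have h4 : (2 * y) ^ 2 ≠ 0 := by positivity
    field_simp
    linear_combination (-8 * x) * h
  have hP : pt x y h + pt x y h = .some _ _ (WeierstrassCurve.Affine.nonsingular_add
      ((ec_nonsingular_iff x y).2 h) ((ec_nonsingular_iff x y).2 h) fun hxy => hne hxy.right) := hadd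
  rw [hP]
  refine ⟨EC.addY x x y (EC.slope x x y y), ?_, ?_⟩
  · rw [← hX, ← ec_nonsingular_iff]
    exact WeierstrassCurve.Affine.nonsingular_add
      ((ec_nonsingular_iff x y).2 h) ((ec_nonsingular_iff x y).2 h) fun hxy => hne hxy.right
  · unfold pt
    rw [WeierstrassCurve.Affine.Point.some.injEq]
    exact ⟨hX, rfl⟩

/-- addition formula, different x-coordinates -/
lemma hasX_add {x y x' y' : ℚ} (h : y ^ 2 = x ^ 3 - 2 * x) (h' : y' ^ 2 = x' ^ 3 - 2 * x')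
    (hne : x ≠ x') :
    HasX (pt x y h + pt x' y' h') (((y - y') / (x - x')) ^ 2 - x - x') := by
  have hadd := WeierstrassCurve.Affine.Point.add_of_X_ne
    (h₁ := (ec_nonsingular_iff x y).2 h) (h₂ := (ec_nonsingular_iff x' y').2 h') hne
  have hX : EC.addX x x' (EC.slope x x' y y') = ((y - y') / (x - x')) ^ 2 - x - x' := by
    rw [WeierstrassCurve.Affine.slope_of_X_ne hne]
    simp only [WeierstrassCurve.Affine.addX, EC]
    ring
  have hP : pt x y h + pt x' y' h' = .some _ _ (WeierstrassCurve.Affine.nonsingular_add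
      ((ec_nonsingular_iff x y).2 h) ((ec_nonsingular_iff x' y').2 h')
      fun hxy => hne hxy.left) := hadd
  rw [hP]
  refine ⟨EC.addY x x' y (EC.slope x x' y y'), ?_, ?_⟩
  · rw [← hX, ← ec_nonsingular_iff]
    exact WeierstrassCurve.Affine.nonsingular_add
      ((ec_nonsingular_iff x y).2 h) ((ec_nonsingular_iff x' y').2 h') fun hxy => hne hxy.left
  · unfold pt
    rw [WeierstrassCurve.Affine.Point.some.injEq]
    exact ⟨hX, rfl⟩

lemma hasX_add_P0 {x y : ℚ} (h : y ^ 2 = x ^ 3 - 2 * x) (hne : x ≠ -1) :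
    HasX (pt x y h + P0) (((y - 1) / (x + 1)) ^ 2 - x + 1) := by
  have := hasX_add h (show (1 : ℚ) ^ 2 = (-1) ^ 3 - 2 * (-1) by norm_num) hne
  have e : ((y - 1) / (x - -1)) ^ 2 - x - -1 = ((y - 1) / (x + 1)) ^ 2 - x + 1 := by
    rw [sub_neg_eq_add, sub_neg_eq_add]
  rw [← e]
  exact this

lemma hasX_sub_P0 {x y : ℚ} (h : y ^ 2 = x ^ 3 - 2 * x) (hne : x ≠ -1) :
    HasX (pt x y h - P0) (((y + 1) / (x + 1)) ^ 2 - x + 1) := by
  have := hasX_add h (show (-1 : ℚ) ^ 2 = (-1) ^ 3 - 2 * (-1) by norm_num) hne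
  have e : ((y - -1) / (x - -1)) ^ 2 - x - -1 = ((y + 1) / (x + 1)) ^ 2 - x + 1 := by
    rw [sub_neg_eq_add, sub_neg_eq_add, sub_neg_eq_add]
  rw [← e, sub_eq_add_neg]
  have h2 : -P0 = pt (-1) (-1) (by norm_num) := neg_pt _ _ _
  rw [h2]
  exact this

/-- A-type triples: x = r^2/w^2 is the x-coordinate of an even multiple of P0 -/
def AType (r w s : ℕ) : Prop := r.Coprime w ∧ r ^ 4 = 2 * w ^ 4 + s ^ 2

/-- B-type triples: x = -c^2/d^2 is the x-coordinate of an odd multiple of P0 -/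
def BType (c d a : ℕ) : Prop := c.Coprime d ∧ 2 * d ^ 4 = c ^ 4 + a ^ 2

lemma AType.eqn {r w s : ℕ} (h : AType r w s) (hw : 1 ≤ w) :
    ((r : ℚ) * s / w ^ 3) ^ 2 = ((r : ℚ) ^ 2 / w ^ 2) ^ 3 - 2 * ((r : ℚ) ^ 2 / w ^ 2) := by
  have h2 : (r : ℚ) ^ 4 = 2 * w ^ 4 + s ^ 2 := by exact_mod_cast h.2
  have hw0 : (w : ℚ) ≠ 0 := by positivity
  have h3 : (s : ℚ) ^ 2 = r ^ 4 - 2 * w ^ 4 := by linarith
  have e1 : ((r : ℚ) * s / w ^ 3) ^ 2 = r ^ 2 * s ^ 2 / w ^ 6 := by field_simp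
  rw [e1, h3]
  field_simp

lemma BType.eqn {c d a : ℕ} (h : BType c d a) (hd : 1 ≤ d) :
    ((c : ℚ) * a / d ^ 3) ^ 2 = (-((c : ℚ) ^ 2 / d ^ 2)) ^ 3 - 2 * (-((c : ℚ) ^ 2 / d ^ 2)) := by
  have h2 : 2 * (d : ℚ) ^ 4 = c ^ 4 + a ^ 2 := by exact_mod_cast h.2
  have hd0 : (d : ℚ) ≠ 0 := by positivity
  have h3 : (a : ℚ) ^ 2 = 2 * d ^ 4 - c ^ 4 := by linarith
  have e1 : ((c : ℚ) * a / d ^ 3) ^ 2 = c ^ 2 * a ^ 2 / d ^ 6 := by field_simp
  rw [e1, h3]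
  field_simp
  ring

/-- All the data of the multiples of P0: `r k, w k, s k` belong to `2 k P0`, `c k, d k, a k`
to `(2 k + 1) P0`. -/
structure EllSeq (r w s c d a : ℕ → ℕ) : Prop where
  r0 : r 0 = 1
  w0 : w 0 = 0
  r1 : r 1 = 3
  w1 : w 1 = 2
  A : ∀ k, AType (r k) (w k) (s k)
  B : ∀ k, BType (c k) (d k) (a k)
  wpos : ∀ k, 1 ≤ w (k + 1)
  dpos : ∀ k, 1 ≤ d k
  cpos : ∀ k, 1 ≤ c k
  dd : ∀ k, d k * d (k + 1) = r (k + 1) ^ 2 + w (k + 1) ^ 2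
  cd : ∀ k, (c (k + 1) * d k = s (k + 1) + r (k + 1) * w (k + 1) ∧
        ((c k * d (k + 1) : ℕ) : ℤ) = |(s (k + 1) : ℤ) - r (k + 1) * w (k + 1)|) ∨
      (c k * d (k + 1) = s (k + 1) + r (k + 1) * w (k + 1) ∧
        ((c (k + 1) * d k : ℕ) : ℤ) = |(s (k + 1) : ℤ) - r (k + 1) * w (k + 1)|)
  rr : ∀ k, r k * r (k + 1) = 2 * d k ^ 2 + c k ^ 2
  complete : ∀ x y z, AType x y z → ∃ k, x = r k ∧ y = w k

end Vale.Agent.P345
end

section

namespace Vale.Agent.P345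

/-! ### parity and coprimality of A-type and B-type triples -/

lemma AType.parity {r w s : ℕ} (h : AType r w s) : r % 2 = 1 ∧ s % 2 = 1 ∧ w % 2 = 0 := by
  obtain ⟨hc, he⟩ := h
  have hr : r % 2 = 1 := by
    by_contra hr
    have hr0 : r % 2 = 0 := by omega
    obtain ⟨r1, rfl⟩ : ∃ r1, r = 2 * r1 := ⟨r / 2, by omega⟩
    have hs : s % 2 = 0 := by
      by_contra hs
      have hs1 : s % 2 = 1 := by omega
      have h1 : (s ^ 2) % 2 = 1 := by rw [Nat.pow_mod, hs1]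
      have h2 : ((2 * r1) ^ 4) % 2 = 0 := by
        have : (2 * r1) ^ 4 = 2 * (8 * r1 ^ 4) := by ring
        omega
      omega
    obtain ⟨s1, rfl⟩ : ∃ s1, s = 2 * s1 := ⟨s / 2, by omega⟩
    have hw : w % 2 = 0 := by
      by_contra hw
      have hw1 : w % 2 = 1 := by omega
      have h1 : (w ^ 4) % 2 = 1 := by rw [Nat.pow_mod, hw1]
      have h2 : (2 * r1) ^ 4 = 16 * r1 ^ 4 := by ring
      have h3 : (2 * s1) ^ 2 = 4 * s1 ^ 2 := by ring
      omega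
    have : 2 ∣ Nat.gcd (2 * r1) w := Nat.dvd_gcd (Dvd.intro _ rfl) (Nat.dvd_of_mod_eq_zero hw)
    rw [hc] at this
    omega
  have hs : s % 2 = 1 := by
    by_contra hs
    have hs0 : s % 2 = 0 := by omega
    have h1 : (r ^ 4) % 2 = 1 := by rw [Nat.pow_mod, hr]
    have h2 : (s ^ 2) % 2 = 0 := by rw [Nat.pow_mod, hs0]
    omega
  refine ⟨hr, hs, ?_⟩
  by_contra hw
  have hw1 : w % 2 = 1 := by omega
  have h1 : (r ^ 4) % 8 = 1 := by
    have : r % 8 = 1 ∨ r % 8 = 3 ∨ r % 8 = 5 ∨ r % 8 = 7 := by omega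
    rcases this with h | h | h | h <;> rw [Nat.pow_mod, h]
  have h2 : (s ^ 2) % 8 = 1 := by
    have : s % 8 = 1 ∨ s % 8 = 3 ∨ s % 8 = 5 ∨ s % 8 = 7 := by omega
    rcases this with h | h | h | h <;> rw [Nat.pow_mod, h]
  have h3 : (w ^ 4) % 8 = 1 := by
    have : w % 8 = 1 ∨ w % 8 = 3 ∨ w % 8 = 5 ∨ w % 8 = 7 := by omega
    rcases this with h | h | h | h <;> rw [Nat.pow_mod, h]
  omega

lemma BType.parity {c d a : ℕ} (h : BType c d a) : c % 2 = 1 ∧ d % 2 = 1 ∧ a % 2 = 1 := by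
  obtain ⟨hc, he⟩ := h
  have hca : c % 2 = a % 2 := by
    have h1 : (c ^ 4) % 2 = c % 2 := by
      rcases Nat.mod_two_eq_zero_or_one c with h | h <;> rw [Nat.pow_mod, h]
    have h2 : (a ^ 2) % 2 = a % 2 := by
      rcases Nat.mod_two_eq_zero_or_one a with h | h <;> rw [Nat.pow_mod, h]
    omega
  have hc1 : c % 2 = 1 := by
    by_contra hne
    have hc0 : c % 2 = 0 := by omega
    obtain ⟨c1, rfl⟩ : ∃ c1, c = 2 * c1 := ⟨c / 2, by omega⟩
    obtain ⟨a1, rfl⟩ : ∃ a1, a = 2 * a1 := ⟨a / 2, by omega⟩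
    have hd : d % 2 = 0 := by
      by_contra hd
      have hd1 : d % 2 = 1 := by omega
      have h1 : (d ^ 4) % 2 = 1 := by rw [Nat.pow_mod, hd1]
      have h2 : (2 * c1) ^ 4 = 16 * c1 ^ 4 := by ring
      have h3 : (2 * a1) ^ 2 = 4 * a1 ^ 2 := by ring
      omega
    have : 2 ∣ Nat.gcd (2 * c1) d := Nat.dvd_gcd (Dvd.intro _ rfl) (Nat.dvd_of_mod_eq_zero hd)
    rw [hc] at this
    omega
  have ha1 : a % 2 = 1 := by omega
  refine ⟨hc1, ?_, ha1⟩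
  by_contra hd
  have hd0 : d % 2 = 0 := by omega
  obtain ⟨d1, rfl⟩ : ∃ d1, d = 2 * d1 := ⟨d / 2, by omega⟩
  have h1 : (c ^ 4) % 8 = 1 := by
    have : c % 8 = 1 ∨ c % 8 = 3 ∨ c % 8 = 5 ∨ c % 8 = 7 := by omega
    rcases this with h | h | h | h <;> rw [Nat.pow_mod, h]
  have h2 : (a ^ 2) % 8 = 1 := by
    have : a % 8 = 1 ∨ a % 8 = 3 ∨ a % 8 = 5 ∨ a % 8 = 7 := by omega
    rcases this with h | h | h | h <;> rw [Nat.pow_mod, h]
  have h3 : 2 * (2 * d1) ^ 4 = 8 * (4 * d1 ^ 4) := by ring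
  omega

lemma AType.coprime_sr {r w s : ℕ} (h : AType r w s) : Nat.Coprime s r := by
  rw [Nat.coprime_iff_gcd_eq_one]
  by_contra hne
  obtain ⟨p, hp, hpd⟩ := Nat.exists_prime_and_dvd hne
  have hps : p ∣ s := hpd.trans (Nat.gcd_dvd_left _ _)
  have hpr : p ∣ r := hpd.trans (Nat.gcd_dvd_right _ _)
  have h1 : p ∣ 2 * w ^ 4 := by
    have h2 : p ∣ 2 * w ^ 4 + s ^ 2 := by rw [← h.2]; exact dvd_pow hpr (by norm_num)
    exact (Nat.dvd_add_left (dvd_pow hps (by norm_num))).1 h2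
  rcases (Nat.Prime.dvd_mul hp).1 h1 with h2 | h2
  · have hp2 : p = 2 := (Nat.prime_dvd_prime_iff_eq hp Nat.prime_two).1 h2
    subst hp2
    have := h.parity.1
    omega
  · have hpw : p ∣ w := hp.dvd_of_dvd_pow h2
    have := Nat.dvd_gcd hpr hpw
    rw [h.1] at this
    exact hp.one_lt.ne' (Nat.dvd_one.1 this)

lemma AType.coprime_sw {r w s : ℕ} (h : AType r w s) : Nat.Coprime s w := by
  rw [Nat.coprime_iff_gcd_eq_one]
  by_contra hne
  obtain ⟨p, hp, hpd⟩ := Nat.exists_prime_and_dvd hne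
  have hps : p ∣ s := hpd.trans (Nat.gcd_dvd_left _ _)
  have hpw : p ∣ w := hpd.trans (Nat.gcd_dvd_right _ _)
  have h2 : p ∣ r ^ 4 := by
    rw [h.2]
    exact dvd_add (Dvd.dvd.mul_left (dvd_pow hpw (by norm_num)) _) (dvd_pow hps (by norm_num))
  have hpr : p ∣ r := hp.dvd_of_dvd_pow h2
  have := Nat.dvd_gcd hpr hpw
  rw [h.1] at this
  exact hp.one_lt.ne' (Nat.dvd_one.1 this)

lemma BType.coprime_ac {c d a : ℕ} (h : BType c d a) : Nat.Coprime a c := by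
  rw [Nat.coprime_iff_gcd_eq_one]
  by_contra hne
  obtain ⟨p, hp, hpd⟩ := Nat.exists_prime_and_dvd hne
  have hpa : p ∣ a := hpd.trans (Nat.gcd_dvd_left _ _)
  have hpc : p ∣ c := hpd.trans (Nat.gcd_dvd_right _ _)
  have h1 : p ∣ 2 * d ^ 4 := by
    rw [h.2]; exact dvd_add (dvd_pow hpc (by norm_num)) (dvd_pow hpa (by norm_num))
  rcases (Nat.Prime.dvd_mul hp).1 h1 with h2 | h2
  · have hp2 : p = 2 := (Nat.prime_dvd_prime_iff_eq hp Nat.prime_two).1 h2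
    subst hp2
    have := h.parity.1
    omega
  · have hpd' : p ∣ d := hp.dvd_of_dvd_pow h2
    have := Nat.dvd_gcd hpc hpd'
    rw [h.1] at this
    exact hp.one_lt.ne' (Nat.dvd_one.1 this)

lemma BType.coprime_ad {c d a : ℕ} (h : BType c d a) : Nat.Coprime a d := by
  rw [Nat.coprime_iff_gcd_eq_one]
  by_contra hne
  obtain ⟨p, hp, hpd⟩ := Nat.exists_prime_and_dvd hne
  have hpa : p ∣ a := hpd.trans (Nat.gcd_dvd_left _ _)
  have hpd' : p ∣ d := hpd.trans (Nat.gcd_dvd_right _ _)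
  have h1 : p ∣ c ^ 4 := by
    have h2 : p ∣ c ^ 4 + a ^ 2 := by
      rw [← h.2]; exact Dvd.dvd.mul_left (dvd_pow hpd' (by norm_num)) _
    exact (Nat.dvd_add_left (dvd_pow hpa (by norm_num))).1 h2
  have hpc : p ∣ c := hp.dvd_of_dvd_pow h1
  have := Nat.dvd_gcd hpc hpd'
  rw [h.1] at this
  exact hp.one_lt.ne' (Nat.dvd_one.1 this)

/-- `s + r w` and `|s - r w|` are coprime -/
lemma AType.coprime_uv {r w s : ℕ} (h : AType r w s) :
    Nat.Coprime (s + r * w) ((s : ℤ) - r * w).natAbs := by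
  rw [Nat.coprime_iff_gcd_eq_one]
  by_contra hne
  obtain ⟨p, hp, hpd⟩ := Nat.exists_prime_and_dvd hne
  have h1 : (p : ℤ) ∣ (s : ℤ) + r * w := by
    have := hpd.trans (Nat.gcd_dvd_left _ _)
    exact_mod_cast this
  have h2 : (p : ℤ) ∣ (s : ℤ) - r * w := by
    have := hpd.trans (Nat.gcd_dvd_right _ _)
    exact Int.natCast_dvd.2 this
  obtain ⟨hr, hs, hw⟩ := h.parity
  have hp2 : p ≠ 2 := by
    rintro rfl
    have h3 : (2 : ℤ) ∣ (s : ℤ) + r * w := h1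
    have h4 : 2 ∣ s + r * w := by exact_mod_cast h3
    have h5 : (r * w) % 2 = 0 := by rw [Nat.mul_mod, hw]; simp
    omega
  have h3 : (p : ℤ) ∣ 2 * (s : ℤ) := by
    have := dvd_add h1 h2
    have e : (s : ℤ) + r * w + (s - r * w) = 2 * s := by ring
    rwa [e] at this
  have h4 : (p : ℤ) ∣ 2 * ((r : ℤ) * w) := by
    have := dvd_sub h1 h2
    have e : (s : ℤ) + r * w - (s - r * w) = 2 * (r * w) := by ring
    rwa [e] at this
  have h5 : p ∣ 2 * s := by exact_mod_cast h3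
  have h6 : p ∣ 2 * (r * w) := by exact_mod_cast h4
  have hps : p ∣ s := by
    rcases (Nat.Prime.dvd_mul hp).1 h5 with h7 | h7
    · exact absurd ((Nat.prime_dvd_prime_iff_eq hp Nat.prime_two).1 h7) hp2
    · exact h7
  have hprw : p ∣ r * w := by
    rcases (Nat.Prime.dvd_mul hp).1 h6 with h7 | h7
    · exact absurd ((Nat.prime_dvd_prime_iff_eq hp Nat.prime_two).1 h7) hp2
    · exact h7
  rcases (Nat.Prime.dvd_mul hp).1 hprw with h7 | h7
  · have := Nat.dvd_gcd hps h7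
    rw [h.coprime_sr] at this
    exact hp.one_lt.ne' (Nat.dvd_one.1 this)
  · have := Nat.dvd_gcd hps h7
    rw [h.coprime_sw] at this
    exact hp.one_lt.ne' (Nat.dvd_one.1 this)

lemma AType.uv_mul {r w s : ℕ} (h : AType r w s) :
    (s + r * w) * ((s : ℤ) - r * w).natAbs =
      (r ^ 2 + w ^ 2) * ((r : ℤ) ^ 2 - 2 * w ^ 2).natAbs := by
  have h1 : (((s + r * w : ℕ) : ℤ) * ((s : ℤ) - r * w)) =
      ((r ^ 2 + w ^ 2 : ℕ) : ℤ) * ((r : ℤ) ^ 2 - 2 * w ^ 2) := by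
    have h2 : (r : ℤ) ^ 4 = 2 * w ^ 4 + s ^ 2 := by exact_mod_cast h.2
    push_cast
    linear_combination -h2
  have h3 := congrArg Int.natAbs h1
  rw [Int.natAbs_mul, Int.natAbs_mul, Int.natAbs_natCast, Int.natAbs_natCast] at h3
  exact h3

lemma AType.v_pos {r w s : ℕ} (h : AType r w s) :
    1 ≤ ((s : ℤ) - r * w).natAbs := by
  rw [Nat.one_le_iff_ne_zero, Int.natAbs_ne_zero]
  intro h0
  have h1 : s = r * w := by
    have : (s : ℤ) = r * w := by linarith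
    exact_mod_cast this
  have h2 := h.coprime_sw
  rw [h1] at h2
  have h3 : w = 1 := by
    have := Nat.Coprime.coprime_mul_left h2
    simpa using this
  have := h.parity.2.2
  omega

/-- splitting of `r^2 + w^2` between the two neighbours -/
lemma AType.split {r w s : ℕ} (h : AType r w s) (hw : 1 ≤ w) :
    ∃ c1 d1 c2 d2 : ℕ, 1 ≤ c1 ∧ 1 ≤ d1 ∧ 1 ≤ c2 ∧ 1 ≤ d2 ∧ Nat.Coprime c1 d1 ∧
      Nat.Coprime c2 d2 ∧ d1 * d2 = r ^ 2 + w ^ 2 ∧ c2 * d1 = s + r * w ∧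
      c1 * d2 = ((s : ℤ) - r * w).natAbs := by
  set u := s + r * w with hu
  set v := ((s : ℤ) - r * w).natAbs with hv
  set m := r ^ 2 + w ^ 2 with hm
  have hcop : Nat.Coprime u v := h.coprime_uv
  have hv1 : 1 ≤ v := h.v_pos
  have hu1 : 1 ≤ u := by
    have := h.parity.2.1
    omega
  have hm1 : 1 ≤ m := by
    have : 1 ≤ w ^ 2 := Nat.one_le_pow _ _ hw
    omega
  have hdvd : m ∣ u * v := by
    rw [h.uv_mul]; exact Dvd.intro _ rfl
  have hgg : Nat.gcd m u * Nat.gcd m v = m := by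
    rw [← Nat.Coprime.gcd_mul m hcop]
    exact Nat.gcd_eq_left hdvd
  have hgu : 0 < Nat.gcd m u := Nat.gcd_pos_of_pos_left _ (by omega)
  have hgv : 0 < Nat.gcd m v := Nat.gcd_pos_of_pos_left _ (by omega)
  have hum : u / Nat.gcd m u * Nat.gcd m u = u := Nat.div_mul_cancel (Nat.gcd_dvd_right _ _)
  have hvm : v / Nat.gcd m v * Nat.gcd m v = v := Nat.div_mul_cancel (Nat.gcd_dvd_right _ _)
  refine ⟨v / Nat.gcd m v, Nat.gcd m u, u / Nat.gcd m u, Nat.gcd m v, ?_, hgu, ?_, hgv, ?_, ?_,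
    hgg, hum, hvm⟩
  · rw [Nat.one_le_iff_ne_zero]; intro h0; rw [h0] at hvm; omega
  · rw [Nat.one_le_iff_ne_zero]; intro h0; rw [h0] at hum; omega
  · have h1 : Nat.Coprime (m / Nat.gcd m v) (v / Nat.gcd m v) :=
      Nat.coprime_div_gcd_div_gcd hgv
    have h2 : m / Nat.gcd m v = Nat.gcd m u := by
      apply Nat.div_eq_of_eq_mul_left hgv
      exact hgg.symm
    rw [h2] at h1
    exact h1.symm
  · have h1 : Nat.Coprime (m / Nat.gcd m u) (u / Nat.gcd m u) :=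
      Nat.coprime_div_gcd_div_gcd hgu
    have h2 : m / Nat.gcd m u = Nat.gcd m v := by
      apply Nat.div_eq_of_eq_mul_left hgu
      rw [mul_comm]; exact hgg.symm
    rw [h2] at h1
    exact h1.symm

/-- splitting of `2 d^2 + c^2` between the two neighbours of a B-type triple -/
lemma BType.split {c d a : ℕ} (h : BType c d a) (hcd : c ≠ d) :
    ∃ r1 w1 r2 w2 : ℕ, 1 ≤ r1 ∧ 1 ≤ w1 ∧ 1 ≤ r2 ∧ 1 ≤ w2 ∧ Nat.Coprime r1 w1 ∧
      Nat.Coprime r2 w2 ∧ r1 * r2 = 2 * d ^ 2 + c ^ 2 ∧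
      r1 * ((d : ℤ) ^ 2 - c ^ 2).natAbs = w1 * (a + c * d) ∧
      r2 * ((d : ℤ) ^ 2 - c ^ 2).natAbs = w2 * ((a : ℤ) - c * d).natAbs := by
  obtain ⟨hc, hd, ha⟩ := h.parity
  have hcdm : (c * d) % 2 = 1 := by rw [Nat.mul_mod, hc, hd]
  obtain ⟨U, hU⟩ : ∃ U, a + c * d = 2 * U := ⟨(a + c * d) / 2, by omega⟩
  obtain ⟨V, hV⟩ : ∃ V, ((a : ℤ) - c * d).natAbs = 2 * V :=
    ⟨((a : ℤ) - c * d).natAbs / 2, by
      have : ((a : ℤ) - ((c * d : ℕ) : ℤ)).natAbs % 2 = 0 := by omega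
      push_cast at this
      omega⟩
  set m := 2 * d ^ 2 + c ^ 2 with hm
  set e := ((d : ℤ) ^ 2 - c ^ 2).natAbs with he
  have hd1 : 1 ≤ d := by omega
  have hprod : 4 * (U * V) = m * e := by
    have h1 : (((a + c * d : ℕ) : ℤ) * ((a : ℤ) - c * d)) =
        ((2 * d ^ 2 + c ^ 2 : ℕ) : ℤ) * ((d : ℤ) ^ 2 - c ^ 2) := by
      have h2 : 2 * (d : ℤ) ^ 4 = c ^ 4 + a ^ 2 := by exact_mod_cast h.2
      push_cast
      linear_combination -h2
    have h3 := congrArg Int.natAbs h1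
    rw [Int.natAbs_mul, Int.natAbs_mul, Int.natAbs_natCast, Int.natAbs_natCast, hU, hV] at h3
    rw [hm, he, ← h3]; ring
  have he0 : e ≠ 0 := by
    rw [he, Int.natAbs_ne_zero]
    intro h0
    have h1 : (d : ℤ) ^ 2 = c ^ 2 := by linarith
    have h2 : d ^ 2 = c ^ 2 := by exact_mod_cast h1
    exact hcd (Nat.pow_left_injective (by norm_num : (2 : ℕ) ≠ 0) h2).symm
  have hm0 : m ≠ 0 := by
    have : 1 ≤ d ^ 2 := Nat.one_le_pow _ _ hd1
    omega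
  have hUV0 : U * V ≠ 0 := by
    intro h0
    rw [h0] at hprod
    simp only [mul_zero] at hprod
    rcases Nat.mul_eq_zero.1 hprod.symm with h1 | h1
    · exact hm0 h1
    · exact he0 h1
  have hU0 : U ≠ 0 := fun h0 => hUV0 (by rw [h0, zero_mul])
  have hV0 : V ≠ 0 := fun h0 => hUV0 (by rw [h0, mul_zero])
  have hmodd : m % 2 = 1 := by
    have h1 : (c ^ 2) % 2 = 1 := by rw [Nat.pow_mod, hc]
    omega
  have hcop : Nat.Coprime U V := by
    rw [Nat.coprime_iff_gcd_eq_one]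
    by_contra hne
    obtain ⟨p, hp, hpd⟩ := Nat.exists_prime_and_dvd hne
    have h1 : (p : ℤ) ∣ (U : ℤ) := by exact_mod_cast hpd.trans (Nat.gcd_dvd_left _ _)
    have h2 : (p : ℤ) ∣ (V : ℤ) := by exact_mod_cast hpd.trans (Nat.gcd_dvd_right _ _)
    have hU' : (a : ℤ) + c * d = 2 * U := by exact_mod_cast hU
    have hV' : (a : ℤ) - c * d = 2 * V ∨ (a : ℤ) - c * d = -(2 * V) := by
      have := Int.natAbs_eq ((a : ℤ) - c * d)
      rw [hV] at this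
      push_cast at this
      exact this
    have h3 : (p : ℤ) ∣ (a : ℤ) ∧ (p : ℤ) ∣ (c : ℤ) * d := by
      rcases hV' with hV' | hV'
      · have e1 : (a : ℤ) = U + V := by linarith
        have e2 : (c : ℤ) * d = U - V := by linarith
        rw [e2, e1]; exact ⟨dvd_add h1 h2, dvd_sub h1 h2⟩
      · have e1 : (a : ℤ) = U - V := by linarith
        have e2 : (c : ℤ) * d = U + V := by linarith
        rw [e2, e1]; exact ⟨dvd_sub h1 h2, dvd_add h1 h2⟩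
    have h4 : p ∣ a := by exact_mod_cast h3.1
    have h5 : p ∣ c * d := by exact_mod_cast h3.2
    rcases (Nat.Prime.dvd_mul hp).1 h5 with h7 | h7
    · have := Nat.dvd_gcd h4 h7
      rw [h.coprime_ac] at this
      exact hp.one_lt.ne' (Nat.dvd_one.1 this)
    · have := Nat.dvd_gcd h4 h7
      rw [h.coprime_ad] at this
      exact hp.one_lt.ne' (Nat.dvd_one.1 this)
  have hm4 : Nat.Coprime m 4 := by
    have h1 : Nat.Coprime m 2 := by
      rw [Nat.coprime_two_right, Nat.odd_iff]; exact hmodd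
    exact Nat.Coprime.mul_right h1 h1
  have hdvd : m ∣ U * V := by
    have h1 : m ∣ 4 * (U * V) := by rw [hprod]; exact Dvd.intro _ rfl
    exact hm4.dvd_of_dvd_mul_left h1
  have hgg : Nat.gcd m U * Nat.gcd m V = m := by
    rw [← Nat.Coprime.gcd_mul m hcop]
    exact Nat.gcd_eq_left hdvd
  have hgU : 0 < Nat.gcd m U := Nat.gcd_pos_of_pos_left _ (by omega)
  have hgV : 0 < Nat.gcd m V := Nat.gcd_pos_of_pos_left _ (by omega)
  obtain ⟨U1, hU1⟩ : ∃ U1, U = Nat.gcd m U * U1 := Nat.gcd_dvd_right _ _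
  obtain ⟨V1, hV1⟩ : ∃ V1, V = Nat.gcd m V * V1 := Nat.gcd_dvd_right _ _
  set g1 := Nat.gcd m U with hg1
  set g2 := Nat.gcd m V with hg2
  have heq : e = 4 * (U1 * V1) := by
    have h1 : m * e = m * (4 * (U1 * V1)) := by
      rw [← hprod, ← hgg]
      calc 4 * (U * V) = 4 * ((g1 * U1) * (g2 * V1)) := by rw [← hU1, ← hV1]
        _ = g1 * g2 * (4 * (U1 * V1)) := by ring
    exact Nat.eq_of_mul_eq_mul_left (by omega) h1
  have hU10 : U1 ≠ 0 := by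
    intro h0; rw [h0, mul_zero] at hU1; exact hU0 hU1
  have hV10 : V1 ≠ 0 := by
    intro h0; rw [h0, mul_zero] at hV1; exact hV0 hV1
  have hg1odd : g1 % 2 = 1 := by
    by_contra h0
    have h1 : 2 ∣ g1 := Nat.dvd_of_mod_eq_zero (by omega)
    have h2 : 2 ∣ m := h1.trans (Nat.gcd_dvd_left _ _)
    omega
  have hg2odd : g2 % 2 = 1 := by
    by_contra h0
    have h1 : 2 ∣ g2 := Nat.dvd_of_mod_eq_zero (by omega)
    have h2 : 2 ∣ m := h1.trans (Nat.gcd_dvd_left _ _)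
    omega
  refine ⟨g1, 2 * V1, g2, 2 * U1, hgU, by omega, hgV, by omega, ?_, ?_, hgg, ?_, ?_⟩
  · apply Nat.Coprime.mul_right
    · rw [Nat.coprime_two_right, Nat.odd_iff]; exact hg1odd
    · have h1 : Nat.Coprime U V := hcop
      have h2 : Nat.Coprime g1 V := Nat.Coprime.coprime_dvd_left (Nat.gcd_dvd_right _ _) h1
      exact Nat.Coprime.coprime_dvd_right ⟨g2, by rw [mul_comm]; exact hV1⟩ h2
  · apply Nat.Coprime.mul_right
    · rw [Nat.coprime_two_right, Nat.odd_iff]; exact hg2odd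
    · have h1 : Nat.Coprime V U := hcop.symm
      have h2 : Nat.Coprime g2 U := Nat.Coprime.coprime_dvd_left (Nat.gcd_dvd_right _ _) h1
      exact Nat.Coprime.coprime_dvd_right ⟨g1, by rw [mul_comm]; exact hU1⟩ h2
  · rw [heq, hU]
    calc g1 * (4 * (U1 * V1)) = 2 * V1 * (2 * (g1 * U1)) := by ring
      _ = 2 * V1 * (2 * U) := by rw [← hU1]
  · rw [heq, hV]
    calc g2 * (4 * (U1 * V1)) = 2 * U1 * (2 * (g2 * V1)) := by ring
      _ = 2 * U1 * (2 * V) := by rw [← hV1]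

end Vale.Agent.P345
end

section

/-!
Growth of the numerators along the multiples of the generator: recurrence, ratio bounds,
uniqueness and existence of the index, lower and upper growth.
-/

namespace Vale.Agent.P345

lemma rec_aux {R W Z C1 D1 C D x y : ℤ} (hR : 0 < R) (hA : R ^ 4 = 2 * W ^ 4 + Z ^ 2)
    (h1 : x * R = 2 * D ^ 2 + C ^ 2) (h2 : R * y = 2 * D1 ^ 2 + C1 ^ 2)
    (hdd : D * D1 = R ^ 2 + W ^ 2)
    (hsum : (C1 * D) ^ 2 + (C * D1) ^ 2 = 2 * Z ^ 2 + 2 * (R * W) ^ 2)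
    (hprod : (C1 * D) ^ 2 * (C * D1) ^ 2 = (Z ^ 2 - (R * W) ^ 2) ^ 2) :
    x * y = 9 * R ^ 2 + 8 * W ^ 2 := by
  have hpos : 0 < (R ^ 2 + W ^ 2) ^ 2 := by positivity
  have h7 : Z ^ 2 = R ^ 4 - 2 * W ^ 4 := by linarith
  have hcc : (C * C1) ^ 2 = (R ^ 2 - 2 * W ^ 2) ^ 2 := by
    have h5 : (C * C1) ^ 2 * (R ^ 2 + W ^ 2) ^ 2 =
        (R ^ 2 - 2 * W ^ 2) ^ 2 * (R ^ 2 + W ^ 2) ^ 2 := by
      rw [← hdd]
      have h6 : (C * C1) ^ 2 * (D * D1) ^ 2 = (C1 * D) ^ 2 * (C * D1) ^ 2 := by ring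
      rw [h6, hprod, hdd, h7]
      ring
    exact mul_right_cancel₀ hpos.ne' h5
  have hfin : (R ^ 2) * (x * y) = R ^ 2 * (9 * R ^ 2 + 8 * W ^ 2) := by
    have h8 : (R ^ 2) * (x * y) = (x * R) * (R * y) := by ring
    rw [h8, h1, h2]
    have h9 : (2 * D ^ 2 + C ^ 2) * (2 * D1 ^ 2 + C1 ^ 2) =
        4 * (D * D1) ^ 2 + 2 * ((C1 * D) ^ 2 + (C * D1) ^ 2) + (C * C1) ^ 2 := by ring
    rw [h9, hsum, hcc, hdd, h7]
    ring
  have hR2 : R ^ 2 ≠ 0 := by positivity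
  exact mul_left_cancel₀ hR2 hfin

namespace EllSeq

variable {r w s c d a : ℕ → ℕ}

lemma r_pos (S : EllSeq r w s c d a) (k : ℕ) : 0 < r k := by
  rcases k with _ | k
  · rw [S.r0]; exact Nat.one_pos
  · by_contra h
    have h0 : r (k + 1) = 0 := by omega
    have h1 := (S.A (k + 1)).2
    rw [h0] at h1
    have h2 : 0 < w (k + 1) ^ 4 := pow_pos (S.wpos k) 4
    have h3 : (0 : ℕ) ^ 4 = 0 := by norm_num
    omega

/-- The recurrence. -/
theorem recurrence (S : EllSeq r w s c d a) (k : ℕ) :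
    r k * r (k + 2) = 9 * r (k + 1) ^ 2 + 8 * w (k + 1) ^ 2 := by
  have hR : (0 : ℤ) < r (k + 1) := by exact_mod_cast S.r_pos (k + 1)
  have hA : (r (k + 1) : ℤ) ^ 4 = 2 * (w (k + 1) : ℤ) ^ 4 + (s (k + 1) : ℤ) ^ 2 := by
    exact_mod_cast (S.A (k + 1)).2
  have h1 : (r k : ℤ) * r (k + 1) = 2 * (d k : ℤ) ^ 2 + (c k : ℤ) ^ 2 := by
    exact_mod_cast S.rr k
  have h2 : (r (k + 1) : ℤ) * r (k + 2) = 2 * (d (k + 1) : ℤ) ^ 2 + (c (k + 1) : ℤ) ^ 2 := by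
    exact_mod_cast S.rr (k + 1)
  have hdd : (d k : ℤ) * d (k + 1) = (r (k + 1) : ℤ) ^ 2 + (w (k + 1) : ℤ) ^ 2 := by
    exact_mod_cast S.dd k
  have h11 : (r k : ℤ) * r (k + 2) = 9 * (r (k + 1) : ℤ) ^ 2 + 8 * (w (k + 1) : ℤ) ^ 2 := by
    rcases S.cd k with ⟨h3, h4⟩ | ⟨h3, h4⟩
    · have h3' : (c (k + 1) : ℤ) * d k = s (k + 1) + r (k + 1) * w (k + 1) := by
        exact_mod_cast h3
      have h4' : ((c k : ℤ) * d (k + 1)) ^ 2 = ((s (k + 1) : ℤ) - r (k + 1) * w (k + 1)) ^ 2 := by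
        rw [← sq_abs ((s (k + 1) : ℤ) - r (k + 1) * w (k + 1)), ← h4]
        push_cast
        ring
      refine rec_aux hR hA h1 h2 hdd ?_ ?_ <;> rw [h3', h4'] <;> ring
    · have h3' : (c k : ℤ) * d (k + 1) = s (k + 1) + r (k + 1) * w (k + 1) := by
        exact_mod_cast h3
      have h4' : ((c (k + 1) : ℤ) * d k) ^ 2 = ((s (k + 1) : ℤ) - r (k + 1) * w (k + 1)) ^ 2 := by
        rw [← sq_abs ((s (k + 1) : ℤ) - r (k + 1) * w (k + 1)), ← h4]
        push_cast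
        ring
      refine rec_aux hR hA h1 h2 hdd ?_ ?_ <;> rw [h3', h4'] <;> ring
  exact_mod_cast h11

theorem ratio_lower (S : EllSeq r w s c d a) (k : ℕ) :
    9 * r (k + 1) ^ 2 ≤ r k * r (k + 2) := by
  rw [S.recurrence k]
  exact Nat.le_add_right _ _

theorem ratio_upper (S : EllSeq r w s c d a) (k : ℕ) :
    r k * r (k + 2) ≤ 15 * r (k + 1) ^ 2 := by
  rw [S.recurrence k]
  have hA := (S.A (k + 1)).2
  generalize r (k + 1) = x at *
  generalize w (k + 1) = y at *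
  generalize s (k + 1) = z at *
  have h1 : 8 * y ^ 2 ≤ 6 * x ^ 2 := by
    by_contra h
    have h2 : 6 * x ^ 2 < 8 * y ^ 2 := by omega
    have h3 : (6 * x ^ 2) ^ 2 < (8 * y ^ 2) ^ 2 := Nat.pow_lt_pow_left h2 (by norm_num)
    have h4 : (6 * x ^ 2) ^ 2 = 36 * x ^ 4 := by ring
    have h5 : (8 * y ^ 2) ^ 2 = 64 * y ^ 4 := by ring
    rw [h4, h5] at h3
    omega
  omega

/-- Lower bound for the ratios. -/
theorem ratio_ge (S : EllSeq r w s c d a) (k : ℕ) : 3 * 9 ^ k * r k ≤ r (k + 1) := by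
  induction k with
  | zero => rw [S.r0, S.r1]; norm_num
  | succ k ih =>
    have h1 := S.ratio_lower k
    have hk := S.r_pos k
    refine Nat.le_of_mul_le_mul_left ?_ hk
    calc r k * (3 * 9 ^ (k + 1) * r (k + 1)) = 9 * r (k + 1) * (3 * 9 ^ k * r k) := by ring
      _ ≤ 9 * r (k + 1) * r (k + 1) := Nat.mul_le_mul_left _ ih
      _ = 9 * r (k + 1) ^ 2 := by ring
      _ ≤ r k * r (k + 2) := h1

/-- Upper bound for the ratios. -/
theorem ratio_le (S : EllSeq r w s c d a) (k : ℕ) : r (k + 1) ≤ 3 * 15 ^ k * r k := by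
  induction k with
  | zero => rw [S.r0, S.r1]; norm_num
  | succ k ih =>
    have h1 := S.ratio_upper k
    have hk := S.r_pos k
    refine Nat.le_of_mul_le_mul_left ?_ hk
    calc r k * r (k + 2) ≤ 15 * r (k + 1) ^ 2 := h1
      _ = 15 * r (k + 1) * r (k + 1) := by ring
      _ ≤ 15 * r (k + 1) * (3 * 15 ^ k * r k) := Nat.mul_le_mul_left _ ih
      _ = r k * (3 * 15 ^ (k + 1) * r (k + 1)) := by ring

theorem three_mul_le (S : EllSeq r w s c d a) (k : ℕ) : 3 * r k ≤ r (k + 1) := by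
  refine le_trans ?_ (S.ratio_ge k)
  have : 1 ≤ 9 ^ k := Nat.one_le_pow _ _ (by norm_num)
  refine Nat.mul_le_mul_right _ ?_
  omega

theorem r_lt (S : EllSeq r w s c d a) (k : ℕ) : r k < r (k + 1) := by
  have h1 := S.three_mul_le k
  have h2 := S.r_pos k
  omega

theorem r_strictMono (S : EllSeq r w s c d a) : StrictMono r := strictMono_nat_of_lt_succ S.r_lt

theorem sq_le (S : EllSeq r w s c d a) (k : ℕ) : r (k + 1) ^ 2 ≤ r k * r (k + 2) :=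
  le_trans (by omega) (S.ratio_lower k)

/-- The ratios are monotone. -/
theorem ratio_mono (S : EllSeq r w s c d a) {k l : ℕ} (h : k ≤ l) :
    r (k + 1) * r l ≤ r (l + 1) * r k := by
  induction l, h using Nat.le_induction with
  | base => exact le_rfl
  | succ l hkl ih =>
    have hl := S.r_pos l
    refine Nat.le_of_mul_le_mul_left ?_ hl
    calc r l * (r (k + 1) * r (l + 1)) = (r (k + 1) * r l) * r (l + 1) := by ring
      _ ≤ (r (l + 1) * r k) * r (l + 1) := Nat.mul_le_mul_right _ ih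
      _ = r k * r (l + 1) ^ 2 := by ring
      _ ≤ r k * (r l * r (l + 2)) := Nat.mul_le_mul_left _ (S.sq_le l)
      _ = r l * (r (l + 1 + 1) * r k) := by ring

theorem index_le (S : EllSeq r w s c d a) {p k k' : ℕ} (h2 : p * r (k + 1) < r (k + 2))
    (h1 : r (k' + 1) ≤ p * r k') : k' ≤ k := by
  by_contra hcon
  have hle : k + 1 ≤ k' := by omega
  have h3 := S.ratio_mono hle
  have h4 : p * r (k + 1) * r k' < r (k + 2) * r k' := Nat.mul_lt_mul_of_pos_right h2 (S.r_pos k')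
  have h5 : r (k' + 1) * r (k + 1) ≤ p * r k' * r (k + 1) := Nat.mul_le_mul_right _ h1
  have h6 : p * r (k + 1) * r k' = p * r k' * r (k + 1) := by ring
  have h7 : r (k + 1 + 1) * r k' = r (k + 2) * r k' := rfl
  omega

theorem index_unique (S : EllSeq r w s c d a) {p k k' : ℕ} (h1 : r (k + 1) ≤ p * r k)
    (h2 : p * r (k + 1) < r (k + 2)) (h1' : r (k' + 1) ≤ p * r k')
    (h2' : p * r (k' + 1) < r (k' + 2)) : k = k' :=
  le_antisymm (S.index_le h2' h1) (S.index_le h2 h1')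

theorem index_exists (S : EllSeq r w s c d a) {p : ℕ} (hp : 3 ≤ p) :
    ∃ k, r (k + 1) ≤ p * r k ∧ p * r (k + 1) < r (k + 2) := by
  classical
  have hex : ∃ k, p * r k < r (k + 1) := by
    refine ⟨p, lt_of_lt_of_le ?_ (S.ratio_ge p)⟩
    refine Nat.mul_lt_mul_of_pos_right ?_ (S.r_pos p)
    have h1 : p < 9 ^ p := Nat.lt_pow_self (by norm_num)
    omega
  obtain ⟨K, hK, hmin⟩ : ∃ K, p * r K < r (K + 1) ∧ ∀ j < K, ¬ p * r j < r (j + 1) :=
    ⟨Nat.find hex, Nat.find_spec hex, fun j hj => Nat.find_min hex hj⟩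
  rcases K with _ | k
  · rw [S.r0, S.r1] at hK
    omega
  · exact ⟨k, not_lt.mp (hmin k (Nat.lt_succ_self k)), hK⟩

theorem pow_sq_le (S : EllSeq r w s c d a) (k : ℕ) : 3 ^ (k ^ 2) ≤ r k := by
  induction k with
  | zero => rw [S.r0]; norm_num
  | succ k ih =>
    refine le_trans ?_ (S.ratio_ge k)
    calc 3 ^ ((k + 1) ^ 2) = 3 * 9 ^ k * 3 ^ (k ^ 2) := by
          rw [show (9 : ℕ) = 3 ^ 2 by norm_num, ← pow_mul, ← pow_succ', ← pow_add]
          congr 1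
          ring
      _ ≤ 3 * 9 ^ k * r k := Nat.mul_le_mul_left _ ih

theorem growth_lower (S : EllSeq r w s c d a) {p k m : ℕ} (_h1 : r (k + 1) ≤ p * r k)
    (h2 : p * r (k + 1) < r (k + 2)) (hm : 3 * 15 ^ m ≤ p) : 3 ^ (m ^ 2) ≤ r (k + 2) := by
  have h3 : p * r (k + 1) < 3 * 15 ^ (k + 1) * r (k + 1) := lt_of_lt_of_le h2 (S.ratio_le (k + 1))
  have h4 : p < 3 * 15 ^ (k + 1) := lt_of_mul_lt_mul_right h3 (Nat.zero_le _)
  have h5 : (15 : ℕ) ^ m < 15 ^ (k + 1) := by omega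
  have h6 : m < k + 1 := (Nat.pow_lt_pow_iff_right (by norm_num)).mp h5
  refine le_trans (Nat.pow_le_pow_right (by norm_num) ?_) (S.pow_sq_le (k + 2))
  exact Nat.pow_le_pow_left (by omega) 2

theorem growth_upper (S : EllSeq r w s c d a) {p k m : ℕ} (hp : 3 ≤ p)
    (h1 : r (k + 1) ≤ p * r k) (_h2 : p * r (k + 1) < r (k + 2)) (hm : p < 3 * 9 ^ m) :
    r (k + 2) ≤ p ^ (m + 4) := by
  have hk := S.r_pos k
  have h3 : 3 * 9 ^ k ≤ p := by
    refine Nat.le_of_mul_le_mul_right ?_ hk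
    exact le_trans (S.ratio_ge k) h1
  have h4 : (9 : ℕ) ^ k < 9 ^ m := by omega
  have h5 : k < m := (Nat.pow_lt_pow_iff_right (by norm_num)).mp h4
  have h6 : ∀ j, j ≤ k + 1 → r j ≤ p ^ j := by
    intro j
    induction j with
    | zero => intro _; rw [S.r0]; norm_num
    | succ j ih =>
      intro hj
      have h7 := S.ratio_mono (show j ≤ k by omega)
      have h8 : r (j + 1) ≤ p * r j := by
        refine Nat.le_of_mul_le_mul_right ?_ hk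
        calc r (j + 1) * r k ≤ r (k + 1) * r j := h7
          _ ≤ p * r k * r j := Nat.mul_le_mul_right _ h1
          _ = p * r j * r k := by ring
      calc r (j + 1) ≤ p * r j := h8
        _ ≤ p * p ^ j := Nat.mul_le_mul_left _ (ih (by omega))
        _ = p ^ (j + 1) := by ring
  have h9 : r (k + 2) ≤ 15 * p * r (k + 1) := by
    refine Nat.le_of_mul_le_mul_left ?_ hk
    calc r k * r (k + 2) ≤ 15 * r (k + 1) ^ 2 := S.ratio_upper k
      _ = 15 * r (k + 1) * r (k + 1) := by ring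
      _ ≤ 15 * r (k + 1) * (p * r k) := Nat.mul_le_mul_left _ h1
      _ = r k * (15 * p * r (k + 1)) := by ring
  have h10 : 15 ≤ p ^ 3 := by
    calc 15 ≤ 3 ^ 3 := by norm_num
      _ ≤ p ^ 3 := Nat.pow_le_pow_left hp 3
  calc r (k + 2) ≤ 15 * p * r (k + 1) := h9
    _ ≤ p ^ 3 * p * p ^ (k + 1) :=
        Nat.mul_le_mul (Nat.mul_le_mul_right _ h10) (h6 (k + 1) le_rfl)
    _ = p ^ (k + 5) := by ring
    _ ≤ p ^ (m + 4) := Nat.pow_le_pow_right (by omega) (by omega)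

end EllSeq

end Vale.Agent.P345
end

section

/-!
The single-fold relation of quasi-polynomial growth obtained from the sequence of multiples of
the generator.
-/

namespace Vale.Agent.P345

/-- The witness system: `R, W, Z` is an A-type triple, `D0, C0, R0` and `D1, C1, q` are the data
of its two neighbours. -/
def Wit (p q R W Z D0 C0 D1 C1 R0 : ℕ) : Prop :=
  (1 ≤ W ∧ R.Coprime W) ∧ R ^ 4 = 2 * W ^ 4 + Z ^ 2 ∧ D0 * D1 = R ^ 2 + W ^ 2 ∧
  ((C1 * D0 = Z + R * W ∧ C0 * D1 = (Z - R * W) + (R * W - Z)) ∨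
    (C0 * D1 = Z + R * W ∧ C1 * D0 = (Z - R * W) + (R * W - Z))) ∧
  R * q = 2 * D1 ^ 2 + C1 ^ 2 ∧ R * R0 = 2 * D0 ^ 2 + C0 ^ 2 ∧ R ≤ p * R0 ∧ p * R < q

/-- Factorizations along two coprime numbers are unique. -/
lemma factor_unique {u v D0 D1 E0 E1 : ℕ} (h : Nat.Coprime u v) (hD0 : D0 ∣ u) (hD1 : D1 ∣ v)
    (hE0 : E0 ∣ u) (hE1 : E1 ∣ v) (he : D0 * D1 = E0 * E1) : D0 = E0 ∧ D1 = E1 := by
  have c1 : Nat.Coprime D0 E1 := Nat.Coprime.of_dvd hD0 hE1 h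
  have c2 : Nat.Coprime E0 D1 := Nat.Coprime.of_dvd hE0 hD1 h
  have h1 : D0 ∣ E0 := c1.dvd_of_dvd_mul_right (he ▸ dvd_mul_right D0 D1)
  have h2 : E0 ∣ D0 := c2.dvd_of_dvd_mul_right (he.symm ▸ dvd_mul_right E0 E1)
  have h3 : D0 = E0 := Nat.dvd_antisymm h1 h2
  have h4 : D1 ∣ E1 := c2.symm.dvd_of_dvd_mul_left (he ▸ dvd_mul_left D1 D0)
  have h5 : E1 ∣ D1 := c1.symm.dvd_of_dvd_mul_left (he.symm ▸ dvd_mul_left E1 E0)
  exact ⟨h3, Nat.dvd_antisymm h4 h5⟩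

lemma natAbs_eq_tsub (x y z : ℕ) : ((x : ℤ) - y * z).natAbs = (x - y * z) + (y * z - x) := by
  have h : ((y * z : ℕ) : ℤ) = (y : ℤ) * z := by push_cast; ring
  rw [← h]
  omega

lemma eq_tsub_of_abs {x y z t : ℕ} (h : ((t : ℕ) : ℤ) = |(x : ℤ) - y * z|) :
    t = (x - y * z) + (y * z - x) := by
  rw [← natAbs_eq_tsub, ← Nat.cast_inj (R := ℤ), h, Int.natCast_natAbs]

lemma dvd_of_mul_eq {a b c : ℕ} (h : a * b = c) : b ∣ c := h ▸ dvd_mul_left b a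

lemma dvd_of_mul_eq' {a b c : ℕ} (h : a * b = c) : a ∣ c := h ▸ dvd_mul_right a b

/-- The index of `p`: the data of the system are those of the sequence at the unique index. -/
theorem wit_iff {r w s c d a : ℕ → ℕ} (S : EllSeq r w s c d a) {p : ℕ} (hp : 3 ≤ p)
    (q R W Z D0 C0 D1 C1 R0 : ℕ) :
    Wit p q R W Z D0 C0 D1 C1 R0 ↔ ∃ k, r (k + 1) ≤ p * r k ∧ p * r (k + 1) < r (k + 2) ∧
      q = r (k + 2) ∧ R = r (k + 1) ∧ W = w (k + 1) ∧ Z = s (k + 1) ∧ D0 = d k ∧ C0 = c k ∧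
      D1 = d (k + 1) ∧ C1 = c (k + 1) ∧ R0 = r k := by
  constructor
  · rintro ⟨⟨hW, hco⟩, h4, hDD, hor, hq, hR0, hle, hlt⟩
    have hA : AType R W Z := ⟨hco, h4⟩
    obtain ⟨n, hR, hWn⟩ := S.complete R W Z hA
    obtain ⟨k, rfl⟩ : ∃ k, n = k + 1 := by
      rcases n with _ | k
      · rw [S.w0] at hWn
        omega
      · exact ⟨k, rfl⟩
    subst hR hWn
    have hZ : Z = s (k + 1) := by
      have h5 := (S.A (k + 1)).2
      have h6 : Z ^ 2 = s (k + 1) ^ 2 := by omega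
      exact Nat.pow_left_injective (n := 2) (by norm_num) h6
    subst hZ
    have hcop := (S.A (k + 1)).coprime_uv
    rw [natAbs_eq_tsub] at hcop
    set u := s (k + 1) + r (k + 1) * w (k + 1) with hu
    set v := (s (k + 1) - r (k + 1) * w (k + 1)) + (r (k + 1) * w (k + 1) - s (k + 1)) with hv
    have hrk := S.r_pos (k + 1)
    have hdk : 0 < d k := S.dpos k
    have hdk1 : 0 < d (k + 1) := S.dpos (k + 1)
    have hdd := S.dd k
    have hrr := S.rr k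
    have hrr' := S.rr (k + 1)
    -- the case of equal orientation
    have fin1 : D0 = d k → D1 = d (k + 1) → C0 * D1 = c k * d (k + 1) →
        C1 * D0 = c (k + 1) * d k → ∃ k', r (k' + 1) ≤ p * r k' ∧ p * r (k' + 1) < r (k' + 2) ∧
        q = r (k' + 2) ∧ r (k + 1) = r (k' + 1) ∧ w (k + 1) = w (k' + 1) ∧
        s (k + 1) = s (k' + 1) ∧ D0 = d k' ∧ C0 = c k' ∧
        D1 = d (k' + 1) ∧ C1 = c (k' + 1) ∧ R0 = r k' := by
      intro e0 e1 e2 e3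
      subst e0 e1
      have e4 : C0 = c k := Nat.eq_of_mul_eq_mul_right hdk1 e2
      have e5 : C1 = c (k + 1) := Nat.eq_of_mul_eq_mul_right hdk e3
      subst e4 e5
      have e6 : q = r (k + 2) := Nat.eq_of_mul_eq_mul_left hrk (hq.trans hrr'.symm)
      have e7 : R0 = r k := Nat.eq_of_mul_eq_mul_left hrk
        (hR0.trans (hrr.symm.trans (mul_comm _ _)))
      subst e6 e7
      exact ⟨k, hle, hlt, rfl, rfl, rfl, rfl, rfl, rfl, rfl, rfl, rfl⟩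
    -- the case of opposite orientation
    have fin2 : D1 = d k → C1 * D0 = c k * d (k + 1) → D0 = d (k + 1) → False := by
      intro e0 e1 e2
      subst e0 e2
      have e4 : C1 = c k := Nat.eq_of_mul_eq_mul_right hdk1 e1
      subst e4
      have e6 : q = r k := Nat.eq_of_mul_eq_mul_left hrk
        (hq.trans (hrr.symm.trans (mul_comm _ _)))
      subst e6
      have h1 := S.r_lt k
      have h2 : 1 * r (k + 1) ≤ p * r (k + 1) := Nat.mul_le_mul_right _ (by omega)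
      omega
    have hDD' : D0 * D1 = d k * d (k + 1) := hDD.trans hdd.symm
    rcases hor with ⟨o1, o2⟩ | ⟨o1, o2⟩ <;> rcases S.cd k with ⟨t1, t2⟩ | ⟨t1, t2⟩
    · have t2' := eq_tsub_of_abs t2
      obtain ⟨e0, e1⟩ := factor_unique hcop (dvd_of_mul_eq o1) (dvd_of_mul_eq o2)
        (dvd_of_mul_eq t1) (dvd_of_mul_eq t2') hDD'
      exact fin1 e0 e1 (o2.trans t2'.symm) (o1.trans t1.symm)
    · have t2' := eq_tsub_of_abs t2
      obtain ⟨e0, e1⟩ := factor_unique hcop (dvd_of_mul_eq o1) (dvd_of_mul_eq o2)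
        (dvd_of_mul_eq t1) (dvd_of_mul_eq t2') (hDD'.trans (mul_comm _ _))
      exact (fin2 e1 (o1.trans t1.symm) e0).elim
    · have t2' := eq_tsub_of_abs t2
      obtain ⟨e0, e1⟩ := factor_unique hcop (dvd_of_mul_eq o1) (dvd_of_mul_eq o2)
        (dvd_of_mul_eq t1) (dvd_of_mul_eq t2') ((mul_comm _ _).trans hDD')
      exact (fin2 e0 (o2.trans t2'.symm) e1).elim
    · have t2' := eq_tsub_of_abs t2
      obtain ⟨e0, e1⟩ := factor_unique hcop (dvd_of_mul_eq o1) (dvd_of_mul_eq o2)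
        (dvd_of_mul_eq t1) (dvd_of_mul_eq t2')
        ((mul_comm _ _).trans (hDD'.trans (mul_comm _ _)))
      exact fin1 e1 e0 (o1.trans t1.symm) (o2.trans t2'.symm)
  · rintro ⟨k, hle, hlt, rfl, rfl, rfl, rfl, rfl, rfl, rfl, rfl, rfl⟩
    refine ⟨⟨S.wpos k, (S.A (k + 1)).1⟩, (S.A (k + 1)).2, S.dd k, ?_, S.rr (k + 1), ?_, hle, hlt⟩
    · rcases S.cd k with ⟨t1, t2⟩ | ⟨t1, t2⟩
      · exact Or.inl ⟨t1, eq_tsub_of_abs t2⟩
      · exact Or.inr ⟨t1, eq_tsub_of_abs t2⟩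
    · rw [mul_comm]
      exact S.rr k

/-! ### The system is single-fold -/

theorem SF.coprime : SF (fun x : ℕ × ℕ => 1 ≤ x.2 ∧ x.1.Coprime x.2) := by
  have h : SF (fun x : ℕ × ℕ => ∃ u : ℕ,
      (fun y : (ℕ × ℕ) × ℕ => y.2 < y.1.2 ∧ (y.1.1 * y.2) % y.1.2 = 1 % y.1.2) (x, u)) := by
    refine SF.ex (R := fun y : (ℕ × ℕ) × ℕ => y.2 < y.1.2 ∧ (y.1.1 * y.2) % y.1.2 = 1 % y.1.2)
      ?_ ?_
    · have a1 : SFn (fun y : (ℕ × ℕ) × ℕ => y.1.1) := SFn.of_re (Re.fst.comp Re.fst)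
      have a2 : SFn (fun y : (ℕ × ℕ) × ℕ => y.1.2) := SFn.of_re (Re.snd.comp Re.fst)
      have a3 : SFn (fun y : (ℕ × ℕ) × ℕ => y.2) := SFn.of_re Re.snd
      exact (SF.lt a3 a2).and (SF.eq ((a1.mul a3).mod a2) ((SFn.const 1).mod a2))
    · rintro ⟨r, w⟩ u u' ⟨h1, h2⟩ ⟨h3, h4⟩
      simp only at h1 h2 h3 h4
      have h5 : r * u ≡ 1 [MOD w] := h2
      have h6 : r * u' ≡ 1 [MOD w] := h4
      have hco : Nat.Coprime w r := by
        have h7 : Nat.Coprime w (r * u) := by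
          rw [Nat.coprime_comm, Nat.coprime_iff_gcd_eq_one, Nat.ModEq.gcd_eq h5,
            Nat.gcd_one_left]
        exact Nat.Coprime.coprime_mul_right_right h7
      have h8 : u ≡ u' [MOD w] := Nat.ModEq.cancel_left_of_coprime hco (h5.trans h6.symm)
      have h9 : u % w = u' % w := h8
      rwa [Nat.mod_eq_of_lt h1, Nat.mod_eq_of_lt h3] at h9
  refine h.congr fun x => ?_
  obtain ⟨r, w⟩ := x
  simp only
  constructor
  · rintro ⟨u, h1, h2⟩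
    refine ⟨by omega, ?_⟩
    have h5 : r * u ≡ 1 [MOD w] := h2
    have h7 : Nat.Coprime (r * u) w := by
      rw [Nat.coprime_iff_gcd_eq_one, Nat.ModEq.gcd_eq h5, Nat.gcd_one_left]
    exact Nat.Coprime.coprime_mul_right h7
  · rintro ⟨h1, h2⟩
    rcases Nat.lt_or_ge 1 w with hw | hw
    · obtain ⟨u, hu⟩ := Nat.exists_mul_mod_eq_one_of_coprime h2 hw
      refine ⟨u % w, Nat.mod_lt _ (by omega), ?_⟩
      rw [Nat.mul_mod, Nat.mod_mod, ← Nat.mul_mod, Nat.mod_eq_of_lt hw]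
      exact hu.2
    · have : w = 1 := by omega
      subst this
      exact ⟨0, by omega, by omega⟩

theorem sf_wit : SF (fun x : (ℕ × ℕ) × (Fin 8 → ℕ) =>
    Wit x.1.1 x.1.2 (x.2 0) (x.2 1) (x.2 2) (x.2 3) (x.2 4) (x.2 5) (x.2 6) (x.2 7)) := by
  have hp : SFn (fun x : (ℕ × ℕ) × (Fin 8 → ℕ) => x.1.1) := SFn.of_re (Re.fst.comp Re.fst)
  have hq : SFn (fun x : (ℕ × ℕ) × (Fin 8 → ℕ) => x.1.2) := SFn.of_re (Re.snd.comp Re.fst)
  have hv : ∀ i : Fin 8, SFn (fun x : (ℕ × ℕ) × (Fin 8 → ℕ) => x.2 i) := fun i =>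
    (SFn.of_isP (IsP.apply i)).comp SFn.snd
  have h2 : ∀ {X : Type} [Ctx X] {f : X → ℕ}, SFn f → SFn (fun x => f x ^ 2) := fun {X} _ {f} hf =>
    (hf.mul hf).congr fun x => (sq (f x)).symm
  have h4 : ∀ {X : Type} [Ctx X] {f : X → ℕ}, SFn f → SFn (fun x => f x ^ 4) := fun {X} _ {f} hf =>
    ((h2 hf).mul (h2 hf)).congr fun x => by ring
  have c2 : SFn (fun _ : (ℕ × ℕ) × (Fin 8 → ℕ) => 2) := SFn.const 2
  have hRW := (hv 0).mul (hv 1)
  have hu := (hv 2).add hRW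
  have hw := ((hv 2).tsub hRW).add (hRW.tsub (hv 2))
  -- the first condition implies that the two orientations exclude each other
  have hor : SF (fun x : (ℕ × ℕ) × (Fin 8 → ℕ) =>
      (((1 ≤ x.2 1 ∧ (x.2 0).Coprime (x.2 1)) ∧ (x.2 0) ^ 4 = 2 * (x.2 1) ^ 4 + (x.2 2) ^ 2) ∧
        (x.2 6 * x.2 3 = x.2 2 + x.2 0 * x.2 1 ∧
        x.2 4 * x.2 5 = (x.2 2 - x.2 0 * x.2 1) + (x.2 0 * x.2 1 - x.2 2))) ∨
      (((1 ≤ x.2 1 ∧ (x.2 0).Coprime (x.2 1)) ∧ (x.2 0) ^ 4 = 2 * (x.2 1) ^ 4 + (x.2 2) ^ 2) ∧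
        (x.2 4 * x.2 5 = x.2 2 + x.2 0 * x.2 1 ∧
        x.2 6 * x.2 3 = (x.2 2 - x.2 0 * x.2 1) + (x.2 0 * x.2 1 - x.2 2)))) := by
    have hA : SF (fun x : (ℕ × ℕ) × (Fin 8 → ℕ) =>
        (1 ≤ x.2 1 ∧ (x.2 0).Coprime (x.2 1)) ∧
          (x.2 0) ^ 4 = 2 * (x.2 1) ^ 4 + (x.2 2) ^ 2) :=
      (SF.coprime.comp₂ (hv 0) (hv 1)).and
        (SF.eq (h4 (hv 0)) ((c2.mul (h4 (hv 1))).add (h2 (hv 2))))
    refine SF.or (hA.and ((SF.eq ((hv 6).mul (hv 3)) hu).and (SF.eq ((hv 4).mul (hv 5)) hw)))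
      (hA.and ((SF.eq ((hv 4).mul (hv 5)) hu).and (SF.eq ((hv 6).mul (hv 3)) hw))) ?_
    rintro x ⟨⟨⟨a1, a2⟩, a3⟩, a4, a5⟩ ⟨-, a6, a7⟩
    rw [a6] at a5
    have hA : AType (x.2 0) (x.2 1) (x.2 2) := ⟨a2, a3⟩
    obtain ⟨p1, p2, p3⟩ := hA.parity
    have h5 : 1 ≤ x.2 0 * x.2 1 := Nat.mul_pos (by omega) (by omega)
    omega
  have hrest : SF (fun x : (ℕ × ℕ) × (Fin 8 → ℕ) =>
      x.2 3 * x.2 5 = (x.2 0) ^ 2 + (x.2 1) ^ 2 ∧
      x.2 0 * x.1.2 = 2 * (x.2 5) ^ 2 + (x.2 6) ^ 2 ∧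
      x.2 0 * x.2 7 = 2 * (x.2 3) ^ 2 + (x.2 4) ^ 2 ∧
      x.2 0 ≤ x.1.1 * x.2 7 ∧ x.1.1 * x.2 0 < x.1.2) :=
    (SF.eq ((hv 3).mul (hv 5)) ((h2 (hv 0)).add (h2 (hv 1)))).and
      ((SF.eq ((hv 0).mul hq) ((c2.mul (h2 (hv 5))).add (h2 (hv 6)))).and
        ((SF.eq ((hv 0).mul (hv 7)) ((c2.mul (h2 (hv 3))).add (h2 (hv 4)))).and
          ((SF.le (hv 0) (hp.mul (hv 7))).and (SF.lt (hp.mul (hv 0)) hq))))
  refine (hor.and hrest).congr fun x => ?_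
  unfold Wit
  tauto

open Classical in
/-- The function: `r (k + 2)` for the index `k` of `p`, zero for `p < 3`. -/
noncomputable def mfun (r : ℕ → ℕ) (p : ℕ) : ℕ :=
  if h : 3 ≤ p ∧ ∃ k, r (k + 1) ≤ p * r k ∧ p * r (k + 1) < r (k + 2) then r (h.2.choose + 2)
  else 0

theorem mfun_of_index {r w s c d a : ℕ → ℕ} (S : EllSeq r w s c d a) {p k : ℕ} (hp : 3 ≤ p)
    (h1 : r (k + 1) ≤ p * r k) (h2 : p * r (k + 1) < r (k + 2)) : mfun r p = r (k + 2) := by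
  have h : 3 ≤ p ∧ ∃ k, r (k + 1) ≤ p * r k ∧ p * r (k + 1) < r (k + 2) := ⟨hp, k, h1, h2⟩
  unfold mfun
  rw [dif_pos h, S.index_unique h.2.choose_spec.1 h.2.choose_spec.2 h1 h2]

theorem sfn_mfun {r w s c d a : ℕ → ℕ} (S : EllSeq r w s c d a) : SFn (mfun r) := by
  have h1 : SF (fun x : ℕ × ℕ => ∃ y : Fin 8 → ℕ,
      (fun z : (ℕ × ℕ) × (Fin 8 → ℕ) => 3 ≤ z.1.1 ∧
        Wit z.1.1 z.1.2 (z.2 0) (z.2 1) (z.2 2) (z.2 3) (z.2 4) (z.2 5) (z.2 6) (z.2 7))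
        (x, y)) := by
    refine SF.ex (R := fun z : (ℕ × ℕ) × (Fin 8 → ℕ) => 3 ≤ z.1.1 ∧
        Wit z.1.1 z.1.2 (z.2 0) (z.2 1) (z.2 2) (z.2 3) (z.2 4) (z.2 5) (z.2 6) (z.2 7)) ?_ ?_
    · exact (SF.le (SFn.const 3) (SFn.of_re (Re.fst.comp Re.fst))).and sf_wit
    · rintro ⟨p, q⟩ y y' ⟨hp, hy⟩ ⟨-, hy'⟩
      simp only at hp hy hy'
      rw [wit_iff S hp] at hy hy'
      obtain ⟨k, a1, a2, -, b0, b1, b2, b3, b4, b5, b6, b7⟩ := hy
      obtain ⟨k', a1', a2', -, c0, c1, c2, c3, c4, c5, c6, c7⟩ := hy'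
      have hk := S.index_unique a1 a2 a1' a2'
      subst hk
      funext i
      fin_cases i
      · exact b0.trans c0.symm
      · exact b1.trans c1.symm
      · exact b2.trans c2.symm
      · exact b3.trans c3.symm
      · exact b4.trans c4.symm
      · exact b5.trans c5.symm
      · exact b6.trans c6.symm
      · exact b7.trans c7.symm
  have h2 : SF (fun x : ℕ × ℕ => x.1 < 3 ∧ x.2 = 0) :=
    (SF.lt SFn.fst (SFn.const 3)).and (SF.eq SFn.snd (SFn.const 0))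
  refine (h1.or h2 ?_).congr fun x => ?_
  · rintro x ⟨y, hy, -⟩ ⟨hx, -⟩
    simp only at hy hx
    omega
  · obtain ⟨p, q⟩ := x
    simp only
    constructor
    · rintro (⟨y, hp, hy⟩ | ⟨hp, hq⟩)
      · rw [wit_iff S hp] at hy
        obtain ⟨k, a1, a2, a3, -⟩ := hy
        rw [mfun_of_index S hp a1 a2, a3]
      · rw [hq]
        unfold mfun
        rw [dif_neg]
        rintro ⟨h, -⟩
        omega
    · intro hq
      rcases Nat.lt_or_ge p 3 with hp | hp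
      · right
        refine ⟨hp, ?_⟩
        rw [hq]
        unfold mfun
        rw [dif_neg]
        rintro ⟨h, -⟩
        omega
      · left
        obtain ⟨k, a1, a2⟩ := S.index_exists hp
        refine ⟨![r (k + 1), w (k + 1), s (k + 1), d k, c k, d (k + 1), c (k + 1), r k], hp, ?_⟩
        rw [wit_iff S hp]
        exact ⟨k, a1, a2, hq.trans (mfun_of_index S hp a1 a2), rfl, rfl, rfl, rfl, rfl, rfl, rfl,
          rfl⟩

/-- The function of quasi-polynomial growth with single-fold graph, from the sequence. -/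
theorem exists_M_of_ellSeq (h : ∃ r w s c d a : ℕ → ℕ, EllSeq r w s c d a) :
    ∃ M : ℕ → ℕ, SFn M ∧ (∀ p m, 3 ≤ p → 3 * 15 ^ m ≤ p → 3 ^ (m ^ 2) ≤ M p) ∧
      (∀ p m, 3 ≤ p → p < 3 * 9 ^ m → M p ≤ p ^ (m + 4)) := by
  obtain ⟨r, w, s, c, d, a, S⟩ := h
  refine ⟨mfun r, sfn_mfun S, fun p m hp hm => ?_, fun p m hp hm => ?_⟩
  · obtain ⟨k, a1, a2⟩ := S.index_exists hp
    rw [mfun_of_index S hp a1 a2]
    exact S.growth_lower a1 a2 hm
  · obtain ⟨k, a1, a2⟩ := S.index_exists hp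
    rw [mfun_of_index S hp a1 a2]
    exact S.growth_upper hp a1 a2 hm

end Vale.Agent.P345
end

section

namespace Vale.Agent.P345

lemma natAbs_sq_cast (z : ℤ) : ((z.natAbs : ℕ) : ℚ) ^ 2 = (z : ℚ) ^ 2 := by
  rw [Nat.cast_natAbs, Int.cast_abs, sq_abs]

/-- a rational number whose square is an integer is an integer -/
lemma exists_nat_of_sq {q : ℚ} {n : ℤ} (h : q ^ 2 = n) : ∃ m : ℕ, (m : ℤ) ^ 2 = n := by
  have h1 : (q * q).den = 1 := by
    have : q * q = n := by rw [← sq]; exact h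
    rw [this]; exact Rat.den_intCast n
  rw [Rat.mul_self_den] at h1
  have h2 : q.den = 1 := Nat.eq_one_of_mul_eq_one_right h1
  have h3 : (q.num : ℚ) = q := by
    have := Rat.num_div_den q
    rw [h2] at this
    simpa using this
  refine ⟨q.num.natAbs, ?_⟩
  rw [Int.natAbs_sq]
  have : ((q.num ^ 2 : ℤ) : ℚ) = (n : ℚ) := by push_cast; rw [h3]; exact h
  exact_mod_cast this

lemma exists_AType {Q : EC.Point} {r w : ℕ} (hr : 1 ≤ r) (hw : 1 ≤ w) (hc : Nat.Coprime r w)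
    (h : HasX Q ((r : ℚ) ^ 2 / w ^ 2)) : ∃ s, AType r w s := by
  obtain ⟨y, hy, _⟩ := h
  have hr0 : (r : ℚ) ≠ 0 := by positivity
  have hw0 : (w : ℚ) ≠ 0 := by positivity
  have h1 : (y * w ^ 3 / r) ^ 2 = (((r : ℤ) ^ 4 - 2 * w ^ 4 : ℤ) : ℚ) := by
    push_cast
    rw [div_pow, mul_pow, hy]
    field_simp
  obtain ⟨s, hs⟩ := exists_nat_of_sq h1
  refine ⟨s, hc, ?_⟩
  have : (r : ℤ) ^ 4 = 2 * w ^ 4 + s ^ 2 := by rw [hs]; ring
  exact_mod_cast this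

lemma exists_BType {Q : EC.Point} {c d : ℕ} (hc1 : 1 ≤ c) (hd : 1 ≤ d) (hc : Nat.Coprime c d)
    (h : HasX Q (-((c : ℚ) ^ 2 / d ^ 2))) : ∃ a, BType c d a := by
  obtain ⟨y, hy, _⟩ := h
  have hc0 : (c : ℚ) ≠ 0 := by positivity
  have hd0 : (d : ℚ) ≠ 0 := by positivity
  have h1 : (y * d ^ 3 / c) ^ 2 = ((2 * (d : ℤ) ^ 4 - c ^ 4 : ℤ) : ℚ) := by
    push_cast
    rw [div_pow, mul_pow, hy]
    field_simp
    ring
  obtain ⟨a, ha⟩ := exists_nat_of_sq h1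
  refine ⟨a, hc, ?_⟩
  have : 2 * (d : ℤ) ^ 4 = c ^ 4 + a ^ 2 := by rw [ha]; ring
  exact_mod_cast this

lemma idA {r w s : ℚ} (hw : w ≠ 0) (hrw : r ^ 2 + w ^ 2 ≠ 0) (h : r ^ 4 = 2 * w ^ 4 + s ^ 2) :
    ((r * s / w ^ 3 - 1) / (r ^ 2 / w ^ 2 + 1)) ^ 2 - r ^ 2 / w ^ 2 + 1 =
      -((s + r * w) ^ 2 / (r ^ 2 + w ^ 2) ^ 2) := by
  have e1 : (r * s / w ^ 3 - 1) / (r ^ 2 / w ^ 2 + 1) = (r * s - w ^ 3) / (w * (r ^ 2 + w ^ 2)) := by
    have h2 : r ^ 2 / w ^ 2 + 1 = (r ^ 2 + w ^ 2) / w ^ 2 := by field_simp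
    rw [h2]
    field_simp
  rw [e1]
  field_simp
  linear_combination (-(r ^ 2 + w ^ 2)) * h

lemma idB {c d a : ℚ} (hd : d ≠ 0) (hcd : d ^ 2 - c ^ 2 ≠ 0) (h : 2 * d ^ 4 = c ^ 4 + a ^ 2) :
    ((c * a / d ^ 3 - 1) / (-(c ^ 2 / d ^ 2) + 1)) ^ 2 - -(c ^ 2 / d ^ 2) + 1 =
      (a - c * d) ^ 2 / (d ^ 2 - c ^ 2) ^ 2 := by
  have e1 : (c * a / d ^ 3 - 1) / (-(c ^ 2 / d ^ 2) + 1) =
      (c * a - d ^ 3) / (d * (d ^ 2 - c ^ 2)) := by
    have h2 : -(c ^ 2 / d ^ 2) + 1 = (d ^ 2 - c ^ 2) / d ^ 2 := by field_simp; ring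
    rw [h2]
    field_simp
  rw [e1]
  field_simp
  linear_combination (d ^ 2 - c ^ 2) * h

/-- the two neighbours of an even multiple -/
lemma stepA {Q : EC.Point} {r w s : ℕ} (h : AType r w s) (hw : 1 ≤ w)
    (hQ : HasX Q ((r : ℚ) ^ 2 / w ^ 2)) :
    ∃ c1 d1 c2 d2 : ℕ, 1 ≤ c1 ∧ 1 ≤ d1 ∧ 1 ≤ c2 ∧ 1 ≤ d2 ∧ Nat.Coprime c1 d1 ∧
      Nat.Coprime c2 d2 ∧ d1 * d2 = r ^ 2 + w ^ 2 ∧
      ((c2 * d1 = s + r * w ∧ c1 * d2 = ((s : ℤ) - r * w).natAbs) ∨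
        (c1 * d2 = s + r * w ∧ c2 * d1 = ((s : ℤ) - r * w).natAbs)) ∧
      HasX (Q - P0) (-((c1 : ℚ) ^ 2 / d1 ^ 2)) ∧ HasX (Q + P0) (-((c2 : ℚ) ^ 2 / d2 ^ 2)) := by
  obtain ⟨c1, d1, c2, d2, hc1, hd1, hc2, hd2, hcop1, hcop2, hdd, h2, h1⟩ := h.split hw
  obtain ⟨y, hy, rfl⟩ := hQ
  have hw0 : (w : ℚ) ≠ 0 := by positivity
  have hrw0 : (r : ℚ) ^ 2 + w ^ 2 ≠ 0 := by positivity
  have hA : (r : ℚ) ^ 4 = 2 * w ^ 4 + s ^ 2 := by exact_mod_cast h.2
  have hA' : (r : ℚ) ^ 4 = 2 * w ^ 4 + (-(s : ℚ)) ^ 2 := by rw [neg_sq]; exact hA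
  have hne : (r : ℚ) ^ 2 / w ^ 2 ≠ -1 := by
    have : (0 : ℚ) ≤ (r : ℚ) ^ 2 / w ^ 2 := by positivity
    linarith
  have hadd := hasX_add_P0 hy hne
  have hsub := hasX_sub_P0 hy hne
  have id1 := idA hw0 hrw0 hA
  have id2 := idA hw0 hrw0 hA'
  have hysq : y ^ 2 = ((r : ℚ) * s / w ^ 3) ^ 2 := by rw [hy, h.eqn hw]
  have hddq : (d1 : ℚ) * d2 = r ^ 2 + w ^ 2 := by exact_mod_cast hdd
  have h2q : (c2 : ℚ) * d1 = s + r * w := by exact_mod_cast h2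
  have h1q : ((c1 : ℚ) * d2) ^ 2 = ((s : ℚ) - r * w) ^ 2 := by
    have e1 := natAbs_sq_cast ((s : ℤ) - r * w)
    rw [← h1] at e1
    push_cast at e1
    exact e1
  have hd10 : (d1 : ℚ) ≠ 0 := by positivity
  have hd20 : (d2 : ℚ) ≠ 0 := by positivity
  have v2 : -(((s : ℚ) + r * w) ^ 2 / ((r : ℚ) ^ 2 + w ^ 2) ^ 2) = -((c2 : ℚ) ^ 2 / d2 ^ 2) := by
    rw [← hddq, ← h2q]; field_simp
  have v1 : -((-(s : ℚ) + r * w) ^ 2 / ((r : ℚ) ^ 2 + w ^ 2) ^ 2) = -((c1 : ℚ) ^ 2 / d1 ^ 2) := by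
    have e2 : (-(s : ℚ) + r * w) ^ 2 = ((c1 : ℚ) * d2) ^ 2 := by rw [h1q]; ring
    rw [← hddq, e2]; field_simp
  rcases sq_eq_sq_iff_eq_or_eq_neg.1 hysq with hy1 | hy1
  · refine ⟨c1, d1, c2, d2, hc1, hd1, hc2, hd2, hcop1, hcop2, hdd, Or.inl ⟨h2, h1⟩, ?_, ?_⟩
    · rw [← v1, ← id2]
      convert hsub using 2
      rw [hy1]
      have : (r : ℚ) * -s / w ^ 3 - 1 = -((r : ℚ) * s / w ^ 3 + 1) := by ring
      rw [this, neg_div, neg_sq]
    · rw [← v2, ← id1, ← hy1]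
      exact hadd
  · refine ⟨c2, d2, c1, d1, hc2, hd2, hc1, hd1, hcop2, hcop1, by rw [mul_comm]; exact hdd,
      Or.inr ⟨h2, h1⟩, ?_, ?_⟩
    · rw [← v2, ← id1]
      convert hsub using 2
      rw [hy1]
      have : (r : ℚ) * s / w ^ 3 - 1 = -(-((r : ℚ) * s / w ^ 3) + 1) := by ring
      rw [this, neg_div, neg_sq]
    · rw [← v1, ← id2]
      convert hadd using 2
      rw [hy1]
      have : (r : ℚ) * -s / w ^ 3 - 1 = -((r : ℚ) * s / w ^ 3) - 1 := by ring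
      rw [this]

/-- the two neighbours of an odd multiple -/
lemma stepB {Q : EC.Point} {c d a : ℕ} (h : BType c d a) (hcd : c ≠ d)
    (hQ : HasX Q (-((c : ℚ) ^ 2 / d ^ 2))) :
    ∃ r1 w1 r2 w2 : ℕ, 1 ≤ r1 ∧ 1 ≤ w1 ∧ 1 ≤ r2 ∧ 1 ≤ w2 ∧ Nat.Coprime r1 w1 ∧
      Nat.Coprime r2 w2 ∧ r1 * r2 = 2 * d ^ 2 + c ^ 2 ∧
      HasX (Q - P0) ((r1 : ℚ) ^ 2 / w1 ^ 2) ∧ HasX (Q + P0) ((r2 : ℚ) ^ 2 / w2 ^ 2) := by
  obtain ⟨r1, w1, r2, w2, hr1, hw1, hr2, hw2, hcop1, hcop2, hrr, h1, h2⟩ := h.split hcd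
  obtain ⟨y, hy, rfl⟩ := hQ
  have hd1 : 1 ≤ d := by have := h.parity.2.1; omega
  have hd0 : (d : ℚ) ≠ 0 := by positivity
  have hdc : (d : ℚ) ^ 2 - c ^ 2 ≠ 0 := by
    intro h0
    have h3 : (d : ℚ) ^ 2 = c ^ 2 := by linarith
    have h4 : d ^ 2 = c ^ 2 := by exact_mod_cast h3
    exact hcd (Nat.pow_left_injective (by norm_num : (2 : ℕ) ≠ 0) h4).symm
  have hB : 2 * (d : ℚ) ^ 4 = c ^ 4 + a ^ 2 := by exact_mod_cast h.2
  have hB' : 2 * (d : ℚ) ^ 4 = c ^ 4 + (-(a : ℚ)) ^ 2 := by rw [neg_sq]; exact hB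
  have hne : -((c : ℚ) ^ 2 / d ^ 2) ≠ -1 := by
    intro h0
    have h3 : (c : ℚ) ^ 2 / d ^ 2 = 1 := by linarith
    rw [div_eq_one_iff_eq (by positivity)] at h3
    apply hdc; linarith
  have hadd := hasX_add_P0 hy hne
  have hsub := hasX_sub_P0 hy hne
  have id1 := idB hd0 hdc hB
  have id2 := idB hd0 hdc hB'
  have hysq : y ^ 2 = ((c : ℚ) * a / d ^ 3) ^ 2 := by rw [hy, h.eqn hd1]
  have hw10 : (w1 : ℚ) ≠ 0 := by positivity
  have hw20 : (w2 : ℚ) ≠ 0 := by positivity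
  -- squares of the fractions
  have q1 : ((r1 : ℚ) ^ 2) * ((d : ℚ) ^ 2 - c ^ 2) ^ 2 = (w1 : ℚ) ^ 2 * (a + c * d) ^ 2 := by
    have e1 := natAbs_sq_cast ((d : ℤ) ^ 2 - c ^ 2)
    have e2 : ((r1 : ℚ) * (((d : ℤ) ^ 2 - c ^ 2).natAbs : ℕ)) = w1 * (a + c * d) := by
      exact_mod_cast h1
    have e3 : (((d : ℤ) ^ 2 - c ^ 2 : ℤ) : ℚ) = (d : ℚ) ^ 2 - c ^ 2 := by push_cast; ring
    rw [e3] at e1
    rw [← e1, ← mul_pow, e2, mul_pow]
  have q2 : ((r2 : ℚ) ^ 2) * ((d : ℚ) ^ 2 - c ^ 2) ^ 2 = (w2 : ℚ) ^ 2 * (a - c * d) ^ 2 := by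
    have e1 := natAbs_sq_cast ((d : ℤ) ^ 2 - c ^ 2)
    have e4 := natAbs_sq_cast ((a : ℤ) - c * d)
    have e2 : ((r2 : ℚ) * (((d : ℤ) ^ 2 - c ^ 2).natAbs : ℕ)) =
        w2 * (((a : ℤ) - c * d).natAbs : ℕ) := by
      exact_mod_cast h2
    have e3 : (((d : ℤ) ^ 2 - c ^ 2 : ℤ) : ℚ) = (d : ℚ) ^ 2 - c ^ 2 := by push_cast; ring
    have e5 : (((a : ℤ) - c * d : ℤ) : ℚ) = (a : ℚ) - c * d := by push_cast; ring
    rw [e3] at e1
    rw [e5] at e4
    rw [← e1, ← mul_pow, e2, mul_pow, e4]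
  have v1 : (-(a : ℚ) - c * d) ^ 2 / ((d : ℚ) ^ 2 - c ^ 2) ^ 2 = (r1 : ℚ) ^ 2 / w1 ^ 2 := by
    rw [div_eq_div_iff (pow_ne_zero _ hdc) (pow_ne_zero _ hw10)]
    linear_combination -q1
  have v2 : ((a : ℚ) - c * d) ^ 2 / ((d : ℚ) ^ 2 - c ^ 2) ^ 2 = (r2 : ℚ) ^ 2 / w2 ^ 2 := by
    rw [div_eq_div_iff (pow_ne_zero _ hdc) (pow_ne_zero _ hw20)]
    linear_combination -q2
  rcases sq_eq_sq_iff_eq_or_eq_neg.1 hysq with hy1 | hy1
  · refine ⟨r1, w1, r2, w2, hr1, hw1, hr2, hw2, hcop1, hcop2, hrr, ?_, ?_⟩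
    · rw [← v1, ← id2]
      convert hsub using 2
      rw [hy1]
      have : (c : ℚ) * -a / d ^ 3 - 1 = -((c : ℚ) * a / d ^ 3 + 1) := by ring
      rw [this, neg_div, neg_sq]
    · rw [← v2, ← id1, ← hy1]
      exact hadd
  · refine ⟨r2, w2, r1, w1, hr2, hw2, hr1, hw1, hcop2, hcop1, by rw [mul_comm]; exact hrr, ?_, ?_⟩
    · rw [← v2, ← id1]
      convert hsub using 2
      rw [hy1]
      have : (c : ℚ) * a / d ^ 3 - 1 = -(-((c : ℚ) * a / d ^ 3) + 1) := by ring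
      rw [this, neg_div, neg_sq]
    · rw [← v1, ← id2]
      convert hadd using 2
      rw [hy1]
      have : (c : ℚ) * -a / d ^ 3 - 1 = -((c : ℚ) * a / d ^ 3) - 1 := by ring
      rw [this]

end Vale.Agent.P345
end

section

/-! Completeness: every coprime solution of `r^4 = 2 w^4 + s^2` with `w > 0` is the `x`-coordinate
of an even multiple of `P0 = (-1, 1)` on `y^2 = x^3 - 2x` (two-descent, strong induction). -/

namespace Vale.Agent.P345

theorem pt_eq_or {x y y' : ℚ} (h : y ^ 2 = x ^ 3 - 2 * x) (h' : y' ^ 2 = x ^ 3 - 2 * x) :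
    pt x y h = pt x y' h' ∨ pt x y h = -pt x y' h' :=
  HasX.eq_or_neg ⟨y, h, rfl⟩ ⟨y', h', rfl⟩

theorem ecSplit_aux {X Y z j : ℕ} (hco : Nat.Coprime X Y) (h : X * Y = 2 ^ j * z ^ 4)
    (hY : Nat.Coprime 2 Y) : ∃ e o : ℕ, z = e * o ∧ X = 2 ^ j * e ^ 4 ∧ Y = o ^ 4 := by
  have hd : 2 ^ j ∣ X := by
    have h1 : 2 ^ j ∣ X * Y := ⟨_, h⟩
    exact (Nat.Coprime.pow_left j hY).dvd_of_dvd_mul_right h1
  obtain ⟨X', rfl⟩ := hd
  have h2 : X' * Y = z ^ 4 := by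
    have h3 : 2 ^ j * (X' * Y) = 2 ^ j * z ^ 4 := by rw [← h]; ring
    exact Nat.eq_of_mul_eq_mul_left (by positivity) h3
  have hco' : Nat.Coprime X' Y := Nat.Coprime.coprime_dvd_left (Dvd.intro_left _ rfl) hco
  obtain ⟨e, he⟩ := exists_eq_pow_of_mul_eq_pow (a := X') (b := Y) (c := z) (k := 4)
    (by rw [show gcd X' Y = 1 from hco']; exact isUnit_one) h2
  obtain ⟨o, ho⟩ := exists_eq_pow_of_mul_eq_pow (a := Y) (b := X') (c := z) (k := 4)
    (by rw [show gcd Y X' = 1 from hco'.symm]; exact isUnit_one) (by rw [mul_comm]; exact h2)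
  refine ⟨e, o, ?_, by rw [he], ho⟩
  have : z ^ 4 = (e * o) ^ 4 := by rw [← h2, he, ho]; ring
  exact Nat.pow_left_injective (by norm_num : (4 : ℕ) ≠ 0) this

theorem ecSplit {X Y z : ℕ} (j : ℕ) (hco : Nat.Coprime X Y) (h : X * Y = 2 ^ j * z ^ 4) :
    ∃ e o : ℕ, z = e * o ∧ ((X = 2 ^ j * e ^ 4 ∧ Y = o ^ 4) ∨ (X = o ^ 4 ∧ Y = 2 ^ j * e ^ 4)) := by
  by_cases hY : Nat.Coprime 2 Y
  · obtain ⟨e, o, h1, h2, h3⟩ := ecSplit_aux hco h hY
    exact ⟨e, o, h1, Or.inl ⟨h2, h3⟩⟩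
  · have hY2 : 2 ∣ Y := by
      by_contra hn
      exact hY ((Nat.Prime.coprime_iff_not_dvd Nat.prime_two).mpr hn)
    have hX : Nat.Coprime 2 X := Nat.Coprime.coprime_dvd_left hY2 hco.symm
    obtain ⟨e, o, h1, h2, h3⟩ := ecSplit_aux hco.symm (by rw [mul_comm]; exact h) hX
    exact ⟨e, o, h1, Or.inr ⟨h3, h2⟩⟩

/-- Two-descent for `r^4 = 2 w^4 + s^2`. -/
theorem a_descent {r w s : ℕ} (hc : Nat.Coprime r w) (h : r ^ 4 = 2 * w ^ 4 + s ^ 2) :
    ∃ a c d : ℕ, Nat.Coprime c d ∧ r = c ^ 4 + 2 * d ^ 4 ∧ w = 2 * a * c * d ∧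
      (c ^ 4 = 2 * d ^ 4 + a ^ 2 ∨ 2 * d ^ 4 = c ^ 4 + a ^ 2) := by
  have hr : r % 2 = 1 := by
    by_contra hr
    have hr0 : r % 2 = 0 := by omega
    have hw1 : w % 2 = 1 := by
      by_contra hw
      have : 2 ∣ Nat.gcd r w := Nat.dvd_gcd (by omega) (by omega)
      rw [Nat.Coprime] at hc
      omega
    obtain ⟨r', rfl⟩ : ∃ r', r = 2 * r' := ⟨r / 2, by omega⟩
    obtain ⟨w', rfl⟩ : ∃ w', w = 2 * w' + 1 := ⟨w / 2, by omega⟩
    have h2 : s ^ 2 % 4 = 0 ∨ s ^ 2 % 4 = 1 := by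
      rcases Nat.even_or_odd' s with ⟨k, rfl | rfl⟩
      · left; ring_nf; omega
      · right; ring_nf; omega
    have h3 : (2 * r') ^ 4 = 4 * (4 * r' ^ 4) := by ring
    have h4 : (2 * w' + 1) ^ 4 = 4 * (4 * w' ^ 4 + 8 * w' ^ 3 + 6 * w' ^ 2 + 2 * w') + 1 := by ring
    rw [h3, h4] at h
    omega
  have hs : s % 2 = 1 := by
    by_contra hs
    obtain ⟨s', rfl⟩ : ∃ s', s = 2 * s' := ⟨s / 2, by omega⟩
    obtain ⟨r', rfl⟩ : ∃ r', r = 2 * r' + 1 := ⟨r / 2, by omega⟩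
    have h4 : (2 * r' + 1) ^ 4 = 4 * (4 * r' ^ 4 + 8 * r' ^ 3 + 6 * r' ^ 2 + 2 * r') + 1 := by ring
    have h3 : (2 * s') ^ 2 = 2 * (2 * s' ^ 2) := by ring
    rw [h3, h4] at h
    omega
  have hrs : Nat.Coprime r s := by
    refine Nat.coprime_of_dvd fun k hk hkr hks ↦ ?_
    have h1 : k ∣ 2 * w ^ 4 := by
      have h2 : k ∣ 2 * w ^ 4 + s ^ 2 := by rw [← h]; exact Dvd.dvd.pow hkr (by norm_num)
      exact (Nat.dvd_add_left (Dvd.dvd.pow hks (by norm_num))).mp h2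
    rcases (Nat.Prime.dvd_mul hk).mp h1 with h2 | h2
    · have : k = 2 := (Nat.prime_dvd_prime_iff_eq hk Nat.prime_two).mp h2
      subst this; omega
    · have h3 : k ∣ w := hk.dvd_of_dvd_pow h2
      exact Nat.Prime.not_coprime_iff_dvd.mpr ⟨k, hk, hkr, h3⟩ hc
  have hsr : s ≤ r ^ 2 := by
    have : s ^ 2 ≤ (r ^ 2) ^ 2 := by
      have h5 : (r ^ 2) ^ 2 = r ^ 4 := by ring
      omega
    exact (Nat.pow_le_pow_iff_left (by norm_num)).mp this
  have hr2 : r ^ 2 % 2 = 1 := by rw [Nat.pow_mod, hr]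
  obtain ⟨X, hX⟩ : ∃ X, r ^ 2 + s = 2 * X := ⟨(r ^ 2 + s) / 2, by omega⟩
  obtain ⟨Y, hY⟩ : ∃ Y, r ^ 2 = 2 * Y + s := ⟨(r ^ 2 - s) / 2, by omega⟩
  have hXY : X + Y = r ^ 2 := by omega
  have hXYs : X = Y + s := by omega
  have hco : Nat.Coprime X Y := by
    refine Nat.coprime_of_dvd fun k hk hkX hkY ↦ ?_
    have h1 : k ∣ r ^ 2 := by rw [← hXY]; exact dvd_add hkX hkY
    have h2 : k ∣ s := by
      rw [hXYs] at hkX
      exact (Nat.dvd_add_right hkY).mp hkX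
    exact Nat.Prime.not_coprime_iff_dvd.mpr ⟨k, hk, hk.dvd_of_dvd_pow h1, h2⟩ hrs
  have hprod : 2 * (X * Y) = w ^ 4 := by
    have h1 : r ^ 4 = (X + Y) ^ 2 := by rw [hXY]; ring
    have h2 : (X + Y) ^ 2 = 4 * (X * Y) + s ^ 2 := by rw [hXYs]; ring
    omega
  have hw0 : w % 2 = 0 := by
    by_contra hw
    obtain ⟨w', rfl⟩ : ∃ w', w = 2 * w' + 1 := ⟨w / 2, by omega⟩
    have h4 : (2 * w' + 1) ^ 4 = 2 * (8 * w' ^ 4 + 16 * w' ^ 3 + 12 * w' ^ 2 + 4 * w') + 1 := by ring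
    omega
  obtain ⟨w', rfl⟩ : ∃ w', w = 2 * w' := ⟨w / 2, by omega⟩
  have hprod' : X * Y = 2 ^ 3 * w' ^ 4 := by
    have : (2 * w') ^ 4 = 2 * (2 ^ 3 * w' ^ 4) := by ring
    omega
  obtain ⟨e, o, hw', hcase⟩ := ecSplit 3 hco hprod'
  have hr8 : r ^ 2 = o ^ 4 + 8 * e ^ 4 := by
    rcases hcase with ⟨h1, h2⟩ | ⟨h1, h2⟩ <;> rw [← hXY, h1, h2] <;> ring
  have hoo : o % 2 = 1 := by
    by_contra ho
    obtain ⟨o', rfl⟩ : ∃ o', o = 2 * o' := ⟨o / 2, by omega⟩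
    have : (2 * o') ^ 4 = 2 * (8 * o' ^ 4) := by ring
    omega
  have hor : o ^ 2 ≤ r := by
    have : (o ^ 2) ^ 2 ≤ r ^ 2 := by
      have h5 : (o ^ 2) ^ 2 = o ^ 4 := by ring
      omega
    exact (Nat.pow_le_pow_iff_left (by norm_num)).mp this
  have ho2 : o ^ 2 % 2 = 1 := by rw [Nat.pow_mod, hoo]
  obtain ⟨X₂, hX₂⟩ : ∃ X, r + o ^ 2 = 2 * X := ⟨(r + o ^ 2) / 2, by omega⟩
  obtain ⟨Y₂, hY₂⟩ : ∃ Y, r = 2 * Y + o ^ 2 := ⟨(r - o ^ 2) / 2, by omega⟩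
  have hXY₂ : X₂ + Y₂ = r := by omega
  have hXYo : X₂ = Y₂ + o ^ 2 := by omega
  have hro : Nat.Coprime r o := by
    refine Nat.Coprime.coprime_dvd_right ?_ hc
    rw [hw']; exact ⟨2 * e, by ring⟩
  have hco₂ : Nat.Coprime X₂ Y₂ := by
    refine Nat.coprime_of_dvd fun k hk hkX hkY ↦ ?_
    have h1 : k ∣ r := by rw [← hXY₂]; exact dvd_add hkX hkY
    have h2 : k ∣ o ^ 2 := by
      rw [hXYo] at hkX
      exact (Nat.dvd_add_right hkY).mp hkX
    exact Nat.Prime.not_coprime_iff_dvd.mpr ⟨k, hk, h1, hk.dvd_of_dvd_pow h2⟩ hro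
  have hprod₂ : X₂ * Y₂ = 2 ^ 1 * e ^ 4 := by
    have h1 : r ^ 2 = 4 * (X₂ * Y₂) + o ^ 4 := by rw [← hXY₂, hXYo]; ring
    omega
  obtain ⟨d, c, he, hcase₂⟩ := ecSplit 1 hco₂ hprod₂
  refine ⟨o, c, d, ?_, ?_, ?_, ?_⟩
  · rcases hcase₂ with ⟨h1, h2⟩ | ⟨h1, h2⟩
    · rw [h1, h2] at hco₂
      have h3 := Nat.Coprime.coprime_dvd_left (Dvd.intro_left _ rfl : d ^ 4 ∣ 2 ^ 1 * d ^ 4) hco₂
      exact (Nat.coprime_pow_left_iff (by norm_num) _ _).mp
        ((Nat.coprime_pow_right_iff (by norm_num) _ _).mp h3.symm)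
    · rw [h1, h2] at hco₂
      have h3 := Nat.Coprime.coprime_dvd_right (Dvd.intro_left _ rfl : d ^ 4 ∣ 2 ^ 1 * d ^ 4) hco₂
      exact (Nat.coprime_pow_left_iff (by norm_num) _ _).mp
        ((Nat.coprime_pow_right_iff (by norm_num) _ _).mp h3)
  · rcases hcase₂ with ⟨h1, h2⟩ | ⟨h1, h2⟩ <;> rw [← hXY₂, h1, h2] <;> ring
  · rw [hw', he]; ring
  · rcases hcase₂ with ⟨h1, h2⟩ | ⟨h1, h2⟩
    · right; rw [h1, h2] at hXYo; omega
    · left; rw [h1, h2] at hXYo; omega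

theorem even_of_dbl {x y x' y' : ℚ} (h : y ^ 2 = x ^ 3 - 2 * x) (h' : y' ^ 2 = x' ^ 3 - 2 * x')
    (hy' : y' ≠ 0) (hx : x * (4 * y' ^ 2) = (x' ^ 2 + 2) ^ 2) {k : ℤ} (hk : pt x' y' h' = k • P0) :
    ∃ k : ℤ, pt x y h = (2 * k) • P0 := by
  obtain ⟨Y, h'', e⟩ := hasX_double h' hy'
  obtain ⟨X, hX⟩ : ∃ X, X = ((x' ^ 2 + 2) / (2 * y')) ^ 2 := ⟨_, rfl⟩
  rw [← hX] at h''
  replace e : pt x' y' h' + pt x' y' h' = pt X Y h'' := e.trans (pt_congr hX.symm rfl)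
  have hXx : X = x := by
    have h1 : X * (4 * y' ^ 2) = (x' ^ 2 + 2) ^ 2 := by
      rw [hX]
      field_simp
      ring
    have h2 : (4 * y' ^ 2) ≠ 0 := by positivity
    exact mul_right_cancel₀ h2 (h1.trans hx.symm)
  subst hXx
  rcases pt_eq_or h h'' with h1 | h1
  · refine ⟨k, ?_⟩
    rw [h1, ← e, hk, ← add_zsmul]; congr 1; ring
  · refine ⟨-k, ?_⟩
    rw [h1, ← e, hk, ← add_zsmul, ← neg_zsmul]; congr 1; ring

theorem sq_of_point {r w : ℕ} (hr : 0 < r) (hw : 0 < w) {X Y : ℚ} (h : Y ^ 2 = X ^ 3 - 2 * X)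
    (hX : X = (r : ℚ) ^ 2 / (w : ℚ) ^ 2) : ∃ s : ℕ, r ^ 4 = 2 * w ^ 4 + s ^ 2 := by
  have hr' : (r : ℚ) ≠ 0 := by positivity
  have hw' : (w : ℚ) ≠ 0 := by positivity
  have h1 : (((r : ℤ) ^ 4 - 2 * (w : ℤ) ^ 4 : ℤ) : ℚ) = (Y * w ^ 3 / r) * (Y * w ^ 3 / r) := by
    push_cast
    field_simp
    rw [h, hX]
    field_simp
  have h2 : IsSquare (((r : ℤ) ^ 4 - 2 * (w : ℤ) ^ 4 : ℤ) : ℚ) := ⟨_, h1⟩
  rw [Rat.isSquare_intCast_iff] at h2
  obtain ⟨t, ht⟩ := h2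
  refine ⟨t.natAbs, ?_⟩
  have h3 : ((r ^ 4 : ℕ) : ℤ) = ((2 * w ^ 4 + t.natAbs ^ 2 : ℕ) : ℤ) := by
    push_cast
    rw [sq_abs]
    linarith
  exact_mod_cast h3

theorem complete_aux (r : ℕ) : ∀ w s : ℕ, Nat.Coprime r w → 0 < w → r ^ 4 = 2 * w ^ 4 + s ^ 2 →
    ∀ (x y : ℚ) (h : y ^ 2 = x ^ 3 - 2 * x), x = (r : ℚ) ^ 2 / (w : ℚ) ^ 2 →
      ∃ k : ℤ, pt x y h = (2 * k) • P0 := by
  induction r using Nat.strong_induction_on with
  | _ r IH =>
  intro w s hc hw hrws x y h hx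
  obtain ⟨a, c, d, hcd, hr, hwe, hcase⟩ := a_descent hc hrws
  have ha : 0 < a := Nat.pos_of_ne_zero (by rintro rfl; simp at hwe; omega)
  have hc0 : 0 < c := Nat.pos_of_ne_zero (by rintro rfl; simp at hwe; omega)
  have hd : 0 < d := Nat.pos_of_ne_zero (by rintro rfl; simp at hwe; omega)
  have hcr : c < r := by
    have h1 : c ≤ c ^ 4 := Nat.le_self_pow (by norm_num) c
    have h2 : 0 < d ^ 4 := by positivity
    omega
  have haq : (a : ℚ) ≠ 0 := by positivity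
  have hcq : (c : ℚ) ≠ 0 := by positivity
  have hdq : (d : ℚ) ≠ 0 := by positivity
  have hy' : (c : ℚ) * a / d ^ 3 ≠ 0 := by positivity
  rcases hcase with hA | hB
  · have hAq : (c : ℚ) ^ 4 = 2 * d ^ 4 + a ^ 2 := by exact_mod_cast hA
    have hR : ((c : ℚ) * a / d ^ 3) ^ 2 = ((c : ℚ) ^ 2 / d ^ 2) ^ 3 - 2 * ((c : ℚ) ^ 2 / d ^ 2) := by
      field_simp
      linear_combination -hAq
    obtain ⟨k, hk⟩ := IH c hcr d a hcd hd hA _ _ hR rfl
    refine even_of_dbl h hR hy' ?_ hk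
    rw [hx, hr, hwe]
    push_cast
    field_simp
    ring
  · have hBq : 2 * (d : ℚ) ^ 4 = c ^ 4 + a ^ 2 := by exact_mod_cast hB
    have hR : ((c : ℚ) * a / d ^ 3) ^ 2 =
        (-((c : ℚ) ^ 2 / d ^ 2)) ^ 3 - 2 * (-((c : ℚ) ^ 2 / d ^ 2)) := by
      field_simp
      linear_combination -hBq
    have hxR : x * (4 * ((c : ℚ) * a / d ^ 3) ^ 2) = ((-((c : ℚ) ^ 2 / d ^ 2)) ^ 2 + 2) ^ 2 := by
      rw [hx, hr, hwe]
      push_cast
      field_simp
      ring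
    by_cases hcd1 : c = d
    · subst hcd1
      have hc1 : c = 1 := by simpa using hcd
      subst hc1
      have ha1 : a = 1 := by
        have : a ^ 2 = 1 := by omega
        exact (Nat.pow_eq_one.mp this).resolve_right (by norm_num)
      subst ha1
      refine even_of_dbl (k := 1) h hR hy' hxR ?_
      rw [one_zsmul]
      exact pt_congr (by norm_num) (by norm_num)
    · have hne : ((d : ℚ) ^ 2 - c ^ 2) ≠ 0 := by
        intro h0
        have h1 : (d : ℚ) ^ 2 = (c : ℚ) ^ 2 := by linarith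
        have h2 : d ^ 2 = c ^ 2 := by exact_mod_cast h1
        exact hcd1 (Nat.pow_left_injective (by norm_num : (2 : ℕ) ≠ 0) h2).symm
      have hxne : (-((c : ℚ) ^ 2 / d ^ 2)) ≠ -1 := by
        intro h0
        apply hne
        field_simp at h0
        linarith
      obtain ⟨Y, h', e⟩ := hasX_add_P0 hR hxne
      obtain ⟨X, hX⟩ : ∃ X, X = (((c : ℚ) * a / d ^ 3 - 1) / (-((c : ℚ) ^ 2 / d ^ 2) + 1)) ^ 2 -
        -((c : ℚ) ^ 2 / d ^ 2) + 1 := ⟨_, rfl⟩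
      rw [← hX] at h'
      replace e : pt _ _ hR + P0 = pt X Y h' := e.trans (pt_congr hX.symm rfl)
      have hX' : X = ((a - c * d) / (d ^ 2 - c ^ 2)) ^ 2 := by
        rw [hX]
        have h3 : (-((c : ℚ) ^ 2 / d ^ 2)) + 1 = (d ^ 2 - c ^ 2) / d ^ 2 := by
          field_simp
          ring
        rw [h3]
        field_simp
        linear_combination ((d : ℚ) ^ 2 - c ^ 2) * hBq
      obtain ⟨m, hm⟩ : ∃ m : ℕ, m = ((a : ℤ) - c * d).natAbs := ⟨_, rfl⟩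
      obtain ⟨n, hn⟩ : ∃ n : ℕ, n = ((d : ℤ) ^ 2 - c ^ 2).natAbs := ⟨_, rfl⟩
      have hmq : (m : ℚ) ^ 2 = (a - c * d) ^ 2 := by
        have h4 : ((m : ℤ)) ^ 2 = (a - c * d) ^ 2 := by rw [hm, Int.natCast_natAbs, sq_abs]
        exact_mod_cast h4
      have hnq : (n : ℚ) ^ 2 = (d ^ 2 - c ^ 2) ^ 2 := by
        have h4 : ((n : ℤ)) ^ 2 = (d ^ 2 - c ^ 2) ^ 2 := by rw [hn, Int.natCast_natAbs, sq_abs]
        exact_mod_cast h4
      have hn0 : 0 < n := by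
        refine Nat.pos_of_ne_zero fun h0 ↦ hne ?_
        rw [h0] at hnq
        have : ((d : ℚ) ^ 2 - c ^ 2) ^ 2 = 0 := by rw [← hnq]; norm_num
        exact pow_eq_zero_iff (by norm_num) |>.mp this
      have hm0 : 0 < m := by
        refine Nat.pos_of_ne_zero fun h0 ↦ hne ?_
        rw [h0] at hmq
        have h5 : ((a : ℚ) - c * d) ^ 2 = 0 := by rw [← hmq]; norm_num
        have h6 : (a : ℚ) - c * d = 0 := pow_eq_zero_iff (by norm_num) |>.mp h5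
        have h7 : ((d : ℚ) ^ 2 - c ^ 2) * (2 * d ^ 2 + c ^ 2) = 0 := by
          have h8 : (a : ℚ) = c * d := by linarith
          rw [h8] at hBq
          linear_combination hBq
        rcases mul_eq_zero.mp h7 with h8 | h8
        · exact h8
        · exfalso
          have : (0 : ℚ) < 2 * d ^ 2 + c ^ 2 := by positivity
          exact this.ne' h8
      have hXmn : X = (m : ℚ) ^ 2 / (n : ℚ) ^ 2 := by rw [hX', div_pow, hmq, hnq]
      obtain ⟨g, r', w', hg, hco, hmg, hng⟩ := Nat.exists_coprime' (m := m) (n := n)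
        (Nat.gcd_pos_of_pos_left n hm0)
      have hr'0 : 0 < r' := Nat.pos_of_ne_zero (by rintro rfl; simp at hmg; omega)
      have hw'0 : 0 < w' := Nat.pos_of_ne_zero (by rintro rfl; simp at hng; omega)
      have hXrw : X = (r' : ℚ) ^ 2 / (w' : ℚ) ^ 2 := by
        rw [hXmn, hmg, hng]
        have hgq : (g : ℚ) ≠ 0 := by positivity
        have hwq : (w' : ℚ) ≠ 0 := by positivity
        push_cast
        field_simp
      obtain ⟨s', hs'⟩ := sq_of_point hr'0 hw'0 h' hXrw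
      have hlt : r' < r := by
        have h8 : r' ≤ m := by rw [hmg]; exact Nat.le_mul_of_pos_right _ hg
        have h9 : m < r := by
          have h10 : m ≤ max a (c * d) := by
            rw [hm]
            omega
          have h11 : a < r := by
            by_contra hcon
            have h12 : r ≤ a := by omega
            have h13 : r ^ 2 ≤ a ^ 2 := Nat.pow_le_pow_left h12 2
            rw [hr] at h13
            have h14 : 0 < c ^ 4 := by positivity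
            rw [← hr] at h13
            have h15 : r ≤ r ^ 2 := Nat.le_self_pow (by norm_num) r
            omega
          have h12 : c * d < r := by
            rw [hr]
            have h13 : c ^ 2 ≤ c ^ 4 := Nat.pow_le_pow_right hc0 (by norm_num)
            have h14 : d ^ 2 ≤ d ^ 4 := Nat.pow_le_pow_right hd (by norm_num)
            have h15 : 0 < d ^ 4 := by positivity
            have h16 : 2 * c * d ≤ c ^ 2 + d ^ 2 := two_mul_le_add_sq c d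
            rw [mul_assoc] at h16
            omega
          omega
        omega
      obtain ⟨k, hk⟩ := IH r' hlt w' s' hco hw'0 hs' X Y h' hXrw
      refine even_of_dbl (k := 2 * k - 1) h hR hy' hxR ?_
      have h20 : pt _ _ hR + P0 = (2 * k) • P0 := e.trans hk
      rw [sub_zsmul, one_zsmul, ← h20]
      abel

theorem complete_even {r w s : ℕ} (h : AType r w s) (hw : 1 ≤ w) :
    ∃ n : ℕ, 1 ≤ n ∧ HasX ((2 * n) • P0) ((r : ℚ) ^ 2 / w ^ 2) := by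
  obtain ⟨k, hk⟩ := complete_aux r w s h.1 hw h.2 _ _ (h.eqn hw) rfl
  rcases lt_trichotomy k 0 with hk0 | hk0 | hk0
  · refine ⟨(-k).toNat, by omega, ?_⟩
    have h1 : ((2 * (-k).toNat : ℕ) : ℤ) = -(2 * k) := by omega
    rw [← natCast_zsmul, h1, neg_zsmul, ← hk]
    exact HasX.neg ⟨_, _, rfl⟩
  · exfalso
    subst hk0
    have : HasX (0 : EC.Point) ((r : ℚ) ^ 2 / w ^ 2) := ⟨_, h.eqn hw, by rw [hk]; simp⟩
    exact this.ne_zero rfl
  · refine ⟨k.toNat, by omega, ?_⟩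
    have h1 : ((2 * k.toNat : ℕ) : ℤ) = 2 * k := by omega
    rw [← natCast_zsmul, h1, ← hk]
    exact ⟨_, _, rfl⟩

theorem complete {r w s : ℕ} (h : AType r w s) (hw : 1 ≤ w) :
    ∃ n : ℕ, 1 ≤ n ∧ HasX (n • P0) ((r : ℚ) ^ 2 / w ^ 2) := by
  obtain ⟨n, hn, hx⟩ := complete_even h hw
  exact ⟨2 * n, by omega, hx⟩

end Vale.Agent.P345
end
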