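import Vale.Agent.P345.Bdl.B2
import Vale.Agent.P345.Bdl.B1

section

namespace Vale.Agent.P345

/-- coprime representatives of a ratio are unique -/
lemma ratio_unique {r w r' w' : ℕ} (_hr : 1 ≤ r) (hr' : 1 ≤ r') (hw : 1 ≤ w) (hw' : 1 ≤ w')
    (hc : Nat.Coprime r w) (hc' : Nat.Coprime r' w')
    (h : (r : ℚ) ^ 2 / w ^ 2 = (r' : ℚ) ^ 2 / w' ^ 2) : r = r' ∧ w = w' := by
  have hw0 : (w : ℚ) ≠ 0 := by positivity
  have hw0' : (w' : ℚ) ≠ 0 := by positivity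
  rw [div_eq_div_iff (by positivity) (by positivity)] at h
  have h1 : (r * w') ^ 2 = (r' * w) ^ 2 := by
    have : ((r : ℚ) * w') ^ 2 = (r' * w) ^ 2 := by rw [mul_pow, mul_pow]; exact h
    exact_mod_cast this
  have h2 : r * w' = r' * w := Nat.pow_left_injective (n := 2) (by norm_num) h1
  have h3 : r ∣ r' := hc.dvd_of_dvd_mul_right (Dvd.intro _ h2)
  have h4 : r' ∣ r := hc'.dvd_of_dvd_mul_right (Dvd.intro _ h2.symm)
  have h5 : r = r' := Nat.dvd_antisymm h3 h4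
  refine ⟨h5, ?_⟩
  rw [h5] at h2
  exact (Nat.eq_of_mul_eq_mul_left hr' h2).symm

/-- representation of the even multiples -/
def RepA (k r w : ℕ) : Prop := Nat.Coprime r w ∧ 1 ≤ r ∧
  ((k = 0 ∧ r = 1 ∧ w = 0) ∨ (1 ≤ k ∧ 1 ≤ w ∧ HasX ((2 * k) • P0) ((r : ℚ) ^ 2 / w ^ 2)))

/-- representation of the odd multiples -/
def RepB (k c d : ℕ) : Prop := Nat.Coprime c d ∧ 1 ≤ c ∧ 1 ≤ d ∧
  HasX ((2 * k + 1) • P0) (-((c : ℚ) ^ 2 / d ^ 2))

lemma RepA.unique {k r w r' w' : ℕ} (h : RepA k r w) (h' : RepA k r' w') : r = r' ∧ w = w' := by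
  obtain ⟨hc, hr, h⟩ := h
  obtain ⟨hc', hr', h'⟩ := h'
  rcases h with ⟨hk, h1, h2⟩ | ⟨hk, hw, hx⟩
  · rcases h' with ⟨_, h3, h4⟩ | ⟨hk', _, _⟩
    · exact ⟨h1.trans h3.symm, h2.trans h4.symm⟩
    · omega
  · rcases h' with ⟨hk', _, _⟩ | ⟨_, hw', hx'⟩
    · omega
    · exact ratio_unique hr hr' hw hw' hc hc' (hx.unique hx')

lemma RepB.unique {k c d c' d' : ℕ} (h : RepB k c d) (h' : RepB k c' d') : c = c' ∧ d = d' := by
  obtain ⟨hc, h1, h2, hx⟩ := h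
  obtain ⟨hc', h1', h2', hx'⟩ := h'
  exact ratio_unique h1 h1' h2 h2' hc hc' (neg_injective (hx.unique hx'))

lemma smul_sub_P0 (k : ℕ) : (2 * (k + 1)) • P0 - P0 = (2 * k + 1) • P0 := by
  rw [show 2 * (k + 1) = (2 * k + 1) + 1 by ring, succ_nsmul, add_sub_cancel_right]

lemma smul_add_P0 (k : ℕ) : (2 * (k + 1)) • P0 + P0 = (2 * (k + 1) + 1) • P0 := by
  rw [← succ_nsmul]

lemma smul_sub_P0' (k : ℕ) : (2 * k + 1) • P0 - P0 = (2 * k) • P0 := by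
  rw [succ_nsmul, add_sub_cancel_right]

lemma smul_add_P0' (k : ℕ) : (2 * k + 1) • P0 + P0 = (2 * (k + 1)) • P0 := by
  rw [← succ_nsmul]; congr 1

lemma repA_zero : RepA 0 1 0 := ⟨by norm_num, le_rfl, Or.inl ⟨rfl, rfl, rfl⟩⟩

lemma repB_zero : RepB 0 1 1 := by
  refine ⟨by norm_num, le_rfl, le_rfl, ?_⟩
  rw [show 2 * 0 + 1 = 1 by norm_num, one_nsmul]
  refine ⟨1, by norm_num, ?_⟩
  unfold P0
  exact pt_congr (by norm_num) rfl

lemma repA_one : RepA 1 3 2 := by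
  refine ⟨by norm_num, by norm_num, Or.inr ⟨le_rfl, by norm_num, ?_⟩⟩
  rw [show 2 * 1 = 2 by norm_num, two_nsmul]
  have h := hasX_double (x := -1) (y := 1) (by norm_num) (by norm_num)
  have e : (((-1 : ℚ) ^ 2 + 2) / (2 * 1)) ^ 2 = ((3 : ℕ) : ℚ) ^ 2 / ((2 : ℕ) : ℚ) ^ 2 := by
    norm_num
  rw [e] at h
  exact h

/-- the neighbours of an even multiple -/
lemma RepA.step {k r w c d : ℕ} (hA : RepA (k + 1) r w) (hB : RepB k c d) :
    ∃ s c2 d2 : ℕ, AType r w s ∧ RepB (k + 1) c2 d2 ∧ d * d2 = r ^ 2 + w ^ 2 ∧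
      ((c2 * d = s + r * w ∧ c * d2 = ((s : ℤ) - r * w).natAbs) ∨
        (c * d2 = s + r * w ∧ c2 * d = ((s : ℤ) - r * w).natAbs)) := by
  obtain ⟨hc, hr, h⟩ := hA
  rcases h with ⟨hk, _, _⟩ | ⟨_, hw, hx⟩
  · omega
  obtain ⟨s, hs⟩ := exists_AType hr hw hc hx
  obtain ⟨c1, d1, c2, d2, hc1, hd1, hc2, hd2, hcop1, hcop2, hdd, hcd, hx1, hx2⟩ := stepA hs hw hx
  rw [smul_sub_P0] at hx1
  rw [smul_add_P0] at hx2
  obtain ⟨rfl, rfl⟩ := hB.unique ⟨hcop1, hc1, hd1, hx1⟩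
  exact ⟨s, c2, d2, hs, ⟨hcop2, hc2, hd2, hx2⟩, hdd, hcd⟩

/-- the neighbours of an odd multiple -/
lemma RepB.step {k r w c d : ℕ} (hA : RepA k r w) (hk : 1 ≤ k) (hB : RepB k c d) (hcd : c ≠ d) :
    ∃ r2 w2 : ℕ, RepA (k + 1) r2 w2 ∧ r * r2 = 2 * d ^ 2 + c ^ 2 := by
  obtain ⟨hcop, hc, hd, hx⟩ := hB
  obtain ⟨a, ha⟩ := exists_BType hc hd hcop hx
  obtain ⟨r1, w1, r2, w2, hr1, hw1, hr2, hw2, hcop1, hcop2, hrr, hx1, hx2⟩ := stepB ha hcd hx
  rw [smul_sub_P0'] at hx1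
  rw [smul_add_P0'] at hx2
  obtain ⟨rfl, rfl⟩ := hA.unique ⟨hcop1, hr1, Or.inr ⟨hk, hw1, hx1⟩⟩
  exact ⟨r2, w2, ⟨hcop2, hr2, Or.inr ⟨by omega, hw2, hx2⟩⟩, hrr⟩

/-- one induction for all the multiples -/
lemma exists_reps (k : ℕ) : ∃ r w c d r' w' : ℕ, RepA k r w ∧ RepB k c d ∧ RepA (k + 1) r' w' ∧
    r * r' = 2 * d ^ 2 + c ^ 2 ∧ r < r' := by
  induction k with
  | zero => exact ⟨1, 0, 1, 1, 3, 2, repA_zero, repB_zero, repA_one, by norm_num, by norm_num⟩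
  | succ k ih =>
    obtain ⟨r, w, c, d, r', w', hA, hB, hA', hrr, hlt⟩ := ih
    obtain ⟨s, c2, d2, hs, hB2, hdd, hcd⟩ := hA'.step hB
    have hne : c2 ≠ d2 := by
      intro he
      have h1 : Nat.Coprime d2 d2 := he ▸ hB2.1
      have h2 : d2 = 1 := (Nat.coprime_self _).1 h1
      rw [h2, mul_one] at hdd
      have h3 : d ≤ d ^ 2 := Nat.le_self_pow (by norm_num) _
      have h4 : r * r' < r' ^ 2 := by
        rw [sq]; exact Nat.mul_lt_mul_of_pos_right hlt (lt_of_le_of_lt (Nat.zero_le _) hlt)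
      omega
    obtain ⟨r2, w2, hA2, hrr2⟩ := RepB.step hA' (by omega) hB2 hne
    refine ⟨r', w', c2, d2, r2, w2, hA', hB2, hA2, hrr2, ?_⟩
    have hr1 : 1 ≤ r := hA.2.1
    have hrec : (r : ℤ) * r2 = 9 * (r' : ℤ) ^ 2 + 8 * (w' : ℤ) ^ 2 := by
      have hsq : ((c2 * d : ℕ) : ℤ) ^ 2 + ((c * d2 : ℕ) : ℤ) ^ 2 =
            2 * (s : ℤ) ^ 2 + 2 * ((r' : ℤ) * w') ^ 2 ∧
          ((c2 * d : ℕ) : ℤ) ^ 2 * ((c * d2 : ℕ) : ℤ) ^ 2 = ((s : ℤ) ^ 2 - ((r' : ℤ) * w') ^ 2) ^ 2 := by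
        rcases hcd with ⟨h1, h2⟩ | ⟨h1, h2⟩ <;> rw [h1, h2, Int.natCast_natAbs, sq_abs] <;>
          push_cast <;> constructor <;> ring
      refine rec_aux (Z := (s : ℤ)) (C1 := (c2 : ℤ)) (D1 := (d2 : ℤ)) (C := (c : ℤ)) (D := (d : ℤ))
        ?_ ?_ ?_ ?_ ?_ ?_ ?_
      · have := hA'.2.1; omega
      · exact_mod_cast hs.2
      · exact_mod_cast hrr
      · exact_mod_cast hrr2
      · exact_mod_cast hdd
      · have := hsq.1; push_cast at this; exact this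
      · have := hsq.2; push_cast at this; exact this
    have hrec' : r * r2 = 9 * r' ^ 2 + 8 * w' ^ 2 := by exact_mod_cast hrec
    have h5 : r * r' < r * r2 := by
      have h4 : r * r' < r' ^ 2 := by
        rw [sq]; exact Nat.mul_lt_mul_of_pos_right hlt (lt_of_le_of_lt (Nat.zero_le _) hlt)
      omega
    exact lt_of_mul_lt_mul_left h5 (Nat.zero_le _)

theorem exists_ellSeq : ∃ r w s c d a : ℕ → ℕ, EllSeq r w s c d a := by
  have h1 : ∀ k, ∃ r w c d : ℕ, RepA k r w ∧ RepB k c d := by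
    intro k
    obtain ⟨r, w, c, d, r', w', hA, hB, _⟩ := exists_reps k
    exact ⟨r, w, c, d, hA, hB⟩
  choose r w c d hA hB using h1
  have h0 : r 0 = 1 ∧ w 0 = 0 := (hA 0).unique repA_zero
  have hone : r 1 = 3 ∧ w 1 = 2 := (hA 1).unique repA_one
  have hwpos : ∀ k, 1 ≤ w (k + 1) := by
    intro k
    rcases (hA (k + 1)).2.2 with ⟨hk, _⟩ | ⟨_, hw, _⟩
    · omega
    · exact hw
  have hs : ∀ k, ∃ s, AType (r k) (w k) s := by
    intro k
    obtain ⟨hc, hr, h⟩ := hA k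
    rcases h with ⟨_, h2, h3⟩ | ⟨_, hw, hx⟩
    · refine ⟨1, hc, ?_⟩
      rw [h2, h3]; norm_num
    · exact exists_AType hr hw hc hx
  choose s hs using hs
  have ha : ∀ k, ∃ a, BType (c k) (d k) a := by
    intro k
    obtain ⟨hc, h2, h3, hx⟩ := hB k
    exact exists_BType h2 h3 hc hx
  choose a ha using ha
  have hstep : ∀ k, d k * d (k + 1) = r (k + 1) ^ 2 + w (k + 1) ^ 2 ∧
      ((c (k + 1) * d k = s (k + 1) + r (k + 1) * w (k + 1) ∧
        c k * d (k + 1) = ((s (k + 1) : ℤ) - r (k + 1) * w (k + 1)).natAbs) ∨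
      (c k * d (k + 1) = s (k + 1) + r (k + 1) * w (k + 1) ∧
        c (k + 1) * d k = ((s (k + 1) : ℤ) - r (k + 1) * w (k + 1)).natAbs)) := by
    intro k
    obtain ⟨s', c2, d2, hs', hB2, hdd, hcd⟩ := (hA (k + 1)).step (hB k)
    obtain ⟨rfl, rfl⟩ := hB2.unique (hB (k + 1))
    have hss : s' = s (k + 1) := by
      have h2 : s' ^ 2 = s (k + 1) ^ 2 := by
        have := hs'.2
        rw [(hs (k + 1)).2] at this
        omega
      exact Nat.pow_left_injective (n := 2) (by norm_num) h2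
    subst hss
    exact ⟨hdd, hcd⟩
  refine ⟨r, w, s, c, d, a, ?_⟩
  refine ⟨h0.1, h0.2, hone.1, hone.2, hs, ha, hwpos, fun k => (hB k).2.2.1, fun k => (hB k).2.1,
    fun k => (hstep k).1, ?_, ?_, ?_⟩
  · intro k
    rcases (hstep k).2 with ⟨h2, h3⟩ | ⟨h2, h3⟩
    · left; exact ⟨h2, by rw [h3, Int.natCast_natAbs]⟩
    · right; exact ⟨h2, by rw [h3, Int.natCast_natAbs]⟩
  · intro k
    obtain ⟨r1, w1, c1, d1, r2, w2, hA1, hB1, hA2, hrr, _⟩ := exists_reps k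
    obtain ⟨rfl, rfl⟩ := hA1.unique (hA k)
    obtain ⟨rfl, rfl⟩ := hB1.unique (hB k)
    obtain ⟨rfl, rfl⟩ := hA2.unique (hA (k + 1))
    exact hrr
  · intro x y z h
    rcases Nat.eq_zero_or_pos y with hy | hy
    · have hx : x = 1 := by
        have := h.1
        rw [hy, Nat.coprime_zero_right] at this
        exact this
      exact ⟨0, by rw [hx, h0.1], by rw [hy, h0.2]⟩
    · obtain ⟨n, hn, hx⟩ := complete_even h hy
      have hx1 : 1 ≤ x := by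
        rcases Nat.eq_zero_or_pos x with h2 | h2
        · have h3 := h.2
          rw [h2] at h3
          have : 0 < y ^ 4 := by positivity
          simp at h3
          omega
        · exact h2
      obtain ⟨h2, h3⟩ := RepA.unique (k := n) ⟨h.1, hx1, Or.inr ⟨hn, hy, hx⟩⟩ (hA n)
      exact ⟨n, h2, h3⟩

end Vale.Agent.P345
end

section

/-!
# Assembly: recursively enumerable sets are single-fold
-/

namespace Vale.Agent.P345

/-- The graph of exponentiation is single-fold. -/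
theorem SFn.pow : SFn (fun p : ℕ × ℕ => p.1 ^ p.2) :=
  SFn.pow_of_exists (exists_M_of_ellSeq exists_ellSeq)

/-- Every recursively enumerable set is single-fold. -/
theorem sf_of_rePred (n : ℕ) (S : Set (Fin n → ℕ)) (hS : REPred (fun a => a ∈ S)) :
    SF (fun a : Fin n → ℕ => a ∈ S) := re_sf SFn.pow n S hS

end Vale.Agent.P345
end
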